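import Vale.Agent.P188.H789.Model
import Vale.Agent.P188.H532.Input

/-!
# Route B: the geometric interface and the real model

`G : Geo S E (Z1.Ht k) ι L` is an instance of the interface of 532 on the real model `M`.
-/

set_option linter.all false

open MeasureTheory Set
open Vale.Agent.P188.Z1 (RModel)
open Vale.P188.H532 (Geo QIe ES Wd)

namespace Vale.Agent.P188.H789

variable {S : Type} [Group S] [MeasurableSpace S] {Γ : Type} [Group Γ]
  {V : Type} [AddCommGroup V] [Module ℝ V] {k : ℕ} (M : RModel S Γ V k)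

/-- The map of `S` defined by a map of `Γ`. -/
def lf (F : Γ → Γ) (z : S) : S := M.inG (F (M.fl z))

/-- `G` is an interface on the real model `M`. -/
structure Fits {E : Type} [Group E] [MeasurableSpace E] {ι L : Type} [Fintype ι] [DecidableEq ι]
    [Fintype L] (G : Geo S E (Z1.Ht k) ι L) : Prop where
  θ : ∀ z, G.θ z = M.θ z
  l : ∀ z, G.l z = M.l z
  inc : Measurable G.inc

variable {E : Type} [Group E] [MeasurableSpace E] {ι L : Type} [Fintype ι] [DecidableEq ι]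
  [Fintype L] {G : Geo S E (Z1.Ht k) ι L}

theorem mul_len (x y : S) : (M.l (x * y) : ℝ) ≤ M.l x + M.l y := by
  exact_mod_cast M.len.mul x y

theorem fl_len (z g : S) : (M.l (M.inG ((M.fl z)⁻¹ * M.fl (z * g))) : ℝ) ≤ M.l g + 2 * M.C0 := by
  have h1 := M.fl_close z
  have h2 := M.fl_close (z * g)
  have e : M.inG ((M.fl z)⁻¹ * M.fl (z * g)) =
      ((M.inG (M.fl z))⁻¹ * z) * (g * ((M.inG (M.fl (z * g)))⁻¹ * (z * g))⁻¹) := by
    rw [map_mul, map_inv]; group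
  rw [e]
  refine (mul_len M _ _).trans ?_
  have h3 := mul_len M g ((M.inG (M.fl (z * g)))⁻¹ * (z * g))⁻¹
  rw [M.len.inv] at h3
  linarith

theorem len_fl (z g : S) : (M.l g : ℝ) ≤ M.l (M.inG ((M.fl z)⁻¹ * M.fl (z * g))) + 2 * M.C0 := by
  have h1 := M.fl_close z
  have h2 := M.fl_close (z * g)
  have e : g = ((M.inG (M.fl z))⁻¹ * z)⁻¹ * (M.inG ((M.fl z)⁻¹ * M.fl (z * g)) *
      ((M.inG (M.fl (z * g)))⁻¹ * (z * g))) := by
    rw [map_mul, map_inv]; group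
  have h3 := mul_len M ((M.inG (M.fl z))⁻¹ * z)⁻¹ (M.inG ((M.fl z)⁻¹ * M.fl (z * g)) *
      ((M.inG (M.fl (z * g)))⁻¹ * (z * g)))
  have h4 := mul_len M (M.inG ((M.fl z)⁻¹ * M.fl (z * g)))
    ((M.inG (M.fl (z * g)))⁻¹ * (z * g))
  rw [← e, M.len.inv] at h3
  linarith

/-- **The maps of the model are quasi-isometric embeddings**, uniformly. -/
theorem qie_of_qim (hG : Fits M G) (K : ℝ) : ∃ Λ : ℝ, ∀ F F' : Γ → Γ, M.QIm K F F' →
    QIe G Λ (lf M F) := by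
  haveI := M.mm
  haveI := M.countable
  have hC0 := M.one_le_C0
  set K' := max K 1 with hK'
  have hK1 : 1 ≤ K' := le_max_right _ _
  have hKK : K ≤ K' := le_max_left _ _
  refine ⟨4 * K' * (2 * M.C0 + 1), fun F F' h => ⟨?_, ?_, ?_, ?_⟩⟩
  · nlinarith
  · intro z g
    rw [hG.l, hG.l]
    have h1 := h.lip (M.fl z) ((M.fl z)⁻¹ * M.fl (z * g))
    rw [mul_inv_cancel_left] at h1
    have h2 := fl_len M z g
    have e : (lf M F z)⁻¹ * lf M F (z * g) = M.inG ((F (M.fl z))⁻¹ * F (M.fl (z * g))) := by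
      unfold lf; rw [map_mul, map_inv]
    rw [e]
    have hg0 : (0 : ℝ) ≤ M.l g := Nat.cast_nonneg _
    have hl0 : (0 : ℝ) ≤ M.l (M.inG ((M.fl z)⁻¹ * M.fl (z * g))) := Nat.cast_nonneg _
    calc (M.l (M.inG ((F (M.fl z))⁻¹ * F (M.fl (z * g)))) : ℝ)
        ≤ K * (M.l (M.inG ((M.fl z)⁻¹ * M.fl (z * g))) + 1) := h1
      _ ≤ K' * (M.l (M.inG ((M.fl z)⁻¹ * M.fl (z * g))) + 1) :=
          mul_le_mul_of_nonneg_right hKK (by linarith)
      _ ≤ K' * ((M.l g + 2 * M.C0) + 1) := mul_le_mul_of_nonneg_left (by linarith) (by linarith)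
      _ ≤ 4 * K' * (2 * M.C0 + 1) * (M.l g + 1) := by nlinarith [mul_nonneg (by linarith : (0:ℝ) ≤ K') hg0, mul_nonneg (mul_nonneg (by linarith : (0:ℝ) ≤ K') hg0) (by linarith : (0:ℝ) ≤ M.C0)]
  · intro z g
    rw [hG.l, hG.l]
    have e : (lf M F z)⁻¹ * lf M F (z * g) = M.inG ((F (M.fl z))⁻¹ * F (M.fl (z * g))) := by
      unfold lf; rw [map_mul, map_inv]
    rw [e]
    set a := M.fl z
    set b := M.fl (z * g)
    have h1 := h.lip' (F a) ((F a)⁻¹ * F b)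
    rw [mul_inv_cancel_left] at h1
    have h2 := h.inv a
    have h3 := h.inv b
    have h4 := len_fl M z g
    have e2 : M.inG (a⁻¹ * b) = M.inG (a⁻¹ * F' (F a)) * (M.inG ((F' (F a))⁻¹ * F' (F b)) *
        (M.inG (b⁻¹ * F' (F b)))⁻¹) := by
      simp only [map_mul, map_inv]; group
    have h5 := mul_len M (M.inG (a⁻¹ * F' (F a))) (M.inG ((F' (F a))⁻¹ * F' (F b)) *
        (M.inG (b⁻¹ * F' (F b)))⁻¹)
    have h6 := mul_len M (M.inG ((F' (F a))⁻¹ * F' (F b))) (M.inG (b⁻¹ * F' (F b)))⁻¹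
    rw [M.len.inv] at h6
    rw [← e2] at h5
    have hl0 : (0 : ℝ) ≤ M.l (M.inG ((F a)⁻¹ * F b)) := Nat.cast_nonneg _
    have h7 : K * ((M.l (M.inG ((F a)⁻¹ * F b)) : ℝ) + 1) ≤
        K' * (M.l (M.inG ((F a)⁻¹ * F b)) + 1) := mul_le_mul_of_nonneg_right hKK (by linarith)
    calc (M.l g : ℝ) ≤ 2 * K' + K' * (M.l (M.inG ((F a)⁻¹ * F b)) + 1) + 2 * M.C0 := by linarith
      _ ≤ 4 * K' * (2 * M.C0 + 1) * (M.l (M.inG ((F a)⁻¹ * F b)) + 1) := by
          nlinarith [mul_nonneg (by linarith : (0:ℝ) ≤ K') hl0, mul_nonneg (mul_nonneg (by linarith : (0:ℝ) ≤ K') hl0) (by linarith : (0:ℝ) ≤ M.C0), mul_nonneg (by linarith : (0:ℝ) ≤ K' - 1) (by linarith : (0:ℝ) ≤ M.C0)]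
  · intro g h P
    have h1 : Measurable fun e : E => g * G.inc e * h :=
      (hG.inc.const_mul g).mul_const h
    letI : MeasurableSpace Γ := ⊤
    have h2 : Measurable M.fl := measurable_to_countable' fun a => M.fl_meas a
    have h3 : MeasurableSet {a : Γ | M.inG (F a) ∈ P} := trivial
    exact (h2.comp h1) h3

/-- **(ES) for the interface implies `ESF`.** -/
theorem esf_of_es (hG : Fits M G) {𝓕 : Set (Γ → Γ)} (h : ES G (lf M '' 𝓕)) : ESF M 𝓕 := by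
  intro ε hε
  obtain ⟨K, hK⟩ := h ε hε
  refine ⟨K, fun Ψ hΨ z z' => ?_⟩
  have h1 := hK (lf M Ψ) ⟨Ψ, hΨ, rfl⟩ z (z⁻¹ * z')
  rw [mul_inv_cancel_left, hG.l] at h1
  unfold Wd at h1
  rw [hG.θ, hG.θ, hG.θ, hG.θ] at h1
  exact h1

end Vale.Agent.P188.H789
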