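import Vale.Agent.P188.H789.FinalA
import Vale.Agent.P188.Z1.RModel

/-!
# From the real model to the group `H`

`M : RModel S Γ V k`, a coarse equivalence `F : H → Γ`, `F' : Γ → H`, the maps
`Psi h z = F (h * F' z)` of `Γ`.
-/

set_option linter.all false

universe u v w

open Pointwise
open Vale.Agent.P188.Z1 (RModel Ht)
open Vale.Agent.P188.H530 (hgt)

namespace Vale.Agent.P188.H789

/-- The maps of the family. -/
def Psi {H G : Type*} [Group H] (F : H → G) (F' : G → H) (h : H) (z : G) : G := F (h * F' z)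

/-- What the end needs about the model group. -/
structure GoodPair (Γ : Type) [Group Γ] (k : ℕ) (η : Γ →* Multiplicative (Fin k → ℤ)) :
    Prop where
  surj : Function.Surjective η
  polyZ : ∃ m, PolyZ m Γ
  ker_polyZ : ∃ m, PolyZ m η.ker
  nil : Group.IsNilpotent η.ker

section

variable {S : Type} [Group S] [MeasurableSpace S] {Γ : Type} [Group Γ]
  {V : Type} [AddCommGroup V] [Module ℝ V] {k : ℕ} (M : RModel S Γ V k)

/-- **Everywhere sublinear** for a family of maps. -/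
def ESF (𝓕 : Set (Γ → Γ)) : Prop :=
  ∀ ε : ℝ, 0 < ε → ∃ C : ℝ, ∀ Ψ ∈ 𝓕, ∀ z z' : S,
    ‖(M.f Ψ z' - M.θ z') - (M.f Ψ z - M.θ z)‖ ≤ ε * M.l (z⁻¹ * z') + C

/-- **Comparison along slab paths** for a family of maps. -/
def NEUF (𝓕 : Set (Γ → Γ)) : Prop :=
  ∀ A B ε : ℝ, 0 < ε → ∃ C : ℝ, ∀ (R : ℝ) (m : ℕ), C * (1 + Real.log (m + 1)) ≤ R →
    ∀ Ψ ∈ 𝓕, ∀ z : ℕ → S, (∀ i < m, (M.l ((z i)⁻¹ * z (i + 1)) : ℝ) ≤ A) →
      (∀ i ≤ m, ‖M.θ (z i) - M.θ (z 0)‖ ≤ B * R) →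
      (∀ i ≤ m, ‖M.f Ψ (z i) - M.f Ψ (z 0)‖ ≤ B * R) →
      ‖(M.f Ψ (z m) - M.θ (z m)) - (M.f Ψ (z 0) - M.θ (z 0))‖ ≤ ε * R

theorem closure_A : Subgroup.closure M.A = ⊤ := by
  rw [eq_top_iff]
  intro g _
  exact Bl_subset_closure _ _ (M.wordG g)

theorem len_Bl {n : ℕ} {g : Γ} (hg : g ∈ Bl M.A n) : (M.l (M.inG g) : ℝ) ≤ M.C0 * n := by
  obtain ⟨l, h1, h2, rfl⟩ := hg
  have key : ∀ l : List Γ, (∀ a ∈ l, a ∈ M.A ∨ a⁻¹ ∈ M.A) →
      (M.l (M.inG l.prod) : ℝ) ≤ M.C0 * l.length := by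
    intro l
    induction l with
    | nil =>
      intro _
      rw [List.prod_nil, map_one, M.len.one]
      simp
    | cons a l ih =>
      intro hl
      have h3 := ih (fun b hb => hl b (List.mem_cons_of_mem _ hb))
      have h4 : (M.l (M.inG a) : ℝ) ≤ M.C0 := by
        rcases hl a (by simp) with h | h
        · exact M.A_len a h
        · have := M.A_len _ h
          rwa [map_inv, M.len.inv] at this
      rw [List.prod_cons, map_mul, List.length_cons]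
      have h5 : (M.l (M.inG a * M.inG l.prod) : ℝ) ≤ M.l (M.inG a) + M.l (M.inG l.prod) := by
        exact_mod_cast M.len.mul _ _
      push_cast
      linarith
  refine (key l h2).trans ?_
  have := M.one_le_C0
  have h3 : (l.length : ℝ) ≤ n := by exact_mod_cast h1
  nlinarith

theorem len_finite {B : Set Γ} (hB : B.Finite) : ∃ c : ℝ, 0 ≤ c ∧ ∀ b ∈ B,
    (M.l (M.inG b) : ℝ) ≤ c := by
  obtain ⟨c, hc⟩ := (hB.image fun b => M.l (M.inG b)).bddAbove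
  exact ⟨c, Nat.cast_nonneg _, fun b hb => by exact_mod_cast hc ⟨b, hb, rfl⟩⟩

theorem ceil_le (x : ℕ) : ((⌈M.C0 * (x + 1)⌉₊ : ℕ) : ℝ) ≤ 2 * M.C0 * (x + 1) := by
  have h0 := M.one_le_C0
  have h1 : (0 : ℝ) ≤ x := Nat.cast_nonneg _
  have h2 : (0 : ℝ) ≤ M.C0 * (x + 1) := by positivity
  have h3 := Nat.ceil_lt_add_one h2
  nlinarith

variable {H : Type} [Group H] {F : H → Γ} {F' : Γ → H}

/-- **The family is uniformly quasi-isometric.** -/
theorem fam_QIm [Group.FG H] (hF : Coarse F) (hF' : Coarse F') (h1 : CloseId (F' ∘ F))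
    (h2 : CloseId (F ∘ F')) :
    ∃ K : ℝ, ∀ h : H, M.QIm K (Psi F F' h) (Psi F F' h⁻¹) := by
  classical
  obtain ⟨T, hTf, hT⟩ := exists_fin_gen (G := H) inferInstance
  have hAf := M.md.fin
  obtain ⟨c', hc'⟩ := _root_.Agent.P188.H428.coarse_Bl hF' hAf hT
  obtain ⟨c, hc⟩ := _root_.Agent.P188.H428.coarse_Bl hF hTf (closure_A M)
  obtain ⟨E, hE, hE'⟩ := h1
  obtain ⟨E₂, hE₂, hE₂'⟩ := h2
  obtain ⟨B, hB, hB'⟩ := hF E hE
  obtain ⟨c₂, hc₂0, hc₂⟩ := len_finite M (hE₂.mul hB)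
  have hC0 := M.one_le_C0
  have hlip : ∀ (h : H) (g y : Γ), (M.l (M.inG ((Psi F F' h g)⁻¹ * Psi F F' h (g * y))) : ℝ) ≤
      (2 * M.C0 ^ 2 * c * c' + c₂) * (M.l (M.inG y) + 1) := by
    intro h g y
    have hy := M.wordG y
    have e1 : (F' g)⁻¹ * F' (g * y) ∈ Bl T (c' * ⌈M.C0 * (M.l (M.inG y) + 1)⌉₊) := by
      refine hc' _ g (g * y) ?_
      rw [inv_mul_cancel_left]
      exact hy
    have e2 : (Psi F F' h g)⁻¹ * Psi F F' h (g * y) ∈
        Bl M.A (c * (c' * ⌈M.C0 * (M.l (M.inG y) + 1)⌉₊)) := by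
      refine hc _ (h * F' g) (h * F' (g * y)) ?_
      have : (h * F' g)⁻¹ * (h * F' (g * y)) = (F' g)⁻¹ * F' (g * y) := by group
      rw [this]
      exact e1
    have e3 := len_Bl M e2
    refine e3.trans ?_
    push_cast
    have e4 := ceil_le M (M.l (M.inG y))
    have e5 : M.C0 * (c * (c' * ((⌈M.C0 * (M.l (M.inG y) + 1)⌉₊ : ℕ) : ℝ))) ≤
        M.C0 * (c * (c' * (2 * M.C0 * (M.l (M.inG y) + 1)))) := by
      have : (0 : ℝ) ≤ M.C0 := by linarith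
      gcongr
    refine e5.trans ?_
    have e6 : M.C0 * (c * (c' * (2 * M.C0 * ((M.l (M.inG y) : ℝ) + 1)))) =
        (2 * M.C0 ^ 2 * c * c') * (M.l (M.inG y) + 1) := by ring
    rw [e6]
    have e7 : (0 : ℝ) ≤ (M.l (M.inG y) : ℝ) + 1 := by positivity
    nlinarith
  have hinv : ∀ (h : H) (g : Γ), (M.l (M.inG (g⁻¹ * Psi F F' h⁻¹ (Psi F F' h g))) : ℝ) ≤
      2 * M.C0 ^ 2 * c * c' + c₂ := by
    intro h g
    have e1 : g⁻¹ * Psi F F' h⁻¹ (Psi F F' h g) ∈ E₂ * B := by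
      have e2 : g⁻¹ * Psi F F' h⁻¹ (Psi F F' h g) = (g⁻¹ * F (F' g)) *
          ((F (F' g))⁻¹ * F (h⁻¹ * F' (F (h * F' g)))) := by
        unfold Psi; group
      rw [e2]
      refine Set.mul_mem_mul (hE₂' g) (hB' _ _ ?_)
      have e3 : (F' g)⁻¹ * (h⁻¹ * F' (F (h * F' g))) = (h * F' g)⁻¹ * F' (F (h * F' g)) := by
        group
      rw [e3]
      exact hE' (h * F' g)
    refine (hc₂ _ e1).trans ?_
    have : (0 : ℝ) ≤ 2 * M.C0 ^ 2 * c * c' := by positivity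
    linarith
  refine ⟨2 * M.C0 ^ 2 * c * c' + c₂, fun h => ⟨hlip h, hlip h⁻¹, hinv h, fun g => ?_⟩⟩
  have := hinv h⁻¹ g
  rwa [inv_inv] at this

/-- `M.f (Psi h)` at the image of `x` is the height of `F (h x)`, up to a constant. -/
theorem f_near {η : Γ →* Multiplicative (Fin k → ℤ)} (hη : ∀ g, M.η (M.inG g) = η g)
    (hF : Coarse F) (hF' : Coarse F') (h1 : CloseId (F' ∘ F)) :
    ∃ r : ℕ, ∀ (h x : H) (a : Fin k),
      |M.f (Psi F F' h) (M.inG (F x)) a - hts η F (h * x) a| ≤ r := by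
  obtain ⟨B₁, hB₁, hB₁'⟩ := hF' {M.fl 1} (Set.finite_singleton _)
  obtain ⟨E, hE, hE'⟩ := h1
  obtain ⟨B, hB, hB'⟩ := hF (E * B₁) (hE.mul hB₁)
  obtain ⟨r, hr⟩ := exists_slab_finite η hB
  refine ⟨r, fun h x a => ?_⟩
  have e1 : M.fl (M.inG (F x)) = F x * M.fl 1 := by
    have := M.fl_mul (F x) 1
    rwa [mul_one] at this
  have e2 : (F (h * x))⁻¹ * F (h * F' (F x * M.fl 1)) ∈ B := by
    refine hB' _ _ ?_
    have e3 : (h * x)⁻¹ * (h * F' (F x * M.fl 1)) =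
        (x⁻¹ * F' (F x)) * ((F' (F x))⁻¹ * F' (F x * M.fl 1)) := by group
    rw [e3]
    refine Set.mul_mem_mul (hE' x) (hB₁' _ _ ?_)
    rw [inv_mul_cancel_left]
    exact Set.mem_singleton _
  have e4 := hr e2 a
  unfold cz at e4
  rw [dif_pos a.2] at e4
  have h5 : (Multiplicative.toAdd (η ((F (h * x))⁻¹ * F (h * F' (F x * M.fl 1)))) : Fin k → ℤ) a =
      (Multiplicative.toAdd (η (F (h * F' (F x * M.fl 1)))) : Fin k → ℤ) a -
        (Multiplicative.toAdd (η (F (h * x))) : Fin k → ℤ) a := by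
    rw [map_mul, map_inv, toAdd_mul, toAdd_inv, Pi.add_apply, Pi.neg_apply]
    ring
  have h6 : ((Multiplicative.toAdd (η ((F (h * x))⁻¹ * F (h * F' (F x * M.fl 1)))) :
      Fin k → ℤ) a).natAbs ≤ r := e4
  rw [h5] at h6
  have h7 : |(Multiplicative.toAdd (η (F (h * F' (F x * M.fl 1)))) : Fin k → ℤ) a -
        (Multiplicative.toAdd (η (F (h * x))) : Fin k → ℤ) a| ≤ (r : ℤ) := by
    rw [← Int.natCast_natAbs]
    exact_mod_cast h6
  have h8 : M.f (Psi F F' h) (M.inG (F x)) a =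
      ((Multiplicative.toAdd (η (F (h * F' (F x * M.fl 1)))) a : ℤ) : ℝ) := by
    unfold RModel.f RModel.θ hgt Psi
    rw [e1, hη]
  rw [h8]
  unfold hts
  exact_mod_cast h7

theorem θ_F {η : Γ →* Multiplicative (Fin k → ℤ)} (hη : ∀ g, M.η (M.inG g) = η g) (x : H)
    (a : Fin k) : M.θ (M.inG (F x)) a = hts η F x a := by
  unfold RModel.θ hgt hts
  rw [hη]

/-- **`ESF` for the family of a subgroup implies `ESH`.** -/
theorem esh_of_esf {η : Γ →* Multiplicative (Fin k → ℤ)} (hη : ∀ g, M.η (M.inG g) = η g)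
    (hF : Coarse F) (hF' : Coarse F') (h1 : CloseId (F' ∘ F)) (H₀ : Subgroup H)
    (hES : ESF M (Psi F F' '' (H₀ : Set H))) {T : Set H₀} (hT : T.Finite) :
    ESH (fun x : H₀ => hts η F x) T := by
  intro ε hε
  obtain ⟨r, hr⟩ := f_near M hη hF hF' h1
  have hF₀ : Coarse (fun x : H₀ => F x) := by
    intro A hA
    obtain ⟨B, hB, hB'⟩ := hF ((fun p : H₀ => (p : H)) '' A) (hA.image _)
    exact ⟨B, hB, fun x y hxy => hB' x y ⟨_, hxy, by simp⟩⟩
  obtain ⟨c, hc⟩ := _root_.Agent.P188.H428.coarse_Bl hF₀ hT (closure_A M)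
  have hC0 := M.one_le_C0
  obtain ⟨C, hC⟩ := hES (ε / (M.C0 * c + 1)) (by positivity)
  refine ⟨C + 2 * r, fun n x hx h i => ?_⟩
  have e1 := hC (Psi F F' h) ⟨h, h.2, rfl⟩ (M.inG (F (1 : H₀))) (M.inG (F x))
  have e2 : (M.l ((M.inG (F (1 : H₀)))⁻¹ * M.inG (F x)) : ℝ) ≤ M.C0 * (c * n) := by
    rw [← map_inv, ← map_mul]
    have := len_Bl M (hc n (1 : H₀) x (by simpa using hx))
    push_cast at this
    exact this
  have e3 := (norm_le_pi_norm ((M.f (Psi F F' h) (M.inG (F x)) - M.θ (M.inG (F x))) -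
    (M.f (Psi F F' h) (M.inG (F (1 : H₀))) - M.θ (M.inG (F (1 : H₀))))) i).trans e1
  rw [Real.norm_eq_abs] at e3
  simp only [Pi.sub_apply] at e3
  rw [θ_F M hη, θ_F M hη] at e3
  have e4 := hr h x i
  have e5 := hr h (1 : H₀) i
  have e6 : ε / (M.C0 * c + 1) * (M.l ((M.inG (F (1 : H₀)))⁻¹ * M.inG (F x)) : ℝ) ≤ ε * n := by
    have e7 : ε / (M.C0 * c + 1) * (M.l ((M.inG (F (1 : H₀)))⁻¹ * M.inG (F x)) : ℝ) ≤
        ε / (M.C0 * c + 1) * (M.C0 * (c * n)) :=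
      mul_le_mul_of_nonneg_left e2 (by positivity)
    refine e7.trans ?_
    rw [div_mul_eq_mul_div, div_le_iff₀ (by positivity)]
    have : (0 : ℝ) ≤ ε * n := by positivity
    nlinarith
  simp only [Subgroup.coe_mul, Subgroup.coe_one]
  rw [Subgroup.coe_one, mul_one] at e5
  rw [Subgroup.coe_one] at e3 e6
  rw [abs_le] at e3 e4 e5 ⊢
  constructor <;> linarith [e3.1, e3.2, e4.1, e4.2, e5.1, e5.2]

/-- **`NEUF` for the family of a subgroup implies `NeuH`.** -/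
theorem neuH_of_neuf {η : Γ →* Multiplicative (Fin k → ℤ)} (hη : ∀ g, M.η (M.inG g) = η g)
    (hF : Coarse F) (hF' : Coarse F') (h1 : CloseId (F' ∘ F)) (H₀ : Subgroup H)
    (hN : NEUF M (Psi F F' '' (H₀ : Set H))) {B : Set H₀} (hB : B.Finite) :
    NeuH (fun x : H₀ => hts η F x) B := by
  obtain ⟨r, hr⟩ := f_near M hη hF hF' h1
  have hF₀ : Coarse (fun x : H₀ => F x) := by
    intro A hA
    obtain ⟨B, hB, hB'⟩ := hF ((fun p : H₀ => (p : H)) '' A) (hA.image _)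
    exact ⟨B, hB, fun x y hxy => hB' x y ⟨_, hxy, by simp⟩⟩
  obtain ⟨B', hB'f, hB'⟩ := hF₀ B hB
  obtain ⟨A, hA0, hA⟩ := len_finite M hB'f
  obtain ⟨C, hC⟩ := hN A 3 (1 / 8) (by norm_num)
  refine ⟨max (max C (16 * r)) 0, fun R m hRm h y hy hy1 hy2 a => ?_⟩
  have hlog : 0 ≤ Real.log ((m : ℝ) + 1) := Real.log_nonneg (by
    have : (0 : ℝ) ≤ m := Nat.cast_nonneg _
    linarith)
  have hR1 : C * (1 + Real.log ((m : ℝ) + 1)) ≤ R := by
    refine le_trans (mul_le_mul_of_nonneg_right ?_ (by linarith)) hRm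
    exact (le_max_left _ _).trans (le_max_left _ _)
  have hR2 : 16 * (r : ℝ) ≤ R := by
    have h3 : 16 * (r : ℝ) ≤ max (max C (16 * r)) 0 := (le_max_right _ _).trans (le_max_left _ _)
    have h4 : (0 : ℝ) ≤ max (max C (16 * r)) 0 := le_max_right _ _
    nlinarith
  have hr0 : (0 : ℝ) ≤ r := Nat.cast_nonneg _
  have hR0 : 0 ≤ R := by linarith
  have e1 := hC R m hR1 (Psi F F' h) ⟨h, h.2, rfl⟩ (fun i => M.inG (F (y i)))
    (fun i hi => by
      rw [← map_inv, ← map_mul]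
      exact hA _ (hB' _ _ (hy i hi)))
    (fun i hi => by
      rw [pi_norm_le_iff_of_nonneg (by positivity)]
      intro a
      rw [Real.norm_eq_abs, Pi.sub_apply, θ_F M hη, θ_F M hη]
      refine (hy1 i hi a).trans ?_
      linarith)
    (fun i hi => by
      rw [pi_norm_le_iff_of_nonneg (by positivity)]
      intro a
      rw [Real.norm_eq_abs, Pi.sub_apply]
      have e2 := hy2 i hi a
      have e3 := hr h (y i) a
      have e4 := hr h (y 0) a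
      simp only [Subgroup.coe_mul] at e2
      rw [abs_le] at e2 e3 e4 ⊢
      constructor <;> linarith [e2.1, e2.2, e3.1, e3.2, e4.1, e4.2])
  have e3 := (norm_le_pi_norm _ a).trans e1
  rw [Real.norm_eq_abs] at e3
  simp only [Pi.sub_apply] at e3
  rw [θ_F M hη, θ_F M hη] at e3
  have e4 := hr h (y m) a
  have e5 := hr h (y 0) a
  simp only [Subgroup.coe_mul]
  rw [abs_le] at e3 e4 e5 ⊢
  constructor <;> linarith [e3.1, e3.2, e4.1, e4.2, e5.1, e5.2]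

end

/-- **Existence of the real model** (for a finite index subgroup of the group of `Z0`). -/
def ModelEx : Prop :=
  ∀ (Γ : Type) [Group Γ] (k : ℕ) (η : Γ →* Multiplicative (Fin k → ℤ)), 0 < k →
    H187.Z0 Γ k η → ∃ (Γ' : Type) (_ : Group Γ') (k' : ℕ)
      (η' : Γ' →* Multiplicative (Fin k' → ℤ)), CoarseEquiv Γ Γ' ∧ GoodPair Γ' k' η' ∧
      ∃ (S : Type) (_ : Group S) (_ : MeasurableSpace S) (V : Type) (_ : AddCommGroup V)
        (_ : Module ℝ V) (M : RModel S Γ' V k'), ∀ g, M.η (M.inG g) = η' g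

/-- **The analytic part, route B.** -/
def AnaB : Prop :=
  ∀ (S : Type) [Group S] [MeasurableSpace S] (Γ : Type) [Group Γ] (V : Type) [AddCommGroup V]
    [Module ℝ V] (k : ℕ) (M : RModel S Γ V k) (H : Type) [Group H] [Group.FG H]
    (F : H → Γ) (F' : Γ → H), Coarse F → Coarse F' → CloseId (F' ∘ F) → CloseId (F ∘ F') →
    ∃ (H₀ : Subgroup H) (_ : H₀.FiniteIndex),
      ESF M (Psi F F' '' (H₀ : Set H)) ∧ NEUF M (Psi F F' '' (H₀ : Set H))

theorem GoodPair.growth {Γ : Type} [Group Γ] {k : ℕ} {η : Γ →* Multiplicative (Fin k → ℤ)}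
    (h : GoodPair Γ k η) : ∃ A : Set Γ, A.Finite ∧ Subgroup.closure A = η.ker ∧
      ∃ C D : ℕ, ∀ n, (Bl A n).ncard ≤ C * (n + 1) ^ D := by
  classical
  obtain ⟨m, hm⟩ := h.ker_polyZ
  obtain ⟨S₁, hS₁, hS₁f⟩ := Group.fg_iff.mp (H754.PolyZ.fg m hm)
  obtain ⟨C, D, hg⟩ := nil_growth m η.ker hm h.nil S₁ hS₁f
  refine ⟨Subtype.val '' S₁, hS₁f.image _, ?_, C, D, fun n => ?_⟩
  · have h1 : Subgroup.closure (Subtype.val '' S₁) = (Subgroup.closure S₁).map η.ker.subtype := by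
      rw [MonoidHom.map_closure]; rfl
    rw [h1, hS₁, ← MonoidHom.range_eq_map, Subgroup.range_subtype]
  · have h1 : Bl (Subtype.val '' S₁) n ⊆ η.ker.subtype '' Bl S₁ n := Bl_image η.ker.subtype S₁ n
    exact ((Set.ncard_le_ncard h1 ((Bl_finite hS₁f n).image _)).trans
      (Set.ncard_image_le (Bl_finite hS₁f n))).trans (hg n)

/-- the final step, route B, for a good pair -/
theorem vp_of_esh {Γ : Type} [Group Γ] {k : ℕ} {η : Γ →* Multiplicative (Fin k → ℤ)}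
    (hZ : GoodPair Γ k η) {H : Type} [Group H] {F : H → Γ} {F' : Γ → H}
    (hF : Coarse F) (hF' : Coarse F') (hFF : CloseId (F' ∘ F)) (hFF' : CloseId (F ∘ F'))
    {H₀ : Subgroup H} (hH₀ : H₀.FiniteIndex) {S : Set H₀} (hSf : S.Finite)
    (hS : Subgroup.closure S = ⊤) (hES : ESH (fun x : H₀ => hts η F x) S)
    (hneu : NeuH (fun x : H₀ => hts η F x) (S ∪ S⁻¹ ∪ {1})) : IsVirtuallyPolycyclic H := by
  classical
  obtain ⟨F₀', c1, c2, c3, c4⟩ := coarse_restrict hF hF' hFF hFF' H₀ hH₀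
  obtain ⟨m, hm⟩ := hZ.polyZ
  obtain ⟨μ, hμ, hinv⟩ : HasMean H₀ :=
    hasMean_of_coarseEquiv ⟨_, _, c1, c2, c3, c4⟩ (hasMean_of_PolyZ m Γ hm)
  obtain ⟨A, hA, hcl, C, D, hgr⟩ := hZ.growth
  obtain ⟨B, hBf, hB⟩ := exists_fin_gen (H754.PolyZ.fg m hm)
  have hBfin : (S ∪ S⁻¹ ∪ {1}).Finite := (hSf.union hSf.inv).union (Set.finite_singleton 1)
  obtain ⟨L, hL⟩ := hts_lip η c1 hBfin
  have hcmp : Cmp μ (hts η fun x : H₀ => F x) (S ∪ S⁻¹ ∪ {1}) :=
    cmp_of_neu (L := L) hμ hL hneu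
  have hadd : Addv (chi μ (hts η fun x : H₀ => F x)) := chi_addv hμ hinv hS hL
  obtain ⟨C', D', hC', hSG⟩ := slabGrowth_of_cmp hZ.surj hA hcl hgr c1 c3 hμ hinv
    (χ := chi μ (hts η fun x : H₀ => F x)) (fun _ _ => rfl) hSf hcmp
  have hnear := chi_near (μ := μ) (ψ := hts η fun x : H₀ => F x) hμ hS hL hES
  have hconn : SubConn (chi μ (hts η fun x : H₀ => F x)) S :=
    _root_.Agent.P188.H428.subConn_of_near hZ.surj hA hcl hBf hB hSf hS c1 c2 c3 c4 hadd hnear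
  exact isVirtuallyPolycyclic_of_addv hH₀ hadd hC' hSf hS hSG hconn

/-- the final step, route A, for a good pair -/
theorem vp_of_cmp' (hEnd : EndA) {Γ : Type} [Group Γ] {k : ℕ}
    {η : Γ →* Multiplicative (Fin k → ℤ)}
    (hZ : GoodPair Γ k η) {H : Type} [Group H] {F : H → Γ} {F' : Γ → H}
    (hF : Coarse F) (hF' : Coarse F') (hFF : CloseId (F' ∘ F)) (hFF' : CloseId (F ∘ F'))
    {H₀ : Subgroup H} (hH₀ : H₀.FiniteIndex) {S : Set H₀} (hSf : S.Finite)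
    (hS : Subgroup.closure S = ⊤) {μ : (H₀ → ℝ) → ℝ} (hμ : IsMean μ)
    (hinv : ∀ (g : H₀) f, Bdd f → μ (fun x => f (x * g)) = μ f)
    (hcmp : Cmp μ (hts η fun x : H₀ => F x) (S ∪ S⁻¹ ∪ {1})) : IsVirtuallyPolycyclic H := by
  classical
  obtain ⟨F₀', c1, c2, c3, c4⟩ := coarse_restrict hF hF' hFF hFF' H₀ hH₀
  obtain ⟨m, hm⟩ := hZ.polyZ
  obtain ⟨A, hA, hcl, C, D, hgr⟩ := hZ.growth
  have hBfin : (S ∪ S⁻¹ ∪ {1}).Finite := (hSf.union hSf.inv).union (Set.finite_singleton 1)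
  obtain ⟨L, hL⟩ := hts_lip η c1 hBfin
  have hadd : Addv (chi μ (hts η fun x : H₀ => F x)) := chi_addv hμ hinv hS hL
  obtain ⟨C', D', hC', hSG⟩ := slabGrowth_of_cmp hZ.surj hA hcl hgr c1 c3 hμ hinv
    (χ := chi μ (hts η fun x : H₀ => F x)) (fun _ _ => rfl) hSf hcmp
  have : Group.FG H₀ := Group.fg_iff.mpr ⟨S, hS, hSf⟩
  refine isVirtuallyPolycyclic_of_finiteIndex hH₀
    (hEnd m Γ H₀ hm ⟨_, _, c1, c2, c3, c4⟩ hadd.ker hadd.ker_normal (fun x y => ?_) D'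
      (growthLE_ker hadd hS hSG))
  rw [commutatorElement_def]
  exact hadd.comm_mem x y

theorem fg_of_finiteIndex {H : Type u} [Group H] [Group.FG H] (H₀ : Subgroup H)
    (h : H₀.FiniteIndex) : ∃ S : Set H₀, S.Finite ∧ Subgroup.closure S = ⊤ := by
  exact exists_fin_gen (Subgroup.fg_of_index_ne_zero H₀)

/-- **Route B in the model form.** -/
theorem core_of_anaB (hM : ModelEx) (hB : AnaB) : H187.Core := by
  intro Γ _ k η hZ H _ hfg hc
  rcases Nat.eq_zero_or_pos k with hk | hk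
  · subst hk
    obtain ⟨F, F', hF, hF', hFF, hFF'⟩ := hc
    obtain ⟨S, hSf, hS⟩ := fg_of_finiteIndex (⊤ : Subgroup H) inferInstance
    exact vps_of_ES hZ hF hF' hFF hFF' (H₀ := ⊤) inferInstance hSf hS
      (fun ε _ => ⟨0, fun n x _ h i => i.elim0⟩)
      ⟨0, fun R m _ h y _ _ _ a => a.elim0⟩
  · obtain ⟨Γ', _, k', η', hc', hG, S, _, _, V, _, _, M, hη⟩ := hM Γ k η hk hZ
    obtain ⟨F, F', hF, hF', hFF, hFF'⟩ := hc.trans hc'
    obtain ⟨H₀, hH₀, hES, hN⟩ := hB S Γ' V k' M H F F' hF hF' hFF hFF'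
    obtain ⟨T, hTf, hT⟩ := fg_of_finiteIndex H₀ hH₀
    exact vp_of_esh hG hF hF' hFF hFF' hH₀ hTf hT
      (esh_of_esf M hη hF hF' hFF H₀ hES hTf)
      (neuH_of_neuf M hη hF hF' hFF H₀ hN
        ((hTf.union hTf.inv).union (Set.finite_singleton 1)))

/-- **The rigidity theorem from the model form of route B.** -/
theorem rigidity_of_anaB (hM : ModelEx) (hB : AnaB) {H : Type u} {G : Type v} [Group H] [Group G]
    (hG : IsVirtuallyPolycyclic G) (hQ : QuasiIsometric H G) : IsVirtuallyPolycyclic H :=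
  H187.rigidity_of_core (core_of_anaB hM hB) hG hQ

end Vale.Agent.P188.H789
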