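import Vale.Agent.P188.H789.Exit2

/-!
# First exit: from the comparison of slab paths (NEU) to `Cmp`
-/

universe u v w

open Pointwise

namespace Vale.Agent.P188.H789

variable {H : Type u} [Group H] {k : ℕ}

/-- **Comparison of slab paths, everywhere** (route B): if the increments of `ψ` along `y` are
bounded by `R` and those along `h y` by `2 R`, with `R` large compared to `log m`, then the total
increments differ by at most `R / 4`. -/
def NeuH (ψ : H → Fin k → ℝ) (B : Set H) : Prop :=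
  ∃ C : ℝ, ∀ (R : ℝ) (m : ℕ), C * (1 + Real.log (m + 1)) ≤ R → ∀ (h : H) (y : ℕ → H),
    (∀ i < m, (y i)⁻¹ * y (i + 1) ∈ B) →
    (∀ i ≤ m, ∀ a, |ψ (y i) a - ψ (y 0) a| ≤ R) →
    (∀ i ≤ m, ∀ a, |ψ (h * y i) a - ψ (h * y 0) a| ≤ 2 * R) →
    ∀ a, |(ψ (h * y m) a - ψ (h * y 0) a) - (ψ (y m) a - ψ (y 0) a)| ≤ R / 4

theorem mset_empty {X : Type u} {μ : (X → ℝ) → ℝ} (hμ : IsMean μ) : mset μ (∅ : Set X) = 0 := by
  unfold mset
  rw [Set.indicator_empty]
  exact hμ.const 0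

theorem goodAt_of_neu {μ : (H → ℝ) → ℝ} (hμ : IsMean μ) {ψ : H → Fin k → ℝ} {B : Set H} {L : ℝ}
    (hL0 : 0 ≤ L) (hL : ∀ x, ∀ s ∈ B, ∀ a, |ψ (x * s) a - ψ x a| ≤ L) {C : ℝ} (hC : 0 ≤ C)
    (hneu : ∀ (R : ℝ) (m : ℕ), C * (1 + Real.log (m + 1)) ≤ R → ∀ (h : H) (y : ℕ → H),
      (∀ i < m, (y i)⁻¹ * y (i + 1) ∈ B) →
      (∀ i ≤ m, ∀ a, |ψ (y i) a - ψ (y 0) a| ≤ R) →
      (∀ i ≤ m, ∀ a, |ψ (h * y i) a - ψ (h * y 0) a| ≤ 2 * R) →
      ∀ a, |(ψ (h * y m) a - ψ (h * y 0) a) - (ψ (y m) a - ψ (y 0) a)| ≤ R / 4)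
    {R : ℝ} (hR : 2 * L ≤ R) {m : ℕ} (hRm : C * (1 + Real.log (m + 1)) ≤ R) {y : ℕ → H}
    (hy0 : y 0 = 1) (hy : ∀ i < m, (y i)⁻¹ * y (i + 1) ∈ B) (g : H) : GoodAt μ ψ R m y g := by
  refine ⟨∅, by rw [mset_empty hμ]; simp, fun h _ j hj hconf => ?_⟩
  have hRj : ∀ i ≤ m, C * (1 + Real.log (i + 1)) ≤ R := by
    intro i hi
    refine le_trans (mul_le_mul_of_nonneg_left ?_ hC) hRm
    have : Real.log ((i : ℝ) + 1) ≤ Real.log ((m : ℝ) + 1) := by
      apply Real.log_le_log (by positivity)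
      have : (i : ℝ) ≤ m := by exact_mod_cast hi
      linarith
    linarith
  have hstep : ∀ (u : H), ∀ i < m, (u * y i)⁻¹ * (u * y (i + 1)) ∈ B := by
    intro u i hi
    have : (u * y i)⁻¹ * (u * y (i + 1)) = (y i)⁻¹ * y (i + 1) := by group
    rw [this]
    exact hy i hi
  have key : ∀ j' ≤ j, (∀ i ≤ j', ∀ a, |ψ (h * (g * y i)) a - ψ (h * g) a| ≤ 2 * R) ∧
      ∀ a, |(ψ (h * (g * y j')) a - ψ (h * g) a) - (ψ (g * y j') a - ψ g a)| ≤ R / 4 := by
    intro j'
    have hfin : (∀ i ≤ j', ∀ a, |ψ (h * (g * y i)) a - ψ (h * g) a| ≤ 2 * R) → j' ≤ j →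
        ∀ a, |(ψ (h * (g * y j')) a - ψ (h * g) a) - (ψ (g * y j') a - ψ g a)| ≤ R / 4 := by
      intro h1 h2 a
      have := hneu R j' (hRj j' (by omega)) h (fun i => g * y i)
        (fun i hi => hstep g i (by omega))
        (fun i hi a => by rw [hy0, mul_one]; exact hconf i (by omega) a)
        (fun i hi a => by rw [hy0, mul_one]; exact h1 i hi a) a
      simpa [hy0] using this
    induction j' with
    | zero =>
      intro hj'
      have h1 : ∀ i ≤ 0, ∀ a, |ψ (h * (g * y i)) a - ψ (h * g) a| ≤ 2 * R := by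
        intro i hi a
        have : i = 0 := by omega
        rw [this, hy0, mul_one, sub_self, abs_zero]
        linarith
      exact ⟨h1, hfin h1 hj'⟩
    | succ j' ih =>
      intro hj'
      obtain ⟨h1, h2⟩ := ih (fun h1 h2 a => by
        have := hneu R j' (hRj j' (by omega)) h (fun i => g * y i)
          (fun i hi => hstep g i (by omega))
          (fun i hi a => by rw [hy0, mul_one]; exact hconf i (by omega) a)
          (fun i hi a => by rw [hy0, mul_one]; exact h1 i hi a) a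
        simpa [hy0] using this) (by omega)
      have h3 : ∀ i ≤ j' + 1, ∀ a, |ψ (h * (g * y i)) a - ψ (h * g) a| ≤ 2 * R := by
        intro i hi a
        rcases Nat.lt_or_ge i (j' + 1) with hlt | hge
        · exact h1 i (by omega) a
        have hij : i = j' + 1 := by omega
        rw [hij]
        have h4 := hL (h * (g * y j')) _ (hy j' (by omega)) a
        rw [mul_assoc h, mul_assoc g, mul_inv_cancel_left] at h4
        have h5 := h2 a
        have h6 := hconf j' (by omega) a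
        rw [abs_le] at h4 h5 h6 ⊢
        constructor <;> linarith [h4.1, h4.2, h5.1, h5.2, h6.1, h6.2]
      exact ⟨h3, hfin h3 hj'⟩
  exact (key j le_rfl).2

theorem cmp_of_neu {μ : (H → ℝ) → ℝ} (hμ : IsMean μ) {ψ : H → Fin k → ℝ} {B : Set H} {L : ℝ}
    (hL : ∀ x, ∀ s ∈ B, ∀ a, |ψ (x * s) a - ψ x a| ≤ L) (hneu : NeuH ψ B) : Cmp μ ψ B := by
  obtain ⟨C, hneu⟩ := hneu
  set C' : ℝ := max C 1 with hC'
  have hC'1 : 1 ≤ C' := le_max_right _ _
  have hC'0 : 0 < C' := by linarith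
  refine ⟨1 / (2 * C'), by positivity, max (4 * C') (2 * max L 0), fun R hR m hm y hy0 hy => ?_⟩
  have hR1 : 4 * C' ≤ R := (le_max_left _ _).trans hR
  have hR2 : 2 * max L 0 ≤ R := (le_max_right _ _).trans hR
  have hlog : Real.log ((m : ℝ) + 1) ≤ 1 + 1 / (2 * C') * R := by
    have hR0 : 0 ≤ R := by linarith
    have h0 : 0 ≤ 1 / (2 * C') * R := by positivity
    have h1 : 1 ≤ Real.exp (1 / (2 * C') * R) := Real.one_le_exp h0
    have h2 : (m : ℝ) + 1 ≤ Real.exp (1 + 1 / (2 * C') * R) := by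
      rw [Real.exp_add]
      have h3 : (2 : ℝ) ≤ Real.exp 1 := by linarith [Real.add_one_le_exp (1 : ℝ)]
      nlinarith
    calc Real.log ((m : ℝ) + 1) ≤ Real.log (Real.exp (1 + 1 / (2 * C') * R)) :=
          Real.log_le_log (by positivity) h2
      _ = _ := Real.log_exp _
  have hRm : C' * (1 + Real.log ((m : ℝ) + 1)) ≤ R := by
    have h1 : C' * (1 + Real.log ((m : ℝ) + 1)) ≤ C' * (1 + (1 + 1 / (2 * C') * R)) :=
      mul_le_mul_of_nonneg_left (by linarith) hC'0.le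
    have h2 : C' * (1 + (1 + 1 / (2 * C') * R)) = 2 * C' + R / 2 := by
      field_simp
      ring
    linarith
  have hall : {g | ¬ GoodAt μ ψ R m y g} = ∅ := by
    rw [Set.eq_empty_iff_forall_notMem]
    intro g hg
    refine hg (goodAt_of_neu (L := max L 0) (C := C') hμ (le_max_right _ _)
      (fun x s hs a => (hL x s hs a).trans (le_max_left _ _)) hC'0.le ?_ hR2 hRm hy0 hy g)
    intro R' m' hRm' h y' h1 h2 h3
    refine hneu R' m' (le_trans ?_ hRm') h y' h1 h2 h3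
    have : 0 ≤ Real.log ((m' : ℝ) + 1) := Real.log_nonneg (by
      have : (0 : ℝ) ≤ m' := Nat.cast_nonneg _
      linarith)
    exact mul_le_mul_of_nonneg_right (le_max_left _ _) (by linarith)
  rw [hall, mset_empty hμ]
  norm_num

end Vale.Agent.P188.H789
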