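import Vale.Agent.P188.Poly2

/-! P188, end game: finite generation of the kernel from the Milnor property. -/

universe u v w

open Pointwise

namespace Vale.Agent.P188.H789

variable {H : Type u} [Group H]

/-- The conjugates of the elements of `Y` by the powers of `t`. -/
def Zorb (t : H) (Y : Set H) : Set H := {x | ∃ z : ℤ, ∃ y ∈ Y, x = t ^ z * y * (t ^ z)⁻¹}

/-- The Milnor property for `t` and `K`. -/
def Mil (K : Subgroup H) (t : H) : Prop :=
  ∀ y ∈ K, ∃ n : ℕ, t ^ n * y * (t ^ n)⁻¹ ∈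
    Subgroup.closure {x | ∃ i < n, x = t ^ i * y * (t ^ i)⁻¹}

theorem mil_single {t y : H} {n : ℕ} (h : t ^ n * y * (t ^ n)⁻¹ ∈
    Subgroup.closure {x | ∃ i < n, x = t ^ i * y * (t ^ i)⁻¹}) (j : ℕ) :
    t ^ j * y * (t ^ j)⁻¹ ∈ Subgroup.closure {x | ∃ i < n, x = t ^ i * y * (t ^ i)⁻¹} := by
  set M := Subgroup.closure {x | ∃ i < n, x = t ^ i * y * (t ^ i)⁻¹} with hM
  have hconj : ∀ x ∈ M, t * x * t⁻¹ ∈ M := by
    intro x hx
    induction hx using Subgroup.closure_induction with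
    | mem x hx =>
      obtain ⟨i, hi, rfl⟩ := hx
      have e : t * (t ^ i * y * (t ^ i)⁻¹) * t⁻¹ = t ^ (i + 1) * y * (t ^ (i + 1))⁻¹ := by
        rw [pow_succ']; group
      rw [e]
      by_cases hin : i + 1 < n
      · exact Subgroup.subset_closure ⟨i + 1, hin, rfl⟩
      · have : i + 1 = n := by omega
        rw [this]
        exact h
    | one => simp
    | mul a b _ _ ha hb =>
      have e : t * (a * b) * t⁻¹ = (t * a * t⁻¹) * (t * b * t⁻¹) := by group
      rw [e]
      exact M.mul_mem ha hb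
    | inv a _ ha =>
      have e : t * a⁻¹ * t⁻¹ = (t * a * t⁻¹)⁻¹ := by group
      rw [e]
      exact M.inv_mem ha
  by_cases hn : n = 0
  · subst hn
    have h0 : y ∈ M := by simpa using h
    induction j with
    | zero => simpa using h0
    | succ j ih =>
      have e : t ^ (j + 1) * y * (t ^ (j + 1))⁻¹ = t * (t ^ j * y * (t ^ j)⁻¹) * t⁻¹ := by
        rw [pow_succ']; group
      rw [e]
      exact hconj _ ih
  · induction j with
    | zero => exact Subgroup.subset_closure ⟨0, by omega, rfl⟩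
    | succ j ih =>
      have e : t ^ (j + 1) * y * (t ^ (j + 1))⁻¹ = t * (t ^ j * y * (t ^ j)⁻¹) * t⁻¹ := by
        rw [pow_succ']; group
      rw [e]
      exact hconj _ ih

theorem mil_finite {K : Subgroup H} (hK : K.Normal) {t : H} (h : Mil K t) {Y : Set H}
    (hY : Y.Finite) (hYK : Y ⊆ K) :
    ∃ Y₁ : Set H, Y₁.Finite ∧ Y₁ ⊆ K ∧ Y ⊆ Y₁ ∧
      (∀ x ∈ Y₁, ∃ i : ℕ, ∃ y ∈ Y, x = t ^ i * y * (t ^ i)⁻¹) ∧
      ∀ (i : ℕ), ∀ y ∈ Y, t ^ i * y * (t ^ i)⁻¹ ∈ Subgroup.closure Y₁ := by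
  classical
  have h' : ∀ y : H, ∃ n : ℕ, y ∈ Y → t ^ n * y * (t ^ n)⁻¹ ∈
      Subgroup.closure {x | ∃ i < n, x = t ^ i * y * (t ^ i)⁻¹} := by
    intro y
    by_cases hy : y ∈ Y
    · obtain ⟨n, hn⟩ := h y (hYK hy)
      exact ⟨n, fun _ => hn⟩
    · exact ⟨0, fun h => absurd h hy⟩
  choose n hn using h'
  let Y₁ : Set H := ⋃ y ∈ Y, (fun i : ℕ => t ^ i * y * (t ^ i)⁻¹) '' Set.Iic (n y)
  have hsub : ∀ y ∈ Y, {x | ∃ i < n y, x = t ^ i * y * (t ^ i)⁻¹} ⊆ Y₁ := by
    rintro y hy _ ⟨i, hi, rfl⟩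
    exact Set.mem_biUnion hy ⟨i, hi.le, rfl⟩
  refine ⟨Y₁, hY.biUnion fun y _ => (Set.finite_Iic _).image _, ?_, ?_, ?_, ?_⟩
  · intro x hx
    simp only [Y₁, Set.mem_iUnion] at hx
    obtain ⟨y, hy, i, _, rfl⟩ := hx
    exact hK.conj_mem y (hYK hy) _
  · intro y hy
    exact Set.mem_biUnion hy ⟨0, Nat.zero_le _, by simp⟩
  · intro x hx
    simp only [Y₁, Set.mem_iUnion] at hx
    obtain ⟨y, hy, i, _, rfl⟩ := hx
    exact ⟨i, y, hy, rfl⟩
  · intro i y hy
    exact Subgroup.closure_mono (hsub y hy) (mil_single (hn y hy) i)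

theorem zorb_finite {K : Subgroup H} (hK : K.Normal) {t : H} (h : Mil K t) (h' : Mil K t⁻¹)
    {Y : Set H} (hY : Y.Finite) (hYK : Y ⊆ K) :
    ∃ Y₂ : Set H, Y₂.Finite ∧ Y₂ ⊆ K ∧ Subgroup.closure Y₂ = Subgroup.closure (Zorb t Y) := by
  obtain ⟨Y₁, hf1, hK1, hs1, hd1, hc1⟩ := mil_finite hK h hY hYK
  obtain ⟨Y₂, hf2, hK2, hs2, hd2, hc2⟩ := mil_finite hK h' hf1 hK1
  refine ⟨Y₂, hf2, hK2, le_antisymm ?_ ?_⟩
  · rw [Subgroup.closure_le]
    intro x hx
    obtain ⟨i, y₁, hy₁, rfl⟩ := hd2 x hx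
    obtain ⟨j, y, hy, rfl⟩ := hd1 y₁ hy₁
    refine Subgroup.subset_closure ⟨(j : ℤ) - i, y, hy, ?_⟩
    rw [zpow_sub, inv_pow, zpow_natCast, zpow_natCast, ← zpow_natCast, ← zpow_natCast]
    have e : t ^ (j : ℤ) * (t ^ (i : ℤ))⁻¹ = (t ^ (i : ℤ))⁻¹ * t ^ (j : ℤ) := by
      rw [← zpow_neg, ← zpow_add, ← zpow_add, add_comm]
    rw [e]
    group
  · rw [Subgroup.closure_le]
    rintro x ⟨z, y, hy, rfl⟩
    obtain ⟨j, rfl | rfl⟩ := z.eq_nat_or_neg
    · have h1 := hc1 j y hy
      have h2 : Subgroup.closure Y₁ ≤ Subgroup.closure Y₂ := Subgroup.closure_mono hs2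
      simpa using h2 h1
    · have h1 := hc2 j y (hs1 hy)
      simpa using h1

theorem zorb_conj {t : H} {Y : Set H} {g : H} (hg : g ∈ Subgroup.closure (Zorb t Y)) (z : ℤ) :
    t ^ z * g * (t ^ z)⁻¹ ∈ Subgroup.closure (Zorb t Y) := by
  induction hg using Subgroup.closure_induction with
  | mem x hx =>
    obtain ⟨w, y, hy, rfl⟩ := hx
    refine Subgroup.subset_closure ⟨z + w, y, hy, ?_⟩
    rw [zpow_add]; group
  | one => simp
  | mul a b _ _ ha hb =>
    have e : t ^ z * (a * b) * (t ^ z)⁻¹ = (t ^ z * a * (t ^ z)⁻¹) * (t ^ z * b * (t ^ z)⁻¹) := by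
      group
    rw [e]
    exact Subgroup.mul_mem _ ha hb
  | inv a _ ha =>
    have e : t ^ z * a⁻¹ * (t ^ z)⁻¹ = (t ^ z * a * (t ^ z)⁻¹)⁻¹ := by group
    rw [e]
    exact Subgroup.inv_mem _ ha

theorem subset_zorb (t : H) (Y : Set H) : Y ⊆ Zorb t Y := fun y hy => ⟨0, y, hy, by simp⟩

theorem zorb_closure_conj {t : H} {Y : Set H} {g : H} (hg : g ∈ Subgroup.closure Y) (z : ℤ) :
    t ^ z * g * (t ^ z)⁻¹ ∈ Subgroup.closure (Zorb t Y) :=
  zorb_conj (Subgroup.closure_mono (subset_zorb t Y) hg) z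

/-- If `s` normalizes `⟨Y⟩` and commutes with `t` modulo `⟨Y⟩`, it normalizes the new group. -/
theorem zorb_stable {t s : H} {Y : Set H}
    (hs : ∀ g ∈ Subgroup.closure Y, s * g * s⁻¹ ∈ Subgroup.closure Y)
    (h1 : s * t * s⁻¹ * t⁻¹ ∈ Subgroup.closure Y) (h2 : s * t⁻¹ * s⁻¹ * t ∈ Subgroup.closure Y) :
    ∀ g ∈ Subgroup.closure (Zorb t Y), s * g * s⁻¹ ∈ Subgroup.closure (Zorb t Y) := by
  set M := Subgroup.closure (Zorb t Y) with hM
  have hc : ∀ z : ℤ, s * t ^ z * s⁻¹ * (t ^ z)⁻¹ ∈ M := by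
    intro z
    induction z using Int.induction_on with
    | zero => simp
    | succ i ih =>
      have h3 := M.mul_mem ih (zorb_closure_conj (t := t) h1 i)
      have e : s * t ^ ((i : ℤ) + 1) * s⁻¹ * (t ^ ((i : ℤ) + 1))⁻¹ =
          s * t ^ (i : ℤ) * s⁻¹ * (t ^ (i : ℤ))⁻¹ *
          (t ^ (i : ℤ) * (s * t * s⁻¹ * t⁻¹) * (t ^ (i : ℤ))⁻¹) := by
        rw [zpow_add_one]; group
      rw [e]
      exact h3
    | pred i ih =>
      have h3 := M.mul_mem ih (zorb_closure_conj (t := t) h2 (-i))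
      have e : s * t ^ (-(i : ℤ) - 1) * s⁻¹ * (t ^ (-(i : ℤ) - 1))⁻¹ =
          s * t ^ (-(i : ℤ)) * s⁻¹ * (t ^ (-(i : ℤ)))⁻¹ *
          (t ^ (-(i : ℤ)) * (s * t⁻¹ * s⁻¹ * t) * (t ^ (-(i : ℤ)))⁻¹) := by
        rw [zpow_sub_one]; group
      rw [e]
      exact h3
  intro g hg
  induction hg using Subgroup.closure_induction with
  | mem x hx =>
    obtain ⟨z, y, hy, rfl⟩ := hx
    have h3 := zorb_closure_conj (t := t) (hs y (Subgroup.subset_closure hy)) z
    have h4 := M.mul_mem (M.mul_mem (hc z) h3) (M.inv_mem (hc z))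
    have e : s * t ^ z * s⁻¹ * (t ^ z)⁻¹ * (t ^ z * (s * y * s⁻¹) * (t ^ z)⁻¹) *
        (s * t ^ z * s⁻¹ * (t ^ z)⁻¹)⁻¹ = s * (t ^ z * y * (t ^ z)⁻¹) * s⁻¹ := by group
    rwa [e] at h4
  | one => simp
  | mul a b _ _ ha hb =>
    have e : s * (a * b) * s⁻¹ = (s * a * s⁻¹) * (s * b * s⁻¹) := by group
    rw [e]
    exact M.mul_mem ha hb
  | inv a _ ha =>
    have e : s * a⁻¹ * s⁻¹ = (s * a * s⁻¹)⁻¹ := by group
    rw [e]
    exact M.inv_mem ha

/-- A finitely generated subgroup of `K` normalized by the elements of `U`. -/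
theorem exists_normalized {K : Subgroup H} (hK : K.Normal) {U : Set H} (hU : U.Finite)
    (hMil : ∀ t ∈ U, Mil K t ∧ Mil K t⁻¹) (hcomm : ∀ x y : H, x * y * x⁻¹ * y⁻¹ ∈ K) :
    ∃ Y : Set H, Y.Finite ∧ Y ⊆ K ∧
      (∀ s ∈ U ∪ U⁻¹, ∀ t ∈ U ∪ U⁻¹, s * t * s⁻¹ * t⁻¹ ∈ Subgroup.closure Y) ∧
      ∀ s ∈ U ∪ U⁻¹, ∀ g ∈ Subgroup.closure Y, s * g * s⁻¹ ∈ Subgroup.closure Y := by
  classical
  set V : Set H := U ∪ U⁻¹ with hV
  have hVf : V.Finite := hU.union hU.inv
  have hVinv : ∀ s ∈ V, s⁻¹ ∈ V := by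
    rintro s (hs | hs)
    · exact Or.inr (by simpa using hs)
    · exact Or.inl hs
  have key : ∀ L : Finset H, (L : Set H) ⊆ U → ∃ Y : Set H, Y.Finite ∧ Y ⊆ K ∧
      (∀ s ∈ V, ∀ t ∈ V, s * t * s⁻¹ * t⁻¹ ∈ Subgroup.closure Y) ∧
      ∀ s ∈ L, ∀ g ∈ Subgroup.closure Y, s * g * s⁻¹ ∈ Subgroup.closure Y ∧
        s⁻¹ * g * s ∈ Subgroup.closure Y := by
    intro L
    induction L using Finset.induction_on with
    | empty =>
      intro _
      refine ⟨(fun p : H × H => p.1 * p.2 * p.1⁻¹ * p.2⁻¹) '' (V ×ˢ V), (hVf.prod hVf).image _,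
        ?_, fun s hs t ht => Subgroup.subset_closure ⟨(s, t), ⟨hs, ht⟩, rfl⟩, by simp⟩
      rintro _ ⟨⟨s, t⟩, _, rfl⟩
      exact hcomm s t
    | insert t L htL ih =>
      intro hL
      rw [Finset.coe_insert, Set.insert_subset_iff] at hL
      obtain ⟨Y, hYf, hYK, hYc, hYs⟩ := ih hL.2
      obtain ⟨Y₂, h2f, h2K, h2c⟩ := zorb_finite hK (hMil t hL.1).1 (hMil t hL.1).2 hYf hYK
      have htV : t ∈ V := Or.inl hL.1
      refine ⟨Y₂, h2f, h2K, fun s hs s' hs' => ?_, fun s hs g hg => ?_⟩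
      · rw [h2c]
        exact Subgroup.closure_mono (subset_zorb t Y) (hYc s hs s' hs')
      · rw [h2c] at hg ⊢
        rcases Finset.mem_insert.mp hs with rfl | hs
        · have h1 := zorb_conj hg 1
          have h2 := zorb_conj hg (-1)
          exact ⟨by simpa using h1, by simpa using h2⟩
        · have hsV : s ∈ V := Or.inl (hL.2 hs)
          constructor
          · refine zorb_stable (fun g hg => (hYs s hs g hg).1) (hYc s hsV t htV) ?_ g hg
            have := hYc s hsV t⁻¹ (hVinv t htV)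
            simpa using this
          · have h3 := zorb_stable (t := t) (s := s⁻¹) (Y := Y)
              (fun g hg => by simpa using (hYs s hs g hg).2)
              (hYc s⁻¹ (hVinv s hsV) t htV) (by
                have := hYc s⁻¹ (hVinv s hsV) t⁻¹ (hVinv t htV)
                simpa using this) g hg
            simpa using h3
  obtain ⟨Y, h1, h2, h3, h4⟩ := key hU.toFinset (by simp)
  refine ⟨Y, h1, h2, h3, ?_⟩
  rintro s (hs | hs) g hg
  · exact (h4 s (by simpa using hs) g hg).1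
  · have := (h4 s⁻¹ (by simpa using hs) g hg).2
    simpa using this

theorem pcs_top_of_comm {Q : Type v} [Group Q] (hQ : ∀ x y : Q, x * y = y * x)
    {S : Set Q} (hS : S.Finite) (hcl : Subgroup.closure S = ⊤) : PCS (⊤ : Subgroup Q) := by
  classical
  have key : ∀ L : Finset Q, PCS (Subgroup.closure (L : Set Q)) := by
    intro L
    induction L using Finset.induction_on with
    | empty => rw [Finset.coe_empty, Subgroup.closure_empty]; exact .bot
    | insert t L _ ih =>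
      refine .step ih (t := t) ⟨Subgroup.closure_mono (by simp), Subgroup.subset_closure (by simp),
        fun n hn => by rw [hQ t n]; simpa using hn, fun n hn => by rw [hQ t⁻¹ n]; simpa using hn,
        fun g hg => ?_⟩
      rw [Finset.coe_insert] at hg
      induction hg using Subgroup.closure_induction with
      | mem x hx =>
        rcases hx with rfl | hx
        · exact ⟨1, by simp⟩
        · exact ⟨0, by simpa using Subgroup.subset_closure hx⟩
      | one => exact ⟨0, by simp⟩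
      | mul a b _ _ ha hb =>
        obtain ⟨i, hi⟩ := ha
        obtain ⟨j, hj⟩ := hb
        refine ⟨i + j, ?_⟩
        have e : (t ^ (i + j))⁻¹ * (a * b) = ((t ^ i)⁻¹ * a) * ((t ^ j)⁻¹ * b) := by
          rw [zpow_add, mul_inv_rev, hQ (t ^ j)⁻¹ (t ^ i)⁻¹, mul_assoc, mul_assoc,
            ← mul_assoc (t ^ j)⁻¹ a b, hQ (t ^ j)⁻¹ a]
          group
        rw [e]
        exact Subgroup.mul_mem _ hi hj
      | inv a _ ha =>
        obtain ⟨i, hi⟩ := ha
        refine ⟨-i, ?_⟩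
        have e : (t ^ (-i))⁻¹ * a⁻¹ = ((t ^ i)⁻¹ * a)⁻¹ := by
          rw [mul_inv_rev, inv_inv, zpow_neg, inv_inv, hQ a⁻¹]
        rw [e]
        exact Subgroup.inv_mem _ hi
  have := key hS.toFinset
  rwa [Set.Finite.coe_toFinset, hcl] at this

theorem fg_of_map {X : Type v} [Group X] {Q : Type w} [Group Q] (f : X →* Q) {K : Subgroup X}
    {Y : Set X} (hY : Y.Finite) (hker : Subgroup.closure Y = f.ker) (hYK : Y ⊆ K)
    (h : (K.map f).FG) : K.FG := by
  classical
  obtain ⟨T, hT⟩ := h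
  have hch : ∀ q ∈ T, ∃ x ∈ K, f x = q := by
    intro q hq
    have : q ∈ K.map f := hT ▸ Subgroup.subset_closure hq
    exact this
  choose! g hg1 hg2 using hch
  refine ⟨hY.toFinset ∪ T.image g, le_antisymm ?_ ?_⟩
  · rw [Subgroup.closure_le]
    intro x hx
    rw [Finset.coe_union, Set.Finite.coe_toFinset, Finset.coe_image] at hx
    rcases hx with hx | ⟨q, hq, rfl⟩
    · exact hYK hx
    · exact hg1 q hq
  · intro x hx
    set M := Subgroup.closure (↑(hY.toFinset ∪ T.image g) : Set X) with hM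
    have h1 : M.map f = K.map f := by
      rw [hM, MonoidHom.map_closure]
      refine le_antisymm ?_ ?_
      · rw [Subgroup.closure_le]
        rintro _ ⟨x, hx, rfl⟩
        rw [Finset.coe_union, Set.Finite.coe_toFinset, Finset.coe_image] at hx
        rcases hx with hx | ⟨q, hq, rfl⟩
        · exact ⟨x, hYK hx, rfl⟩
        · exact ⟨g q, hg1 q hq, rfl⟩
      · rw [← hT]
        refine Subgroup.closure_mono ?_
        intro q hq
        refine ⟨g q, ?_, hg2 q hq⟩
        rw [Finset.coe_union, Finset.coe_image]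
        exact Or.inr ⟨q, hq, rfl⟩
    have h2 : f x ∈ M.map f := h1 ▸ ⟨x, hx, rfl⟩
    obtain ⟨m, hm, hmx⟩ := h2
    have h3 : m⁻¹ * x ∈ f.ker := by rw [MonoidHom.mem_ker, map_mul, map_inv, hmx]; simp
    rw [← hker] at h3
    have h4 : Subgroup.closure Y ≤ M := by
      refine Subgroup.closure_mono ?_
      rw [Finset.coe_union, Set.Finite.coe_toFinset]
      exact Set.subset_union_left
    have := M.mul_mem hm (h4 h3)
    simpa using this

/-- Finite generation of `K`. -/
theorem fg_of_mil {K : Subgroup H} (hK : K.Normal) {U : Set H} (hU : U.Finite)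
    (hMil : ∀ t ∈ U, Mil K t ∧ Mil K t⁻¹) (hcomm : ∀ x y : H, x * y * x⁻¹ * y⁻¹ ∈ K)
    (hKU : K ≤ Subgroup.closure U) : K.FG := by
  classical
  obtain ⟨Y, hYf, hYK, hYc, hYs⟩ := exists_normalized hK hU hMil hcomm
  set X := Subgroup.closure U with hX
  set N := Subgroup.closure Y with hN
  have hNK : N ≤ K := by rw [hN, Subgroup.closure_le]; exact hYK
  have hNX : N ≤ X := hNK.trans hKU
  have hnorm : ∀ x ∈ X, ∀ g ∈ N, x * g * x⁻¹ ∈ N := by
    intro x hx
    have : x ∈ (Subgroup.closure U).toSubmonoid := hx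
    rw [Subgroup.closure_toSubmonoid] at this
    induction this using Submonoid.closure_induction with
    | mem s hs => exact hYs s hs
    | one => intro g hg; simpa using hg
    | mul a b ha' hb' ha hb =>
      have ha2 : a ∈ X := by
        have : a ∈ (Subgroup.closure U).toSubmonoid := by
          rw [Subgroup.closure_toSubmonoid]; exact ha'
        exact this
      have hb2 : b ∈ X := by
        have : b ∈ (Subgroup.closure U).toSubmonoid := by
          rw [Subgroup.closure_toSubmonoid]; exact hb'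
        exact this
      intro g hg
      have e : a * b * g * (a * b)⁻¹ = a * (b * g * b⁻¹) * a⁻¹ := by group
      rw [e]
      exact ha ha2 _ (hb hb2 g hg)
  let N' : Subgroup X := N.subgroupOf X
  have hN'n : N'.Normal := by
    constructor
    intro n hn g
    rw [Subgroup.mem_subgroupOf] at hn ⊢
    exact hnorm g g.2 n hn
  -- the quotient is commutative
  let f : X →* X ⧸ N' := QuotientGroup.mk' N'
  have hgen : Subgroup.closure (f '' ((fun x : X => (x : H)) ⁻¹' U)) = ⊤ := by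
    rw [← MonoidHom.map_closure]
    have h1 : Subgroup.closure ((fun x : X => (x : H)) ⁻¹' U) = ⊤ := by
      have := Subgroup.closure_closure_coe_preimage (k := U)
      exact this
    rw [h1]
    rw [← MonoidHom.range_eq_map]
    exact MonoidHom.range_eq_top.mpr (QuotientGroup.mk'_surjective N')
  have hU' : ((fun x : X => (x : H)) ⁻¹' U).Finite :=
    hU.preimage Subtype.val_injective.injOn
  have hcommgen : ∀ s ∈ f '' ((fun x : X => (x : H)) ⁻¹' U),
      ∀ t ∈ f '' ((fun x : X => (x : H)) ⁻¹' U), s * t = t * s := by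
    rintro _ ⟨s, hs, rfl⟩ _ ⟨t, ht, rfl⟩
    have h1 : s * t * s⁻¹ * t⁻¹ ∈ N' := by
      rw [Subgroup.mem_subgroupOf]
      exact hYc s (Or.inl hs) t (Or.inl ht)
    have h2 : f (s * t * s⁻¹ * t⁻¹) = 1 := by
      rw [← MonoidHom.mem_ker, QuotientGroup.ker_mk']
      exact h1
    simp only [map_mul, map_inv] at h2
    have h3 : f s * f t = 1 * (f t * f s) := by
      rw [← h2]; group
    rw [h3, one_mul]
  have hQ : ∀ x y : X ⧸ N', x * y = y * x := by
    intro x y
    have hx : x ∈ Subgroup.closure (f '' ((fun x : X => (x : H)) ⁻¹' U)) := by rw [hgen]; trivial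
    have hy : y ∈ Subgroup.closure (f '' ((fun x : X => (x : H)) ⁻¹' U)) := by rw [hgen]; trivial
    have h1 : Subgroup.closure (f '' ((fun x : X => (x : H)) ⁻¹' U)) ≤
        Subgroup.centralizer (f '' ((fun x : X => (x : H)) ⁻¹' U)) := by
      rw [Subgroup.closure_le]
      intro s hs
      rw [SetLike.mem_coe, Subgroup.mem_centralizer_iff]
      intro t ht
      exact hcommgen t ht s hs
    have h2 : Subgroup.closure (f '' ((fun x : X => (x : H)) ⁻¹' U)) ≤
        Subgroup.centralizer {x} := by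
      rw [Subgroup.closure_le]
      intro s hs
      rw [SetLike.mem_coe, Subgroup.mem_centralizer_iff]
      rintro t rfl
      have := h1 hx
      rw [Subgroup.mem_centralizer_iff] at this
      exact (this s hs).symm
    have := h2 hy
    rw [Subgroup.mem_centralizer_iff] at this
    exact this x rfl
  have hpcs : PCS (⊤ : Subgroup (X ⧸ N')) := pcs_top_of_comm hQ (hU'.image f) hgen
  have hKmap : ((K.subgroupOf X).map f).FG := (hpcs.le le_top).fg
  -- generators of `N'`
  have hY' : ((fun x : X => (x : H)) ⁻¹' Y).Finite := hYf.preimage Subtype.val_injective.injOn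
  have hYX : Y ⊆ X := fun y hy => hNX (Subgroup.subset_closure hy)
  have hker : Subgroup.closure ((fun x : X => (x : H)) ⁻¹' Y) = f.ker := by
    rw [QuotientGroup.ker_mk']
    have h1 : (Subgroup.closure ((fun x : X => (x : H)) ⁻¹' Y)).map X.subtype = N := by
      rw [MonoidHom.map_closure]
      congr 1
      ext y
      simp only [Set.mem_image, Set.mem_preimage, Subgroup.coe_subtype, Subtype.exists,
        exists_and_left, exists_prop, exists_eq_right_right]
      exact ⟨fun h => h.1, fun h => ⟨h, hYX h⟩⟩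
    apply Subgroup.map_injective X.subtype_injective
    rw [h1, Subgroup.map_subgroupOf_eq_of_le hNX]
  have hfin := fg_of_map f (K := K.subgroupOf X) hY' hker (by
    intro y hy
    rw [SetLike.mem_coe, Subgroup.mem_subgroupOf]
    exact hYK hy) hKmap
  obtain ⟨T, hT⟩ := hfin
  refine ⟨T.image X.subtype, ?_⟩
  rw [Finset.coe_image, ← MonoidHom.map_closure, hT, Subgroup.map_subgroupOf_eq_of_le hKU]

end Vale.Agent.P188.H789
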