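import Vale.Agent.P188.H789.Milnor
import Vale.Agent.P188.H789.FG

/-! P188, abstract end game: an additive function `χ` on `H` such that the slabs have polynomial
growth and are connected up to a sublinear error. -/

universe u v w

open Pointwise Filter

namespace Vale.Agent.P188.H789

section

variable {H : Type u} [Group H] {k : ℕ} {χ : H → Fin k → ℝ}

/-- `χ` is additive. -/
structure Addv (χ : H → Fin k → ℝ) : Prop where
  add : ∀ x y, χ (x * y) = χ x + χ y

theorem Addv.one (h : Addv χ) (i : Fin k) : χ 1 i = 0 := by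
  have := congrFun (h.add 1 1) i
  rw [mul_one, Pi.add_apply] at this
  linarith

theorem Addv.mul (h : Addv χ) (x y : H) (i : Fin k) : χ (x * y) i = χ x i + χ y i :=
  congrFun (h.add x y) i

theorem Addv.inv (h : Addv χ) (x : H) (i : Fin k) : χ x⁻¹ i = - χ x i := by
  have := h.mul x x⁻¹ i
  rw [mul_inv_cancel, h.one] at this
  linarith

theorem Addv.mul_mem (h : Addv χ) {R R' : ℝ} {x y : H} (hx : x ∈ SH χ R)
    (hy : y ∈ SH χ R') : x * y ∈ SH χ (R + R') := by
  intro i
  rw [h.mul]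
  exact (abs_add_le _ _).trans (add_le_add (hx i) (hy i))

theorem Addv.inv_mem (h : Addv χ) {R : ℝ} {x : H} (hx : x ∈ SH χ R) :
    x⁻¹ ∈ SH χ R := by
  intro i
  rw [h.inv, abs_neg]
  exact hx i

theorem Addv.pow (h : Addv χ) (t : H) (n : ℕ) (i : Fin k) :
    χ (t ^ n) i = n * χ t i := by
  induction n with
  | zero => rw [pow_zero, h.one]; simp
  | succ n ih => rw [pow_succ, h.mul, ih]; push_cast; ring

/-- The kernel of `χ`. -/
def Addv.ker (h : Addv χ) : Subgroup H where
  carrier := {x | ∀ i, χ x i = 0}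
  one_mem' := h.one
  mul_mem' := by
    intro x y hx hy i
    rw [h.mul, hx i, hy i, add_zero]
  inv_mem' := by
    intro x hx i
    rw [h.inv, hx i, neg_zero]

theorem Addv.mem_ker (h : Addv χ) (x : H) : x ∈ h.ker ↔ ∀ i, χ x i = 0 := Iff.rfl

theorem Addv.ker_normal (h : Addv χ) : h.ker.Normal := by
  constructor
  intro n hn g i
  rw [h.mul, h.mul, h.inv, (h.mem_ker n).mp hn i]
  ring

theorem Addv.comm_mem (h : Addv χ) (x y : H) : x * y * x⁻¹ * y⁻¹ ∈ h.ker := by
  intro i
  simp only [h.mul, h.inv]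
  ring

/-- Polynomial growth of the slabs, with an exponential dependence on the width. -/
def SlabGrowth (χ : H → Fin k → ℝ) (S : Set H) (C D : ℕ) : Prop :=
  ∀ R m : ℕ, {x | PathTo (SH χ R) (S ∪ S⁻¹ ∪ {1}) m 1 x}.Finite ∧
    {x | PathTo (SH χ R) (S ∪ S⁻¹ ∪ {1}) m 1 x}.ncard ≤ C ^ (R + 1) * (m + 1) ^ D

/-- The Milnor step: if `χ t` is small, the conjugates of `y ∈ ker χ` by the powers of `t`
generate a finitely generated group. -/
theorem Addv.milnor (h : Addv χ) {C' D : ℕ} (hC' : 1 ≤ C')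
    {S : Set H} (hS : Subgroup.closure S = ⊤) (hcount : SlabGrowth χ S C' D) :
    ∃ c : ℝ, 0 < c ∧ ∀ t ∈ SH χ c, ∀ y : H, (∀ i, χ y i = 0) →
      ∃ n : ℕ, t ^ n * y * (t ^ n)⁻¹ ∈
        Subgroup.closure {x | ∃ i < n, x = t ^ i * y * (t ^ i)⁻¹} := by
  classical
  set B : Set H := S ∪ S⁻¹ ∪ {1} with hB
  have h1B : (1 : H) ∈ B := Or.inr rfl
  -- `C' ≤ 2 ^ p`
  obtain ⟨p, hp1, hp⟩ : ∃ p : ℕ, 1 ≤ p ∧ C' ≤ 2 ^ p :=
    ⟨C', hC', Nat.lt_two_pow_self.le⟩
  refine ⟨1 / (2 * p), by positivity, fun t ht y hy => ?_⟩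
  by_contra hcon
  push Not at hcon
  set z : ℕ → H := fun i => t ^ i * y * (t ^ i)⁻¹ with hz
  have hzn : ∀ n, z n ∉ Subgroup.closure {x | ∃ i < n, x = z i} := hcon
  -- the two steps
  obtain ⟨n₁, r₁, hp₁⟩ := exists_path_gen hS χ t
  obtain ⟨n₂, r₂, hp₂⟩ := exists_path_gen hS χ (y * t)
  set ℓ := max n₁ n₂ with hℓ
  set r := max r₁ r₂ with hr
  have hq₁ : PathTo (SH χ (r : ℝ)) B ℓ 1 t :=
    (hp₁.mono (SH_mono (by exact_mod_cast le_max_left _ _)) subset_rfl).extend h1B (le_max_left _ _)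
  have hq₂ : PathTo (SH χ (r : ℝ)) B ℓ 1 (y * t) :=
    (hp₂.mono (SH_mono (by exact_mod_cast le_max_right _ _)) subset_rfl).extend h1B
      (le_max_right _ _)
  -- the points
  have hχz : ∀ e n i, χ (wprod z e n) i = 0 := by
    intro e n i
    induction n with
    | zero => exact h.one i
    | succ n ih =>
      rw [wprod, h.mul, ih]
      split_ifs
      · rw [hz]
        simp only [h.mul, h.inv, hy]
        ring
      · rw [h.one]; ring
  have hpt : ∀ (N : ℕ) (e : ℕ → Bool) (n : ℕ), n ≤ 2 * p * N →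
      PathTo (SH χ ((N + r : ℕ) : ℝ)) B (n * ℓ) 1 (wprod z e n * t ^ n) := by
    intro N e n
    induction n with
    | zero =>
      intro _
      rw [wprod, pow_zero, mul_one, Nat.zero_mul]
      exact PathTo.refl (fun i => by rw [h.one, abs_zero]; positivity)
    | succ n ih =>
      intro hn
      have h1 := ih (by omega)
      have hbase : wprod z e n * t ^ n ∈ SH χ (N : ℝ) := by
        intro i
        rw [h.mul, hχz, zero_add, h.pow, abs_mul, Nat.abs_cast]
        have h3 : |χ t i| ≤ 1 / (2 * p) := ht i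
        have h4 : (n : ℝ) ≤ 2 * p * N := by exact_mod_cast (by omega : n ≤ 2 * p * N)
        have hp0 : (0 : ℝ) < 2 * p := by positivity
        calc (n : ℝ) * |χ t i| ≤ (2 * p * N) * (1 / (2 * p)) :=
              mul_le_mul h4 h3 (abs_nonneg _) (by positivity)
          _ = N := by field_simp
      have hstep : ∀ w, PathTo (SH χ (r : ℝ)) B ℓ 1 w →
          PathTo (SH χ ((N + r : ℕ) : ℝ)) B ℓ (wprod z e n * t ^ n) (wprod z e n * t ^ n * w) := by
        intro w hw
        have := hw.left (wprod z e n * t ^ n) (P' := SH χ ((N + r : ℕ) : ℝ)) (fun x hx => by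
          push_cast
          exact h.mul_mem hbase hx)
        rwa [mul_one] at this
      have e1 : (n + 1) * ℓ = n * ℓ + ℓ := by ring
      rw [e1, wprod]
      split_ifs with he
      · have h5 := h1.trans (hstep _ hq₂)
        have e2 : wprod z e n * t ^ n * (y * t) = wprod z e n * z n * t ^ (n + 1) := by
          rw [hz, pow_succ]
          group
        rwa [e2] at h5
      · have h5 := h1.trans (hstep _ hq₁)
        have e2 : wprod z e n * t ^ n * t = wprod z e n * 1 * t ^ (n + 1) := by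
          rw [mul_one, pow_succ, mul_assoc]
        rwa [e2] at h5
  -- the counting
  obtain ⟨N, hN⟩ := exists_exp_gt (2 ^ (p * (r + 1))) (2 * p * ℓ) D
  set n := 2 * p * N with hn
  have hcard : 2 ^ n ≤ {x | PathTo (SH χ ((N + r : ℕ) : ℝ)) B (n * ℓ) 1 x}.ncard := by
    let f : (Fin n → Bool) → H := fun e =>
      wprod z (fun i => if h : i < n then e ⟨i, h⟩ else false) n * t ^ n
    have hinj : Function.Injective f := by
      intro e e' hee
      have h1 := mul_right_cancel hee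
      have h2 := wprod_inj z hzn _ _ n h1
      funext i
      have := h2 i i.2
      simpa using this
    have hsub : Set.range f ⊆ {x | PathTo (SH χ ((N + r : ℕ) : ℝ)) B (n * ℓ) 1 x} := by
      rintro _ ⟨e, rfl⟩
      exact hpt N _ n le_rfl
    have h1 : (Set.range f).ncard = 2 ^ n := by
      rw [Set.ncard_eq_toFinset_card', Set.toFinset_range, Finset.card_image_of_injective _ hinj]
      simp
    rw [← h1]
    exact Set.ncard_le_ncard hsub (hcount (N + r) (n * ℓ)).1
  have h1 := hcard.trans (hcount (N + r) (n * ℓ)).2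
  have h2 : C' ^ (N + r + 1) ≤ 2 ^ (p * N) * 2 ^ (p * (r + 1)) := by
    calc C' ^ (N + r + 1) ≤ (2 ^ p) ^ (N + r + 1) := Nat.pow_le_pow_left hp _
      _ = 2 ^ (p * N) * 2 ^ (p * (r + 1)) := by rw [← pow_mul, ← pow_add]; congr 1; ring
  have h3 : 2 ^ n ≤ 2 ^ (p * N) * (2 ^ (p * (r + 1)) * (2 * p * ℓ * N + 1) ^ D) := by
    calc 2 ^ n ≤ C' ^ (N + r + 1) * (n * ℓ + 1) ^ D := h1
      _ ≤ (2 ^ (p * N) * 2 ^ (p * (r + 1))) * (n * ℓ + 1) ^ D := Nat.mul_le_mul_right _ h2
      _ = 2 ^ (p * N) * (2 ^ (p * (r + 1)) * (2 * p * ℓ * N + 1) ^ D) := by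
          rw [hn, mul_assoc]
          congr 3
          ring
  have h4 : 2 ^ n < 2 ^ (p * N) * 2 ^ N :=
    h3.trans_lt (Nat.mul_lt_mul_of_pos_left hN (Nat.pow_pos (by norm_num)))
  have h5 : 2 ^ (p * N) * 2 ^ N ≤ 2 ^ n := by
    rw [← pow_add]
    refine Nat.pow_le_pow_right (by norm_num) ?_
    rw [hn]
    nlinarith
  omega

end

end Vale.Agent.P188.H789
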