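import Vale.Agent.P188.H789.Abs

/-! P188, abstract end game. -/

universe u v w

open Pointwise Filter

namespace Vale.Agent.P188.H789

section

variable {H : Type u} [Group H] {k : ℕ} {χ : H → Fin k → ℝ}

/-- The slabs are connected up to a sublinear error. -/
def SubConn (χ : H → Fin k → ℝ) (S : Set H) : Prop :=
  ∀ q : ℕ, 0 < q → ∃ C : ℕ, ∀ n : ℕ, ∀ x ∈ Bl S n, x ∈ SH χ 1 →
    ∃ m, PathTo (SH χ ((n / q + C : ℕ) : ℝ)) (S ∪ S⁻¹ ∪ {1}) m 1 x

theorem zpow_mem_Bl {S : Set H} {s : H} (hs : s ∈ S) (z : ℤ) : s ^ z ∈ Bl S z.natAbs := by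
  have h1 : ∀ n : ℕ, s ^ n ∈ Bl S n := by
    intro n
    induction n with
    | zero => simpa using one_mem_Bl S 0
    | succ n ih => rw [pow_succ]; exact mul_mem_Bl ih (mem_Bl_one hs)
  obtain ⟨j, rfl | rfl⟩ := z.eq_nat_or_neg
  · simpa using h1 j
  · simpa using inv_mem_Bl (h1 j)

theorem Addv.zpow (h : Addv χ) (t : H) (z : ℤ) : χ (t ^ z) = (z : ℝ) • χ t := by
  obtain ⟨j, rfl | rfl⟩ := z.eq_nat_or_neg
  · ext i
    rw [zpow_natCast, h.pow, Pi.smul_apply, smul_eq_mul]
    simp
  · ext i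
    rw [zpow_neg, zpow_natCast, h.inv, h.pow, Pi.smul_apply, smul_eq_mul]
    simp

theorem Addv.one' (h : Addv χ) : χ 1 = 0 := funext h.one

/-- Coarse approximation of the values of `χ` by short elements. -/
theorem Addv.coarse_approx (h : Addv χ) {S : Set H} (hSf : S.Finite)
    (hS : Subgroup.closure S = ⊤) :
    ∃ C M : ℕ, ∀ R : ℕ, ∀ p ∈ SH χ (R : ℝ), ∃ s ∈ Bl S (C * (R + 1)),
      p * s⁻¹ ∈ SH χ (M : ℝ) := by
  classical
  obtain ⟨b, hbS, hbspan, hbli⟩ := exists_linearIndependent ℝ (χ '' S)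
  have hbf : b.Finite := (hSf.image χ).subset hbS
  have : Fintype b := hbf.fintype
  -- all values are in the span
  have hmem : ∀ p : H, χ p ∈ Submodule.span ℝ (Set.range ((↑) : b → Fin k → ℝ)) := by
    intro p
    rw [Subtype.range_coe, hbspan]
    have hp : p ∈ Subgroup.closure S := by rw [hS]; trivial
    induction hp using Subgroup.closure_induction with
    | mem x hx => exact Submodule.subset_span ⟨x, hx, rfl⟩
    | one => rw [h.one']; exact Submodule.zero_mem _
    | mul x y _ _ hx hy => rw [h.add]; exact Submodule.add_mem _ hx hy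
    | inv x _ hx =>
      have : χ x⁻¹ = - χ x := funext fun i => h.inv x i
      rw [this]
      exact Submodule.neg_mem _ hx
  let B := Module.Basis.span hbli
  let f := (B.equivFun : Submodule.span ℝ (Set.range ((↑) : b → Fin k → ℝ)) →ₗ[ℝ] (b → ℝ))
  let f' := LinearMap.toContinuousLinearMap f
  obtain ⟨Cf, hCf⟩ := exists_nat_ge ‖f'‖
  -- lifts of the basis
  have hlift : ∀ j : b, ∃ s ∈ S, χ s = j := fun j => hbS j.2
  choose g hgS hgχ using hlift
  obtain ⟨M, hM⟩ := exists_nat_ge (∑ j : b, ‖(j : Fin k → ℝ)‖)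
  set N := (Finset.univ : Finset b).card with hN
  refine ⟨N * (Cf + 1), M, fun R p hp => ?_⟩
  set v : Submodule.span ℝ (Set.range ((↑) : b → Fin k → ℝ)) := ⟨χ p, hmem p⟩ with hv
  have hvn : ‖v‖ ≤ R := by
    show ‖χ p‖ ≤ R
    rw [pi_norm_le_iff_of_nonneg (Nat.cast_nonneg R)]
    intro i
    exact hp i
  have hcoef : ∀ j : b, |B.equivFun v j| ≤ Cf * R := by
    intro j
    have h1 : ‖f' v‖ ≤ ‖f'‖ * ‖v‖ := f'.le_opNorm v
    have h2 : |B.equivFun v j| ≤ ‖f' v‖ := norm_le_pi_norm (f' v) j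
    calc |B.equivFun v j| ≤ ‖f'‖ * ‖v‖ := h2.trans h1
      _ ≤ Cf * R := mul_le_mul hCf hvn (norm_nonneg _) (Nat.cast_nonneg _)
  have hsum : χ p = ∑ j : b, B.equivFun v j • (j : Fin k → ℝ) := by
    have h1 := B.sum_equivFun v
    have h2 := congrArg (Subtype.val) h1
    refine h2.symm.trans ?_
    simp only [Submodule.coe_sum, Submodule.coe_smul]
    refine Finset.sum_congr rfl fun j _ => ?_
    congr 1
    exact congrArg Subtype.val (Module.Basis.span_apply hbli j)
  -- the product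
  let m : b → ℤ := fun j => ⌊B.equivFun v j⌋
  have hprod : ∀ l : List b, ∃ s ∈ Bl S ((l.map fun j => (m j).natAbs).sum),
      χ s = (l.map fun j => ((m j : ℤ) : ℝ) • (j : Fin k → ℝ)).sum := by
    intro l
    induction l with
    | nil => exact ⟨1, one_mem_Bl _ _, by simpa using h.one'⟩
    | cons j l ih =>
      obtain ⟨s, hs1, hs2⟩ := ih
      refine ⟨g j ^ m j * s, ?_, ?_⟩
      · rw [List.map_cons, List.sum_cons]
        exact mul_mem_Bl (zpow_mem_Bl (hgS j) _) hs1
      · rw [h.add, hs2, h.zpow, hgχ, List.map_cons, List.sum_cons]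
  obtain ⟨s, hs1, hs2⟩ := hprod (Finset.univ : Finset b).toList
  have hmj : ∀ j : b, (m j).natAbs ≤ (Cf + 1) * (R + 1) := by
    intro j
    have h1 := hcoef j
    rw [abs_le] at h1
    have h2 : (m j : ℝ) ≤ B.equivFun v j := Int.floor_le _
    have h3 : B.equivFun v j < m j + 1 := Int.lt_floor_add_one _
    have h4 : (|m j| : ℤ) ≤ ((Cf + 1) * (R + 1) : ℕ) := by
      rw [abs_le]
      have h5 : (-(((Cf + 1) * (R + 1) : ℕ) : ℝ)) ≤ m j := by
        push_cast
        nlinarith [Nat.cast_nonneg (α := ℝ) Cf, Nat.cast_nonneg (α := ℝ) R]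
      have h6 : (m j : ℝ) ≤ (((Cf + 1) * (R + 1) : ℕ) : ℝ) := by
        push_cast
        nlinarith [Nat.cast_nonneg (α := ℝ) Cf, Nat.cast_nonneg (α := ℝ) R]
      constructor
      · exact_mod_cast h5
      · exact_mod_cast h6
    rw [Int.abs_eq_natAbs] at h4
    exact_mod_cast h4
  refine ⟨s, Bl_mono ?_ hs1, ?_⟩
  · have h1 : ∀ l : List b, (l.map fun j => (m j).natAbs).sum ≤
        l.length * ((Cf + 1) * (R + 1)) := by
      intro l
      induction l with
      | nil => simp
      | cons j l ih =>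
        rw [List.map_cons, List.sum_cons, List.length_cons]
        have := hmj j
        have e : (l.length + 1) * ((Cf + 1) * (R + 1)) =
          l.length * ((Cf + 1) * (R + 1)) + (Cf + 1) * (R + 1) := by ring
        omega
    have h2 := h1 (Finset.univ : Finset b).toList
    rw [Finset.length_toList, ← hN] at h2
    refine h2.trans (le_of_eq ?_)
    ring
  · intro i
    have h1 : χ s = ∑ j : b, ((m j : ℤ) : ℝ) • (j : Fin k → ℝ) := by
      rw [hs2, Finset.sum_map_toList]
    have h2 : χ (p * s⁻¹) i = ∑ j : b, (B.equivFun v j - (m j : ℝ)) * (j : Fin k → ℝ) i := by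
      rw [h.mul, h.inv, hsum, h1]
      simp only [Finset.sum_apply, Pi.smul_apply, smul_eq_mul, sub_mul, Finset.sum_sub_distrib]
      ring
    rw [h2]
    refine (Finset.abs_sum_le_sum_abs _ _).trans (le_trans ?_ hM)
    refine Finset.sum_le_sum fun j _ => ?_
    rw [abs_mul]
    have h3 : |B.equivFun v j - (m j : ℝ)| ≤ 1 := by
      rw [abs_of_nonneg (sub_nonneg.mpr (Int.floor_le _))]
      linarith [Int.lt_floor_add_one (B.equivFun v j)]
    calc |B.equivFun v j - (m j : ℝ)| * |(j : Fin k → ℝ) i| ≤ 1 * ‖(j : Fin k → ℝ)‖ :=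
          mul_le_mul h3 (norm_le_pi_norm (j : Fin k → ℝ) i) (abs_nonneg _) zero_le_one
      _ = _ := one_mul _

/-- Approximation of the values of `χ` by short elements. -/
theorem Addv.approx (h : Addv χ) {S : Set H} (hSf : S.Finite)
    (hS : Subgroup.closure S = ⊤) {c : ℝ} (hc : 0 < c) :
    ∃ C : ℕ, ∀ R : ℕ, ∀ p ∈ SH χ (R : ℝ), ∃ s ∈ Bl S (C * (R + 1)),
      p * s⁻¹ ∈ SH χ c := by
  obtain ⟨C, M, h1⟩ := h.coarse_approx hSf hS
  obtain ⟨Φ, hΦf, -, hΦ⟩ := exists_net χ (M : ℝ) hc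
  obtain ⟨L, hL⟩ := exists_Bl_of_finite (A := S) hΦf (fun x _ => by rw [hS]; trivial)
  refine ⟨L + C, fun R p hp => ?_⟩
  obtain ⟨s, hs1, hs2⟩ := h1 R p hp
  obtain ⟨s', hs'1, hs'2⟩ := hΦ _ hs2
  refine ⟨s' * s, Bl_mono ?_ (mul_mem_Bl (hL hs'1) hs1), fun i => ?_⟩
  · nlinarith
  · have := hs'2 i
    rw [h.mul, h.inv] at this
    rw [h.mul, h.inv, h.mul]
    convert this using 2
    ring

/-- The abstract end game. -/
theorem Addv.endgame (h : Addv χ) {C D : ℕ} (hC : 1 ≤ C) {S : Set H} (hSf : S.Finite)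
    (hS : Subgroup.closure S = ⊤) (hcount : SlabGrowth χ S C D) (hconn : SubConn χ S) :
    ∃ Y : Set H, Y.Finite ∧ Subgroup.closure Y = h.ker ∧
      ∃ C' D' : ℕ, ∀ n, (Bl Y n).ncard ≤ C' * (n + 1) ^ D' := by
  classical
  obtain ⟨c₀, hc₀, hmil⟩ := h.milnor hC hS hcount
  set c := min c₀ 1 with hc
  have hcpos : 0 < c := lt_min hc₀ one_pos
  obtain ⟨C₁, hC₁⟩ := h.approx hSf hS (half_pos hcpos)
  obtain ⟨Φ, hΦf, hΦR, hΦ⟩ := exists_net χ c (half_pos hcpos)
  obtain ⟨L, hL⟩ := exists_Bl_of_finite (A := S) hΦf (fun x _ => by rw [hS]; trivial)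
  obtain ⟨C₂, hC₂⟩ := hconn (8 * (C₁ + 1)) (by omega)
  -- short small elements
  let U : ℕ → Set H := fun n => Bl S n ∩ SH χ c
  set n₀ := 4 * (2 * (C₁ + 1) * (C₂ + 2) + 1) + 4 * L + 1 with hn₀
  have hUgen : ∀ n, U n ⊆ Subgroup.closure (U n₀) := by
    intro n
    induction n using Nat.strong_induction_on with
    | _ n ih =>
      by_cases hn : n ≤ n₀
      · intro x hx
        exact Subgroup.subset_closure ⟨Bl_mono hn hx.1, hx.2⟩
      · rintro x ⟨hxn, hxc⟩
        push Not at hn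
        set R := n / (8 * (C₁ + 1)) + C₂ with hR
        obtain ⟨m, p, h0, h1, h2, h3⟩ := hC₂ n x hxn
          (SH_mono (min_le_right _ _) hxc)
        -- corrections
        have hch : ∀ z : H, ∃ s : H, z ∈ SH χ (R : ℝ) → s ∈ Bl S (C₁ * (R + 1)) ∧
            z * s⁻¹ ∈ SH χ (c / 2) := by
          intro z
          by_cases hz : z ∈ SH χ (R : ℝ)
          · obtain ⟨s, hs1, hs2⟩ := hC₁ R z hz
            exact ⟨s, fun _ => ⟨hs1, hs2⟩⟩
          · exact ⟨1, fun h => absurd h hz⟩
        choose s hs using hch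
        set n' := 2 * C₁ * (R + 1) + 1 with hn'
        have hn'n : n' + L < n := by
          have e1 : n / (8 * (C₁ + 1)) * (8 * (C₁ + 1)) ≤ n := Nat.div_mul_le_self _ _
          have e2 : 2 * C₁ * (R + 1) ≤ 2 * (C₁ + 1) * (n / (8 * (C₁ + 1))) +
              2 * (C₁ + 1) * (C₂ + 1) := by
            rw [hR]
            nlinarith [Nat.zero_le (n / (8 * (C₁ + 1)))]
          have e3 : 4 * (2 * (C₁ + 1) * (n / (8 * (C₁ + 1)))) ≤ n := by
            calc 4 * (2 * (C₁ + 1) * (n / (8 * (C₁ + 1)))) =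
                n / (8 * (C₁ + 1)) * (8 * (C₁ + 1)) := by ring
              _ ≤ n := e1
          have e4 : 2 * (C₁ + 1) * (C₂ + 2) = 2 * (C₁ + 1) * (C₂ + 1) + 2 * (C₁ + 1) := by ring
          omega
        have hsmall : ∀ i < m, s (p i) * ((p i)⁻¹ * p (i + 1)) * (s (p (i + 1)))⁻¹ ∈ U n' := by
          intro i hi
          have a1 := hs _ (h2 i (by omega))
          have a2 := hs _ (h2 (i + 1) (by omega))
          have hb : (p i)⁻¹ * p (i + 1) ∈ Bl S 1 := by
            rcases h3 i hi with hb | hb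
            · exact mem_Bl_one' hb
            · rw [Set.mem_singleton_iff] at hb
              rw [hb]
              exact one_mem_Bl _ _
          refine ⟨Bl_mono (le_of_eq ?_) (mul_mem_Bl (mul_mem_Bl a1.1 hb) (inv_mem_Bl a2.1)), ?_⟩
          · rw [hn']; ring
          · intro j
            have b1 := a1.2 j
            have b2 := a2.2 j
            simp only [h.mul, h.inv] at b1 b2 ⊢
            have e2 : χ (s (p i)) j + (-χ (p i) j + χ (p (i + 1)) j) + -χ (s (p (i + 1))) j =
              -(χ (p i) j + -χ (s (p i)) j) + (χ (p (i + 1)) j + -χ (s (p (i + 1))) j) := by ring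
            rw [e2]
            refine (abs_add_le _ _).trans ?_
            rw [abs_neg]
            linarith
        have hstart : (1 : H) * (s 1)⁻¹ ∈ U n' := by
          have hp0 : (1 : H) ∈ SH χ (R : ℝ) := h0 ▸ h2 0 (Nat.zero_le _)
          have a1 := hs 1 hp0
          refine ⟨Bl_mono ?_ (mul_mem_Bl (one_mem_Bl S 0) (inv_mem_Bl a1.1)), ?_⟩
          · rw [hn']
            nlinarith [Nat.zero_le (C₁ * (R + 1))]
          · exact SH_mono (by linarith) a1.2
        have key : ∀ i ≤ m, p i * (s (p i))⁻¹ ∈ Subgroup.closure (U n₀) := by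
          intro i
          induction i with
          | zero =>
            intro _
            rw [h0]
            exact ih n' (by omega) hstart
          | succ i ihi =>
            intro hi
            have e : p (i + 1) * (s (p (i + 1)))⁻¹ = p i * (s (p i))⁻¹ *
                (s (p i) * ((p i)⁻¹ * p (i + 1)) * (s (p (i + 1)))⁻¹) := by group
            rw [e]
            exact Subgroup.mul_mem _ (ihi (by omega)) (ih n' (by omega) (hsmall i (by omega)))
        have hend := key m le_rfl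
        rw [h1] at hend
        -- the last correction
        have hxR : x ∈ SH χ (R : ℝ) := h1 ▸ h2 m le_rfl
        have a1 := hs x hxR
        obtain ⟨w, hwΦ, hw⟩ := hΦ x hxc
        have hw1 : w ∈ Subgroup.closure (U n₀) :=
          Subgroup.subset_closure ⟨Bl_mono (by omega) (hL hwΦ), hΦR hwΦ⟩
        have hsw : s x * w⁻¹ ∈ U (n' + L) := by
          refine ⟨Bl_mono ?_ (mul_mem_Bl a1.1 (inv_mem_Bl (hL hwΦ))), ?_⟩
          · rw [hn']
            nlinarith [Nat.zero_le (C₁ * (R + 1))]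
          · intro j
            have b1 := a1.2 j
            have b2 := hw j
            simp only [h.mul, h.inv] at b1 b2 ⊢
            have e2 : χ (s x) j + -χ w j = -(χ x j + -χ (s x) j) + (χ x j - χ w j) := by ring
            rw [e2]
            refine (abs_add_le _ _).trans ?_
            rw [abs_neg]
            linarith
        have e : x = (x * (s x)⁻¹) * (s x * w⁻¹) * w := by group
        rw [e]
        exact Subgroup.mul_mem _ (Subgroup.mul_mem _ hend (ih _ hn'n hsw)) hw1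
  have hUf : (U n₀).Finite := (Bl_finite hSf n₀).inter_of_left _
  have hKU : h.ker ≤ Subgroup.closure (U n₀) := by
    intro x hx
    obtain ⟨n, hn⟩ := exists_Bl_of_finite (A := S) (Set.finite_singleton x)
      (fun y _ => by rw [hS]; trivial)
    refine hUgen n ⟨hn rfl, fun i => ?_⟩
    rw [(h.mem_ker x).mp hx i, abs_zero]
    exact hcpos.le
  have hMil : ∀ t ∈ U n₀, Mil h.ker t ∧ Mil h.ker t⁻¹ := by
    intro t ht
    have h1 : t ∈ SH χ c₀ := SH_mono (min_le_left _ _) ht.2
    exact ⟨fun y hy => hmil t h1 y hy, fun y hy => hmil t⁻¹ (h.inv_mem h1) y hy⟩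
  obtain ⟨T, hT⟩ := fg_of_mil h.ker_normal hUf hMil h.comm_mem hKU
  refine ⟨T, T.finite_toSet, hT, ?_⟩
  -- growth
  have h1B : (1 : H) ∈ S ∪ S⁻¹ ∪ {1} := Or.inr rfl
  obtain ⟨ℓ, r, hpath⟩ : ∃ ℓ r : ℕ, ∀ y ∈ (T : Set H) ∪ (T : Set H)⁻¹ ∪ {1},
      PathTo (SH χ (r : ℝ)) (S ∪ S⁻¹ ∪ {1}) ℓ 1 y := by
    have hfin : ((T : Set H) ∪ (T : Set H)⁻¹ ∪ {1}).Finite :=
      (T.finite_toSet.union T.finite_toSet.inv).union (Set.finite_singleton 1)
    refine Set.Finite.induction_on _ hfin ⟨0, 0, fun y hy => absurd hy (Set.notMem_empty y)⟩ ?_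
    rintro a s' - - ⟨ℓ, r, hs'⟩
    obtain ⟨n₁, r₁, hp₁⟩ := exists_path_gen hS χ a
    refine ⟨max ℓ n₁, max r r₁, ?_⟩
    rintro y (rfl | hy)
    · exact (hp₁.mono (SH_mono (by exact_mod_cast le_max_right _ _)) subset_rfl).extend h1B
        (le_max_right _ _)
    · exact ((hs' y hy).mono (SH_mono (by exact_mod_cast le_max_left _ _)) subset_rfl).extend h1B
        (le_max_left _ _)
  refine ⟨C ^ (r + 1) * (ℓ + 1) ^ D, D, fun n => ?_⟩
  have hsub : Bl (T : Set H) n ⊆ {x | PathTo (SH χ (r : ℝ)) (S ∪ S⁻¹ ∪ {1}) (n * ℓ) 1 x} := by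
    rintro x ⟨l, hl1, hl2, rfl⟩
    have key : ∀ (l : List H), (∀ a ∈ l, a ∈ (T : Set H) ∪ (T : Set H)⁻¹ ∪ {1}) →
        ∀ y ∈ h.ker, PathTo (SH χ (r : ℝ)) (S ∪ S⁻¹ ∪ {1}) (l.length * ℓ) y (y * l.prod) := by
      intro l
      induction l with
      | nil =>
        intro _ y hy
        rw [List.length_nil, Nat.zero_mul, List.prod_nil, mul_one]
        refine PathTo.refl fun i => ?_
        rw [(h.mem_ker y).mp hy i, abs_zero]
        positivity
      | cons a l ih =>
        intro hal y hy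
        have ha := hal a List.mem_cons_self
        have hak : a ∈ h.ker := by
          rw [← hT]
          rcases ha with (ha | ha) | ha
          · exact Subgroup.subset_closure ha
          · simpa using Subgroup.inv_mem _ (Subgroup.subset_closure ha)
          · rw [Set.mem_singleton_iff] at ha
            rw [ha]
            exact Subgroup.one_mem _
        have h2 := ih (fun b hb => hal b (List.mem_cons_of_mem _ hb)) (y * a)
          (h.ker.mul_mem hy hak)
        have h3 : PathTo (SH χ (r : ℝ)) (S ∪ S⁻¹ ∪ {1}) ℓ y (y * a) := by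
          have := (hpath a ha).left y (P' := SH χ (r : ℝ)) (fun x hx => by
            intro i
            rw [h.mul, (h.mem_ker y).mp hy i, zero_add]
            exact hx i)
          rwa [mul_one] at this
        have h4 := h3.trans h2
        rw [List.length_cons, List.prod_cons, ← mul_assoc]
        have e : (l.length + 1) * ℓ = ℓ + l.length * ℓ := by ring
        rw [e]
        exact h4
    have h2 := key l (fun a ha => Or.inl (hl2 a ha)) 1 h.ker.one_mem
    rw [one_mul] at h2
    exact h2.extend h1B (Nat.mul_le_mul_right _ hl1)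
  refine (Set.ncard_le_ncard hsub (hcount r (n * ℓ)).1).trans ((hcount r (n * ℓ)).2.trans ?_)
  calc C ^ (r + 1) * (n * ℓ + 1) ^ D ≤ C ^ (r + 1) * ((ℓ + 1) * (n + 1)) ^ D := by
        refine Nat.mul_le_mul_left _ (Nat.pow_le_pow_left ?_ _)
        nlinarith
    _ = C ^ (r + 1) * (ℓ + 1) ^ D * (n + 1) ^ D := by rw [mul_pow]; ring

end

end Vale.Agent.P188.H789
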