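import Vale.Agent.P188.H789.Exit3

/-!
# The additive function of a mean, restriction to subgroups of finite index
-/

universe u v w

open Pointwise

namespace Vale.Agent.P188.H789

section chi

variable {H : Type u} [Group H] {k : ℕ}

/-- The mean of the increments of `ψ`. -/
noncomputable def chi (μ : (H → ℝ) → ℝ) (ψ : H → Fin k → ℝ) (x : H) (a : Fin k) : ℝ :=
  μ (fun h => ψ (h * x) a - ψ h a)

/-- Lipschitz along a generating set. -/
theorem lip_Bl {ψ : H → Fin k → ℝ} {S : Set H} {L : ℝ}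
    (hL : ∀ x, ∀ s ∈ S ∪ S⁻¹ ∪ {1}, ∀ a, |ψ (x * s) a - ψ x a| ≤ L) :
    ∀ (n : ℕ), ∀ x ∈ Bl S n, ∀ (h : H) (a : Fin k), |ψ (h * x) a - ψ h a| ≤ L * n := by
  have hL0 : ∀ a : Fin k, 0 ≤ L := fun a => (abs_nonneg _).trans (hL 1 1 (Or.inr rfl) a)
  have key : ∀ l : List H, (∀ a ∈ l, a ∈ S ∨ a⁻¹ ∈ S) → ∀ (h : H) (a : Fin k),
      |ψ (h * l.prod) a - ψ h a| ≤ L * l.length := by
    intro l
    induction l with
    | nil => intro _ h a; simp
    | cons b l ih =>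
      intro hl h a
      have h1 := ih (fun c hc => hl c (List.mem_cons_of_mem _ hc)) (h * b) a
      have h2 := hL h b (by
        rcases hl b (by simp) with h | h
        · exact Or.inl (Or.inl h)
        · exact Or.inl (Or.inr h)) a
      rw [List.prod_cons, ← mul_assoc, List.length_cons]
      have h3 : ψ (h * b * l.prod) a - ψ h a =
          (ψ (h * b * l.prod) a - ψ (h * b) a) + (ψ (h * b) a - ψ h a) := by ring
      rw [h3]
      refine (abs_add_le _ _).trans ?_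
      push_cast
      linarith
  rintro n x ⟨l, h1, h2, rfl⟩ h a
  refine (key l h2 h a).trans (mul_le_mul_of_nonneg_left ?_ (hL0 a))
  exact_mod_cast h1

theorem bdd_incr {ψ : H → Fin k → ℝ} {S : Set H} (hS : Subgroup.closure S = ⊤) {L : ℝ}
    (hL : ∀ x, ∀ s ∈ S ∪ S⁻¹ ∪ {1}, ∀ a, |ψ (x * s) a - ψ x a| ≤ L) (x : H) (a : Fin k) :
    Bdd (fun h => ψ (h * x) a - ψ h a) := by
  obtain ⟨n, hn⟩ := exists_mem_Bl (A := S) (x := x) (by rw [hS]; trivial)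
  exact ⟨L * n, fun h => lip_Bl hL n x hn h a⟩

theorem chi_addv {μ : (H → ℝ) → ℝ} (hμ : IsMean μ)
    (hinv : ∀ (g : H) f, Bdd f → μ (fun x => f (x * g)) = μ f)
    {ψ : H → Fin k → ℝ} {S : Set H} (hS : Subgroup.closure S = ⊤) {L : ℝ}
    (hL : ∀ x, ∀ s ∈ S ∪ S⁻¹ ∪ {1}, ∀ a, |ψ (x * s) a - ψ x a| ≤ L) : Addv (chi μ ψ) := by
  refine ⟨fun x y => ?_⟩
  funext a
  rw [Pi.add_apply]
  unfold chi
  have h1 := hinv x _ (bdd_incr hS hL y a)
  have h2 := hμ.add (fun h => ψ (h * x) a - ψ h a) (fun h => ψ (h * x * y) a - ψ (h * x) a)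
    (bdd_incr hS hL x a) ((bdd_incr hS hL y a).comp (fun h => h * x))
  rw [h1] at h2
  rw [← h2]
  congr 1
  funext h
  simp only [Pi.add_apply, mul_assoc]
  ring

theorem chi_near {μ : (H → ℝ) → ℝ} (hμ : IsMean μ) {ψ : H → Fin k → ℝ} {S : Set H}
    (hS : Subgroup.closure S = ⊤) {L : ℝ}
    (hL : ∀ x, ∀ s ∈ S ∪ S⁻¹ ∪ {1}, ∀ a, |ψ (x * s) a - ψ x a| ≤ L)
    (hES : ∀ ε : ℝ, 0 < ε → ∃ C : ℝ, ∀ n : ℕ, ∀ x ∈ Bl S n, ∀ (h : H) (i : Fin k),
      |ψ (h * x) i - ψ h i - (ψ x i - ψ 1 i)| ≤ ε * n + C) :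
    ∀ ε : ℝ, 0 < ε → ∃ C : ℝ, ∀ n : ℕ, ∀ x ∈ Bl S n, ∀ i,
      |chi μ ψ x i - ψ x i| ≤ ε * n + C := by
  intro ε hε
  obtain ⟨C, hC⟩ := hES ε hε
  obtain ⟨C₁, hC₁⟩ : ∃ C₁ : ℝ, ∀ i : Fin k, |ψ 1 i| ≤ C₁ := by
    refine ⟨∑ i, |ψ 1 i|, fun i => ?_⟩
    exact Finset.single_le_sum (f := fun i => |ψ 1 i|) (fun _ _ => abs_nonneg _)
      (Finset.mem_univ i)
  refine ⟨C + C₁, fun n x hx i => ?_⟩
  have hb := bdd_incr hS hL x i
  have h1 : |μ ((fun h => ψ (h * x) i - ψ h i) + fun _ => -(ψ x i - ψ 1 i))| ≤ ε * n + C := by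
    refine hμ.abs_le fun h => ?_
    have := hC n x hx h i
    simp only [Pi.add_apply]
    rwa [← sub_eq_add_neg]
  rw [hμ.add _ _ hb (Bdd.const _), hμ.const] at h1
  have h2 : chi μ ψ x i - ψ x i =
      (μ (fun h => ψ (h * x) i - ψ h i) + -(ψ x i - ψ 1 i)) + -(ψ 1 i) := by
    unfold chi; ring
  rw [h2]
  refine (abs_add_le _ _).trans ?_
  rw [abs_neg]
  linarith [hC₁ i]

/-- `hts η F` is Lipschitz. -/
theorem hts_lip {G : Type v} [Group G] (η : G →* Multiplicative (Fin k → ℤ)) {F : H → G}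
    (hF : Coarse F) {B : Set H} (hB : B.Finite) :
    ∃ L : ℕ, ∀ x, ∀ s ∈ B, ∀ a, |hts η F (x * s) a - hts η F x a| ≤ L := by
  obtain ⟨B', hB'f, hB'⟩ := hF B hB
  obtain ⟨r, hr⟩ := exists_slab_finite η hB'f
  refine ⟨r, fun x s hs a => ?_⟩
  have h1 := hr (hB' x (x * s) (by rw [inv_mul_cancel_left]; exact hs)) a
  unfold cz at h1
  rw [dif_pos a.2] at h1
  have h5 : (Multiplicative.toAdd (η ((F x)⁻¹ * F (x * s))) : Fin k → ℤ) a =
      (Multiplicative.toAdd (η (F (x * s))) : Fin k → ℤ) a -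
        (Multiplicative.toAdd (η (F x)) : Fin k → ℤ) a := by
    rw [map_mul, map_inv, toAdd_mul, toAdd_inv, Pi.add_apply, Pi.neg_apply]
    ring
  have h2 : ((Multiplicative.toAdd (η ((F x)⁻¹ * F (x * s))) : Fin k → ℤ) a).natAbs ≤ r := h1
  rw [h5] at h2
  unfold hts
  have h6 : |(Multiplicative.toAdd (η (F (x * s))) : Fin k → ℤ) a -
        (Multiplicative.toAdd (η (F x)) : Fin k → ℤ) a| ≤ (r : ℤ) := by
    rw [← Int.natCast_natAbs]
    exact_mod_cast h2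
  exact_mod_cast h6

end chi

section restrict

variable {H : Type u} {G : Type v} [Group H] [Group G]

/-- a coarse retraction to a subgroup of finite index -/
theorem exists_retract (P : Subgroup H) (hP : P.FiniteIndex) :
    ∃ r : H → P, ∃ R : Set H, R.Finite ∧ ∀ x, x⁻¹ * (r x : H) ∈ R := by
  classical
  have hr : ∀ g : H, g * (Quotient.out (QuotientGroup.mk g⁻¹ : H ⧸ P)) ∈ P := by
    intro g
    have h1 : (QuotientGroup.mk (Quotient.out (QuotientGroup.mk g⁻¹ : H ⧸ P)) : H ⧸ P)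
      = QuotientGroup.mk g⁻¹ := Quotient.out_eq' _
    rw [QuotientGroup.eq] at h1
    have := P.inv_mem h1
    simpa using this
  refine ⟨fun g => ⟨_, hr g⟩, Set.range (fun q : H ⧸ P => q.out), Set.finite_range _, fun x => ?_⟩
  simp only [inv_mul_cancel_left]
  exact ⟨_, rfl⟩

/-- **Restriction of a coarse equivalence** to a subgroup of finite index. -/
theorem coarse_restrict {F : H → G} {F' : G → H} (hF : Coarse F) (hF' : Coarse F')
    (h1 : CloseId (F' ∘ F)) (h2 : CloseId (F ∘ F')) (P : Subgroup H) (hP : P.FiniteIndex) :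
    ∃ F₀' : G → P, Coarse (fun x : P => F x) ∧ Coarse F₀' ∧
      CloseId (F₀' ∘ fun x : P => F x) ∧ CloseId ((fun x : P => F x) ∘ F₀') := by
  obtain ⟨r, R, hR, hr⟩ := exists_retract P hP
  have hpre : ∀ A : Set H, A.Finite → ((fun p : P => (p : H)) ⁻¹' A).Finite := fun A hA =>
    hA.preimage Subtype.val_injective.injOn
  refine ⟨fun g => r (F' g), ?_, ?_, ?_, ?_⟩
  · intro A hA
    obtain ⟨B, hB, hB'⟩ := hF ((fun p : P => (p : H)) '' A) (hA.image _)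
    exact ⟨B, hB, fun x y hxy => hB' x y ⟨_, hxy, by simp⟩⟩
  · intro A hA
    obtain ⟨B, hB, hB'⟩ := hF' A hA
    refine ⟨_, hpre (R⁻¹ * B * R) ((hR.inv.mul hB).mul hR), fun x y hxy => ?_⟩
    show (((r (F' x))⁻¹ * r (F' y) : P) : H) ∈ R⁻¹ * B * R
    have e : (((r (F' x))⁻¹ * r (F' y) : P) : H) =
        ((F' x)⁻¹ * (r (F' x) : H))⁻¹ * ((F' x)⁻¹ * F' y) * ((F' y)⁻¹ * (r (F' y) : H)) := by
      simp only [Subgroup.coe_mul, Subgroup.coe_inv]; group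
    rw [e]
    exact Set.mul_mem_mul (Set.mul_mem_mul (Set.inv_mem_inv.mpr (hr _)) (hB' x y hxy)) (hr _)
  · obtain ⟨E, hE, hE'⟩ := h1
    refine ⟨_, hpre (E * R) (hE.mul hR), fun x => ?_⟩
    show ((x⁻¹ * r (F' (F x)) : P) : H) ∈ E * R
    have e : ((x⁻¹ * r (F' (F x)) : P) : H) =
        ((x : H)⁻¹ * F' (F x)) * ((F' (F x))⁻¹ * (r (F' (F x)) : H)) := by
      simp only [Subgroup.coe_mul, Subgroup.coe_inv]; group
    rw [e]
    exact Set.mul_mem_mul (hE' x) (hr _)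
  · obtain ⟨E, hE, hE'⟩ := h2
    obtain ⟨B, hB, hB'⟩ := hF R hR
    refine ⟨E * B, hE.mul hB, fun g => ?_⟩
    show g⁻¹ * F (r (F' g)) ∈ E * B
    have e : g⁻¹ * F (r (F' g)) = (g⁻¹ * F (F' g)) * ((F (F' g))⁻¹ * F (r (F' g))) := by group
    rw [e]
    exact Set.mul_mem_mul (hE' g) (hB' _ _ (hr _))

end restrict

end Vale.Agent.P188.H789
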