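import Vale.Agent.P188.H789.Milnor
import Vale.Agent.P188.H789.FG

/-! P188, end game: the kernel of `χ` is finitely generated of polynomial growth. -/

universe u v w

open Pointwise Filter

namespace Vale.Agent.P188.H789

section

variable {H : Type u} {G : Type v} [Group H] [Group G] {k : ℕ}
  {η : G →* Multiplicative (Fin k → ℤ)} {F : H → G} {F' : G → H} {χ : H → Fin k → ℝ} {C₀ : ℕ}

/-- The kernel of `χ`. -/
def Data.ker (h : Data η F F' χ C₀) : Subgroup H where
  carrier := {x | ∀ i, χ x i = 0}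
  one_mem' := h.one
  mul_mem' := by
    intro x y hx hy i
    rw [h.mul, hx i, hy i, add_zero]
  inv_mem' := by
    intro x hx i
    rw [h.inv, hx i, neg_zero]

theorem Data.mem_ker (h : Data η F F' χ C₀) (x : H) : x ∈ h.ker ↔ ∀ i, χ x i = 0 := Iff.rfl

theorem Data.ker_normal (h : Data η F F' χ C₀) : h.ker.Normal := by
  constructor
  intro n hn g i
  rw [h.mul, h.mul, h.inv, (h.mem_ker n).mp hn i]
  ring

theorem Data.comm_mem (h : Data η F F' χ C₀) (x y : H) : x * y * x⁻¹ * y⁻¹ ∈ h.ker := by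
  intro i
  simp only [h.mul, h.inv]
  ring

/-- The end game. -/
theorem Data.endgame (h : Data η F F' χ C₀) (hη : Function.Surjective η)
    {A : Set G} (hA : A.Finite)
    (hcl : Subgroup.closure A = η.ker) {C D : ℕ} (hgr : ∀ n, (Bl A n).ncard ≤ C * (n + 1) ^ D)
    {S : Set H} (hSf : S.Finite) (hS : Subgroup.closure S = ⊤) :
    ∃ Y : Set H, Y.Finite ∧ Subgroup.closure Y = h.ker ∧
      ∃ C' : ℕ, ∀ n, (Bl Y n).ncard ≤ C' * (n + 1) ^ D := by
  classical
  obtain ⟨c, hc0, hmil⟩ := h.milnor hη hA hcl hgr hSf hS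
  obtain ⟨L, R, hLf, hL⟩ := h.connected hη hA hcl 0
  obtain ⟨Φ, hΦf, hΦR, hΦ⟩ := exists_net χ (R : ℝ) (half_pos hc0)
  -- the corrections
  have hch : ∀ z : H, ∃ s : H, z ∈ SH χ (R : ℝ) → (s ∈ Φ ∪ {1} ∧ ∀ i, |χ z i - χ s i| ≤ c / 2) ∧
      (z ∈ h.ker → s = 1) := by
    intro z
    by_cases hz : z ∈ h.ker
    · refine ⟨1, fun _ => ⟨⟨Or.inr rfl, fun i => ?_⟩, fun _ => rfl⟩⟩
      rw [h.one, (h.mem_ker z).mp hz i, sub_zero, abs_zero]
      exact (half_pos hc0).le
    · by_cases hzR : z ∈ SH χ (R : ℝ)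
      · obtain ⟨s, hs1, hs2⟩ := hΦ z hzR
        exact ⟨s, fun _ => ⟨⟨Or.inl hs1, hs2⟩, fun h => absurd h hz⟩⟩
      · exact ⟨1, fun h => absurd h hzR⟩
  choose s hs using hch
  let U : Set H := ((fun p : H × H × H => p.1 * p.2.1 * p.2.2⁻¹) ''
    ((Φ ∪ {1}) ×ˢ L ×ˢ (Φ ∪ {1}))) ∩ SH χ c
  have hΦ1 : (Φ ∪ {1}).Finite := hΦf.union (Set.finite_singleton 1)
  have hUf : U.Finite := ((hΦ1.prod (hLf.prod hΦ1)).image _).inter_of_left _
  have hKU : h.ker ≤ Subgroup.closure U := by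
    intro x hx
    have hx0 : x ∈ SH χ ((0 : ℕ) : ℝ) := by
      intro i
      rw [(h.mem_ker x).mp hx i]
      simp
    obtain ⟨n, p, h0, h1, h2, h3⟩ := hL x hx0
    have key : ∀ i ≤ n, p i * (s (p i))⁻¹ ∈ Subgroup.closure U := by
      intro i
      induction i with
      | zero =>
        intro _
        rw [h0, (hs 1 (h0 ▸ h2 0 (Nat.zero_le _))).2 h.ker.one_mem]
        simp
      | succ i ih =>
        intro hi
        have hi' : i ≤ n := by omega
        have e : p (i + 1) * (s (p (i + 1)))⁻¹ = p i * (s (p i))⁻¹ *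
            (s (p i) * ((p i)⁻¹ * p (i + 1)) * (s (p (i + 1)))⁻¹) := by group
        rw [e]
        refine Subgroup.mul_mem _ (ih hi') (Subgroup.subset_closure ⟨?_, ?_⟩)
        · exact ⟨(s (p i), (p i)⁻¹ * p (i + 1), s (p (i + 1))),
            ⟨(hs _ (h2 i hi')).1.1, h3 i (by omega), (hs _ (h2 _ hi)).1.1⟩, rfl⟩
        · intro j
          have a1 := (hs _ (h2 i hi')).1.2 j
          have a2 := (hs _ (h2 _ hi)).1.2 j
          simp only [h.mul, h.inv]
          have e2 : χ (s (p i)) j + (-χ (p i) j + χ (p (i + 1)) j) + -χ (s (p (i + 1))) j =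
            -(χ (p i) j - χ (s (p i)) j) + (χ (p (i + 1)) j - χ (s (p (i + 1))) j) := by ring
          rw [e2]
          refine (abs_add_le _ _).trans ?_
          rw [abs_neg]
          linarith
    have h4 := key n le_rfl
    rw [h1, (hs x (h1 ▸ h2 n le_rfl)).2 hx] at h4
    simpa using h4
  have hMil : ∀ t ∈ U, Mil h.ker t ∧ Mil h.ker t⁻¹ := by
    intro t ht
    exact ⟨fun y hy => hmil t ht.2 y hy, fun y hy => hmil t⁻¹ (h.inv_mem ht.2) y hy⟩
  obtain ⟨T, hT⟩ := fg_of_mil h.ker_normal hUf hMil h.comm_mem hKU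
  refine ⟨T, T.finite_toSet, hT, ?_⟩
  have hBf : ((T : Set H) ∪ (T : Set H)⁻¹ ∪ {1}).Finite :=
    (T.finite_toSet.union T.finite_toSet.inv).union (Set.finite_singleton 1)
  obtain ⟨C', -, hcount⟩ := h.count hη hA hcl hgr hBf
  refine ⟨C' ^ (0 + 1), fun n => ?_⟩
  refine (Set.ncard_le_ncard ?_ (hcount 0 n).1).trans (hcount 0 n).2
  rintro x ⟨l, hl1, hl2, rfl⟩
  have h1 := PathTo.of_list (P := SH χ ((0 : ℕ) : ℝ)) (B := (T : Set H) ∪ (T : Set H)⁻¹ ∪ {1})
    l 1 (fun a ha => Or.inl (hl2 a ha)) (fun j _ => by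
      have h2 : (1 : H) * (l.take j).prod ∈ h.ker := by
        refine h.ker.mul_mem h.ker.one_mem (Subgroup.list_prod_mem _ fun a ha => ?_)
        rw [← hT]
        rcases hl2 a (List.mem_of_mem_take ha) with h | h
        · exact Subgroup.subset_closure h
        · simpa using Subgroup.inv_mem _ (Subgroup.subset_closure h)
      intro i
      rw [(h.mem_ker _).mp h2 i]
      simp)
  rw [one_mul] at h1
  have h1B : (1 : H) ∈ (T : Set H) ∪ (T : Set H)⁻¹ ∪ {1} := Or.inr rfl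
  exact h1.extend h1B hl1

end

end Vale.Agent.P188.H789
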