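import Vale.Agent.P188.H789.Abs2
import Vale.Agent.P188.Mean

/-!
# First exit

`μ` a right invariant mean on `H`, `ψ : H → ℝ^k` Lipschitz, `χ x` the mean of `ψ (h x) - ψ h`.
Comparison of the increments of `ψ` along the translates `h g y_i` of a path `y_i`, as long as the
increments of `ψ` along `g y_i` are bounded by `R`, gives: if `χ` is bounded by `R / 4` along the
path, then the increments of `ψ` along `g y_i` are bounded by `R`.
-/

universe u v w

open Pointwise

namespace Vale.Agent.P188.H789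

variable {H : Type u} [Group H] {k : ℕ}

/-- The mean of a set. -/
noncomputable def mset {X : Type u} (μ : (X → ℝ) → ℝ) (s : Set X) : ℝ :=
  μ (s.indicator fun _ => 1)

/-- Comparison of the increments of `ψ` along `g y_i` and `h g y_i`, for all `h` outside a set
of small mean, as long as the increments of `ψ` along `g y_i` are bounded by `R`. -/
def GoodAt (μ : (H → ℝ) → ℝ) (ψ : H → Fin k → ℝ) (R : ℝ) (m : ℕ) (y : ℕ → H) (g : H) : Prop :=
  ∃ Bad : Set H, m * mset μ Bad ≤ 1 ∧ ∀ h ∉ Bad, ∀ j ≤ m,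
    (∀ i ≤ j, ∀ a, |ψ (g * y i) a - ψ g a| ≤ R) →
    ∀ a, |(ψ (h * (g * y j)) a - ψ (h * g) a) - (ψ (g * y j) a - ψ g a)| ≤ R / 4

/-- Comparison along paths of length at most `exp (c R)` with steps in `B`, for most base
points. -/
def Cmp (μ : (H → ℝ) → ℝ) (ψ : H → Fin k → ℝ) (B : Set H) : Prop :=
  ∃ c : ℝ, 0 < c ∧ ∃ R₀ : ℝ, ∀ R : ℝ, R₀ ≤ R → ∀ m : ℕ, (m : ℝ) ≤ Real.exp (c * R) →
    ∀ y : ℕ → H, y 0 = 1 → (∀ i < m, (y i)⁻¹ * y (i + 1) ∈ B) →
      mset μ {g | ¬ GoodAt μ ψ R m y g} ≤ 1 / 2

theorem Bdd.indicator {X : Type u} (s : Set X) : Bdd (s.indicator fun _ => (1 : ℝ)) := by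
  classical
  refine ⟨1, fun x => ?_⟩
  rw [Set.indicator_apply]
  split_ifs <;> simp

theorem mset_nonneg {X : Type u} {μ : (X → ℝ) → ℝ} (hμ : IsMean μ) (s : Set X) :
    0 ≤ mset μ s :=
  hμ.nonneg _ (Bdd.indicator s) fun x => Set.indicator_nonneg (fun _ _ => zero_le_one) x

theorem bdd_of_step {ψ : H → Fin k → ℝ} {B : Set H} {L : ℝ}
    (hL : ∀ x, ∀ s ∈ B, ∀ a, |ψ (x * s) a - ψ x a| ≤ L) {m : ℕ} {y : ℕ → H}
    (hy : ∀ i < m, (y i)⁻¹ * y (i + 1) ∈ B) (h : H) (a : Fin k) :
    ∀ j ≤ m, |ψ (h * y j) a - ψ (h * y 0) a| ≤ L * j := by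
  intro j
  induction j with
  | zero => intro _; simp
  | succ j ih =>
    intro hj
    have h1 := ih (by omega)
    have h2 := hL (h * y j) _ (hy j (by omega)) a
    rw [mul_assoc h (y j), mul_inv_cancel_left] at h2
    have h3 : ψ (h * y (j + 1)) a - ψ (h * y 0) a =
        (ψ (h * y (j + 1)) a - ψ (h * y j) a) + (ψ (h * y j) a - ψ (h * y 0) a) := by ring
    rw [h3]
    refine (abs_add_le _ _).trans ?_
    push_cast
    linarith

/-- **First exit** at a good base point. -/
theorem exit_bound {μ : (H → ℝ) → ℝ} (hμ : IsMean μ)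
    (hinv : ∀ (g : H) f, Bdd f → μ (fun x => f (x * g)) = μ f)
    {ψ χ : H → Fin k → ℝ} {B : Set H} {L : ℝ} (hL0 : 0 ≤ L)
    (hL : ∀ x, ∀ s ∈ B, ∀ a, |ψ (x * s) a - ψ x a| ≤ L)
    (hχ : ∀ x a, χ x a = μ (fun h => ψ (h * x) a - ψ h a))
    {R : ℝ} (hR : 8 * L ≤ R) {m : ℕ} {y : ℕ → H} (hy0 : y 0 = 1)
    (hy : ∀ i < m, (y i)⁻¹ * y (i + 1) ∈ B) (hχy : ∀ j ≤ m, ∀ a, |χ (y j) a| ≤ R / 4)
    {g : H} (hg : GoodAt μ ψ R m y g) :
    ∀ j ≤ m, ∀ a, |ψ (g * y j) a - ψ g a| ≤ R := by
  classical
  obtain ⟨Bad, hBad, hcmp⟩ := hg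
  have key : ∀ j ≤ m, ∀ i ≤ j, ∀ a, |ψ (g * y i) a - ψ g a| ≤ R := by
    intro j
    induction j with
    | zero =>
      intro _ i hi a
      have : i = 0 := by omega
      rw [this, hy0, mul_one, sub_self, abs_zero]
      linarith
    | succ j ih =>
      intro hj i hi a
      have hP := ih (by omega)
      rcases Nat.lt_or_ge i (j + 1) with hlt | hge
      · exact hP i (by omega) a
      have hij : i = j + 1 := by omega
      rw [hij]
      -- bounds for all `h`
      have hbd : ∀ (h : H) (a : Fin k), |ψ (h * y j) a - ψ h a| ≤ L * m := by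
        intro h a
        have h1 := bdd_of_step hL hy h a j (by omega)
        rw [hy0, mul_one] at h1
        refine h1.trans (mul_le_mul_of_nonneg_left ?_ hL0)
        exact_mod_cast (by omega : j ≤ m)
      -- the mean
      have hf : Bdd (fun h => ψ (h * y j) a - ψ h a) := ⟨L * m, fun h => hbd h a⟩
      have e1 : χ (y j) a = μ (fun h => ψ (h * (g * y j)) a - ψ (h * g) a) := by
        rw [hχ, ← hinv g _ hf]
        simp only [mul_assoc]
      set c₀ : ℝ := ψ (g * y j) a - ψ g a with hc₀
      have hf2 : Bdd (fun h => ψ (h * (g * y j)) a - ψ (h * g) a) := by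
        refine ⟨L * m, fun h => ?_⟩
        have h1 := hbd (h * g) a
        rw [mul_assoc] at h1
        exact h1
      have hc₀b : |c₀| ≤ L * m := hbd g a
      -- pointwise bounds
      have hup : ∀ h, ψ (h * (g * y j)) a - ψ (h * g) a ≤
          (fun h => (c₀ + R / 4) + (2 * L * m) * (Bad.indicator (fun _ => (1 : ℝ)) h)) h := by
        intro h
        simp only
        by_cases hB : h ∈ Bad
        · rw [Set.indicator_of_mem hB]
          have h1 := hbd (h * g) a
          rw [mul_assoc] at h1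
          have h2 := (abs_le.mp h1).2
          have h3 := (abs_le.mp hc₀b).1
          linarith
        · rw [Set.indicator_of_notMem hB]
          have h1 := (abs_le.mp (hcmp h hB j (by omega) hP a)).2
          linarith
      have hlo : ∀ h, (fun h => (c₀ - R / 4) + (-(2 * L * m)) *
          (Bad.indicator (fun _ => (1 : ℝ)) h)) h ≤ ψ (h * (g * y j)) a - ψ (h * g) a := by
        intro h
        simp only
        by_cases hB : h ∈ Bad
        · rw [Set.indicator_of_mem hB]
          have h1 := hbd (h * g) a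
          rw [mul_assoc] at h1
          have h2 := (abs_le.mp h1).1
          have h3 := (abs_le.mp hc₀b).2
          linarith
        · rw [Set.indicator_of_notMem hB]
          have h1 := (abs_le.mp (hcmp h hB j (by omega) hP a)).1
          linarith
      have hind := Bdd.indicator Bad
      have hmean : ∀ (u v : ℝ), μ (fun h => u + v * (Bad.indicator (fun _ => (1 : ℝ)) h)) =
          u + v * mset μ Bad := by
        intro u v
        have h1 := hμ.add (fun _ => u) (fun h => v * (Bad.indicator (fun _ => (1 : ℝ)) h))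
          (Bdd.const u) (hind.const_mul v)
        have h2 := hμ.smul v _ hind
        rw [hμ.const, h2] at h1
        exact h1
      have hbdd : ∀ (u v : ℝ), Bdd (fun h => u + v * (Bad.indicator (fun _ => (1 : ℝ)) h)) :=
        fun u v => (Bdd.const u).add (hind.const_mul v)
      have m1 := hμ.le hf2 (hbdd _ _) hup
      have m2 := hμ.le (hbdd _ _) hf2 hlo
      rw [hmean] at m1 m2
      rw [← e1] at m1 m2
      have h5 : 2 * L * m * mset μ Bad ≤ 2 * L := by
        have : 2 * L * m * mset μ Bad = 2 * L * (m * mset μ Bad) := by ring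
        rw [this]
        nlinarith
      have h6 := hχy j (by omega) a
      have h7 : |c₀| ≤ 3 * R / 4 := by
        rw [abs_le] at h6 ⊢
        constructor
        · nlinarith [h6.1, h6.2]
        · nlinarith [h6.1, h6.2]
      have h8 := hL (g * y j) _ (hy j (by omega)) a
      rw [mul_assoc g (y j), mul_inv_cancel_left] at h8
      have h9 : ψ (g * y (j + 1)) a - ψ g a =
          (ψ (g * y (j + 1)) a - ψ (g * y j) a) + c₀ := by rw [hc₀]; ring
      rw [h9]
      refine (abs_add_le _ _).trans ?_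
      linarith
  exact fun j hj a => key j hj j le_rfl a

end Vale.Agent.P188.H789
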