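import Vale.Agent.P188.H789.Exit

/-!
# First exit: counting

`Cmp` implies `SlabGrowth`.
-/

universe u v w

open Pointwise

namespace Vale.Agent.P188.H789

variable {H : Type u} [Group H] {k : ℕ}

/-- The heights of `F`. -/
def hts {G : Type v} [Group G] (η : G →* Multiplicative (Fin k → ℤ)) (F : H → G) (x : H)
    (a : Fin k) : ℝ := ((Multiplicative.toAdd (η (F x)) a : ℤ) : ℝ)

/-- If each of finitely many conditions fails on a set of mean at most `1/2`, some point satisfies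
at least half of them. -/
theorem exists_half {X : Type u} {ι : Type v} {μ : (X → ℝ) → ℝ} (hμ : IsMean μ)
    (T : Finset ι) (P : ι → X → Prop) (hP : ∀ t ∈ T, mset μ {x | ¬ P t x} ≤ 1 / 2) :
    ∃ x, ∃ T' ⊆ T, (∀ t ∈ T', P t x) ∧ T.card ≤ 2 * T'.card := by
  classical
  by_contra hcon
  push Not at hcon
  have h1 : ∀ x, ((T.card : ℝ) + 1) / 2 ≤ ∑ t ∈ T, ({x | ¬ P t x}.indicator (fun _ => (1 : ℝ)) x) := by
    intro x
    have h2 := hcon x (T.filter fun t => P t x) (Finset.filter_subset _ _)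
      (fun t ht => (Finset.mem_filter.mp ht).2)
    have h3 : ∑ t ∈ T, ({x | ¬ P t x}.indicator (fun _ => (1 : ℝ)) x) =
        ((T.filter fun t => ¬ P t x).card : ℝ) := by
      rw [Finset.card_filter]
      push_cast
      refine Finset.sum_congr rfl fun t _ => ?_
      simp [Set.indicator_apply]
    rw [h3]
    have h4 := Finset.card_filter_add_card_filter_not (s := T) (fun t => P t x)
    have h5 : T.card + 1 ≤ 2 * (T.filter fun t => ¬ P t x).card := by omega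
    have h6 : ((T.card + 1 : ℕ) : ℝ) ≤ ((2 * (T.filter fun t => ¬ P t x).card : ℕ) : ℝ) := by
      exact_mod_cast h5
    push_cast at h6
    linarith
  have h2 := hμ.sum T (fun t => ({x | ¬ P t x}.indicator (fun _ => (1 : ℝ))))
    (fun t _ => Bdd.indicator _)
  have h3 := hμ.le (Bdd.const (((T.card : ℝ) + 1) / 2)) h2.1 h1
  rw [hμ.const, h2.2] at h3
  have h4 : ∑ t ∈ T, μ ({x | ¬ P t x}.indicator (fun _ => (1 : ℝ))) ≤ ∑ _t ∈ T, (1 / 2 : ℝ) :=
    Finset.sum_le_sum fun t ht => hP t ht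
  rw [Finset.sum_const, nsmul_eq_mul] at h4
  linarith

section

variable {G : Type v} [Group G] {η : G →* Multiplicative (Fin k → ℤ)} {F : H → G} {F' : G → H}

/-- The endpoints of finitely many good paths are few. -/
theorem count_good {E : Set H} (hE : E.Finite) (hE' : ∀ x, x⁻¹ * F' (F x) ∈ E)
    {B : Set H} {B' : Set G} (hB' : ∀ x y : H, x⁻¹ * y ∈ B → (F x)⁻¹ * F y ∈ B')
    {R m : ℕ} (hfin : {z | PathTo (Slab η R) B' m 1 z}.Finite) (g : H) (X : Finset H)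
    (hX : ∀ x ∈ X, ∃ y : ℕ → H, y 0 = 1 ∧ y m = x ∧ (∀ i < m, (y i)⁻¹ * y (i + 1) ∈ B) ∧
      ∀ j ≤ m, ∀ a, |hts η F (g * y j) a - hts η F g a| ≤ R) :
    X.card ≤ E.ncard * {z | PathTo (Slab η R) B' m 1 z}.ncard := by
  classical
  set P := hfin.toFinset with hPd
  have hmaps : ∀ x ∈ X, (F g)⁻¹ * F (g * x) ∈ P := by
    intro x hx
    obtain ⟨y, h0, h1, h2, h3⟩ := hX x hx
    rw [hPd, Set.Finite.mem_toFinset]
    refine ⟨fun i => (F g)⁻¹ * F (g * y i), by simp [h0], by simp [h1], fun i hi a => ?_,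
      fun i hi => ?_⟩
    · unfold cz
      split_ifs with ha
      · have h4 := h3 i hi ⟨a, ha⟩
        unfold hts at h4
        have h5 : (Multiplicative.toAdd (η ((F g)⁻¹ * F (g * y i))) : Fin k → ℤ) ⟨a, ha⟩ =
            (Multiplicative.toAdd (η (F (g * y i))) : Fin k → ℤ) ⟨a, ha⟩ -
              (Multiplicative.toAdd (η (F g)) : Fin k → ℤ) ⟨a, ha⟩ := by
          rw [map_mul, map_inv, toAdd_mul, toAdd_inv, Pi.add_apply, Pi.neg_apply]
          ring
        rw [h5]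
        have h6 : |(Multiplicative.toAdd (η (F (g * y i))) : Fin k → ℤ) ⟨a, ha⟩ -
              (Multiplicative.toAdd (η (F g)) : Fin k → ℤ) ⟨a, ha⟩| ≤ (R : ℤ) := by
          exact_mod_cast h4
        rw [← Int.natCast_natAbs] at h6
        exact_mod_cast h6
      · simp
    · have h4 := hB' (g * y i) (g * y (i + 1)) (by
        rw [mul_inv_rev, mul_assoc, inv_mul_cancel_left]; exact h2 i hi)
      simpa [mul_assoc] using h4
  have hfib : ∀ z ∈ P, (X.filter fun x => (F g)⁻¹ * F (g * x) = z).card ≤ hE.toFinset.card := by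
    intro z _
    refine Finset.card_le_card_of_injOn (fun x => (g * x)⁻¹ * F' (F (g * x))) ?_ ?_
    · intro x _
      simpa using hE' (g * x)
    · intro x hx x' hx' hxx
      have e1 := (Finset.mem_filter.mp (Finset.mem_coe.mp hx)).2
      have e2 := (Finset.mem_filter.mp (Finset.mem_coe.mp hx')).2
      have e3 : F (g * x) = F (g * x') := by
        have := e1.trans e2.symm
        exact mul_left_cancel this
      simp only [e3] at hxx
      have e4 := mul_right_cancel hxx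
      exact mul_left_cancel (inv_injective e4)
  have h1 := Finset.card_le_mul_card_image_of_maps_to hmaps hE.toFinset.card hfib
  rw [Set.ncard_eq_toFinset_card E hE, Set.ncard_eq_toFinset_card _ hfin]
  exact h1

/-- **`Cmp` implies `SlabGrowth`.** -/
theorem slabGrowth_of_cmp (hη : Function.Surjective η)
    {A : Set G} (hA : A.Finite) (hcl : Subgroup.closure A = η.ker) {C D : ℕ}
    (hgr : ∀ n, (Bl A n).ncard ≤ C * (n + 1) ^ D)
    (hF : Coarse F) (hFF : CloseId (F' ∘ F))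
    {μ : (H → ℝ) → ℝ} (hμ : IsMean μ)
    (hinv : ∀ (g : H) f, Bdd f → μ (fun x => f (x * g)) = μ f)
    {χ : H → Fin k → ℝ} (hχ : ∀ x a, χ x a = μ (fun h => hts η F (h * x) a - hts η F h a))
    {S : Set H} (hS : S.Finite) (hcmp : Cmp μ (hts η F) (S ∪ S⁻¹ ∪ {1})) :
    ∃ C' D' : ℕ, 1 ≤ C' ∧ SlabGrowth χ S C' D' := by
  classical
  set B : Set H := S ∪ S⁻¹ ∪ {1} with hB
  have hBfin : B.Finite := (hS.union hS.inv).union (Set.finite_singleton 1)
  obtain ⟨B', hB'f, hB'⟩ := hF B hBfin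
  obtain ⟨E, hE, hE'⟩ := hFF
  obtain ⟨C₁, hC₁, hcount⟩ := slab_count η hη hA hcl hgr hB'f
  -- Lipschitz constant
  obtain ⟨L, hL⟩ : ∃ L : ℕ, ∀ x, ∀ s ∈ B, ∀ a, |hts η F (x * s) a - hts η F x a| ≤ L := by
    obtain ⟨r, hr⟩ := exists_slab_finite η hB'f
    refine ⟨r, fun x s hs a => ?_⟩
    have h1 := hr (hB' x (x * s) (by rw [inv_mul_cancel_left]; exact hs)) a
    unfold cz at h1
    rw [dif_pos a.2] at h1
    have h5 : (Multiplicative.toAdd (η ((F x)⁻¹ * F (x * s))) : Fin k → ℤ) a =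
        (Multiplicative.toAdd (η (F (x * s))) : Fin k → ℤ) a -
          (Multiplicative.toAdd (η (F x)) : Fin k → ℤ) a := by
      rw [map_mul, map_inv, toAdd_mul, toAdd_inv, Pi.add_apply, Pi.neg_apply]
      ring
    have h2 : ((Multiplicative.toAdd (η ((F x)⁻¹ * F (x * s))) : Fin k → ℤ) a).natAbs ≤ r := h1
    rw [h5] at h2
    unfold hts
    have h6 : |(Multiplicative.toAdd (η (F (x * s))) : Fin k → ℤ) a -
          (Multiplicative.toAdd (η (F x)) : Fin k → ℤ) a| ≤ (r : ℤ) := by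
      rw [← Int.natCast_natAbs]
      exact_mod_cast h2
    exact_mod_cast h6
  obtain ⟨c, hc, R₀, hcmp⟩ := hcmp
  obtain ⟨p, hp⟩ := exists_nat_ge (1 / c)
  obtain ⟨r₀, hr₀⟩ := exists_nat_ge (max R₀ (8 * L))
  obtain ⟨s, hs⟩ : ∃ s : ℕ, C₁ ≤ 2 ^ s := ⟨C₁, Nat.lt_two_pow_self.le⟩
  have hpc : 1 ≤ c * p := by
    rw [div_le_iff₀ hc] at hp
    linarith
  have hEn : 1 ≤ E.ncard := by
    rw [Nat.one_le_iff_ne_zero, Ne, Set.ncard_eq_zero hE]
    intro h
    have := hE' 1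
    rw [h] at this
    exact this
  refine ⟨2 * E.ncard * C₁ ^ (r₀ + 5) * 2 ^ (s * p) * 2, s * p + D, by
    have := Nat.pow_pos (n := r₀ + 5) hC₁
    have := Nat.pow_pos (n := s * p) (show 0 < 2 by norm_num)
    have h3 : 0 < E.ncard := hEn
    exact Nat.succ_le_of_lt (by positivity), fun ρ m => ?_⟩
  have hfinX : {x | PathTo (SH χ ρ) B m 1 x}.Finite := by
    refine (Bl_finite hS m).subset ?_
    rintro x ⟨y, h0, h1, h2, h3⟩
    have key : ∀ i ≤ m, y i ∈ Bl S i := by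
      intro i
      induction i with
      | zero => intro _; rw [h0]; exact one_mem_Bl _ _
      | succ i ih =>
        intro hi
        have e : y (i + 1) = y i * ((y i)⁻¹ * y (i + 1)) := by group
        rw [e]
        refine mul_mem_Bl (ih (by omega)) ?_
        rcases h3 i (by omega) with h | h
        · rcases h with h | h
          · exact mem_Bl_one h
          · exact mem_Bl_one' (Or.inr h)
        · rw [Set.mem_singleton_iff.mp h]; exact one_mem_Bl _ _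
    rw [← h1]
    exact key m le_rfl
  refine ⟨hfinX, ?_⟩
  -- the scale
  set ℓ := Nat.clog 2 (m + 1) with hℓ
  have hℓ1 : m + 1 ≤ 2 ^ ℓ := Nat.le_pow_clog (by norm_num) _
  have hℓ2 : 2 ^ ℓ ≤ 2 * (m + 1) := by
    rcases Nat.eq_zero_or_pos m with h0 | h0
    · rw [hℓ, h0]; simp
    · have h2 := Nat.pow_pred_clog_lt_self (b := 2) (by norm_num) (x := m + 1) (by omega)
      rw [← hℓ] at h2
      have h3 : 1 ≤ ℓ := by
        rw [hℓ]
        exact Nat.clog_pos (by norm_num) (by omega)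
      obtain ⟨q, hq⟩ := Nat.exists_eq_add_of_le h3
      have h4 : ℓ.pred = q := by rw [hq]; simp
      rw [h4] at h2
      rw [hq, pow_add]
      omega
  set R : ℕ := r₀ + 4 * ρ + p * ℓ with hRd
  have hR1 : R₀ ≤ (R : ℝ) := by
    have : (r₀ : ℝ) ≤ R := by rw [hRd]; push_cast; nlinarith [Nat.zero_le (4 * ρ + p * ℓ), (by positivity : (0:ℝ) ≤ (p:ℝ) * ℓ), (by positivity : (0:ℝ) ≤ (ρ:ℝ))]
    linarith [le_max_left R₀ (8 * (L : ℝ))]
  have hR2 : 8 * (L : ℝ) ≤ R := by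
    have : (r₀ : ℝ) ≤ R := by rw [hRd]; push_cast; nlinarith [(by positivity : (0:ℝ) ≤ (p:ℝ) * ℓ), (by positivity : (0:ℝ) ≤ (ρ:ℝ))]
    linarith [le_max_right R₀ (8 * (L : ℝ))]
  have hR3 : (ρ : ℝ) ≤ R / 4 := by
    have : 4 * (ρ : ℝ) ≤ R := by rw [hRd]; push_cast; nlinarith [(by positivity : (0:ℝ) ≤ (p:ℝ) * ℓ), (by positivity : (0:ℝ) ≤ (r₀:ℝ))]
    linarith
  have hm : (m : ℝ) ≤ Real.exp (c * R) := by
    have h1 : (ℓ : ℝ) ≤ c * R := by
      have h2 : (p : ℝ) * ℓ ≤ R := by rw [hRd]; push_cast; nlinarith [(by positivity : (0:ℝ) ≤ (r₀:ℝ)), (by positivity : (0:ℝ) ≤ (ρ:ℝ))]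
      have h3 : c * ((p : ℝ) * ℓ) ≤ c * R := mul_le_mul_of_nonneg_left h2 hc.le
      have h4 : (ℓ : ℝ) ≤ c * ((p : ℝ) * ℓ) := by
        have : c * ((p : ℝ) * ℓ) = (c * p) * ℓ := by ring
        rw [this]
        nlinarith [(by positivity : (0:ℝ) ≤ (ℓ:ℝ))]
      linarith
    have h5 : (m : ℝ) ≤ 2 ^ ℓ := by exact_mod_cast (by omega : m ≤ 2 ^ ℓ)
    have h6 : (2 : ℝ) ^ ℓ ≤ Real.exp ℓ := by
      rw [← Real.exp_one_pow]
      exact pow_le_pow_left₀ (by norm_num) (by linarith [Real.add_one_le_exp (1 : ℝ)]) _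
    exact h5.trans (h6.trans (Real.exp_le_exp.mpr h1))
  -- the paths
  set X := hfinX.toFinset with hX
  have hpath : ∀ x : H, ∃ y : ℕ → H, x ∈ X → (y 0 = 1 ∧ y m = x ∧ (∀ i ≤ m, y i ∈ SH χ ρ) ∧
      ∀ i < m, (y i)⁻¹ * y (i + 1) ∈ B) := by
    intro x
    by_cases hx : x ∈ X
    · rw [hX, Set.Finite.mem_toFinset] at hx
      obtain ⟨y, h⟩ := hx
      exact ⟨y, fun _ => h⟩
    · exact ⟨fun _ => 1, fun h => absurd h hx⟩
  choose Y hY using hpath
  obtain ⟨g, X', hX', hgood, hcard⟩ := exists_half hμ X (fun x g => GoodAt μ (hts η F) R m (Y x) g)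
    (fun x hx => hcmp R hR1 m hm (Y x) (hY x hx).1 (hY x hx).2.2.2)
  have hfinP := (hcount R m).1
  have h1 := count_good (F' := F') hE hE' hB' hfinP g X' (fun x hx => by
    obtain ⟨y0, y1, y2, y3⟩ := hY x (hX' hx)
    exact ⟨Y x, y0, y1, y3, exit_bound hμ hinv (Nat.cast_nonneg L) hL hχ hR2 y0 y3
      (fun j hj a => (y2 j hj a).trans hR3) (hgood x hx)⟩)
  have h2 := (hcount R m).2
  rw [Set.ncard_eq_toFinset_card _ hfinX]
  have h3 : C₁ ^ (R + 1) ≤ C₁ ^ ((r₀ + 5) * (ρ + 1)) * (2 ^ (s * p) * (m + 1) ^ (s * p)) := by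
    have e1 : R + 1 ≤ (r₀ + 5) * (ρ + 1) + p * ℓ := by
      rw [hRd]
      nlinarith [Nat.zero_le (r₀ * ρ)]
    calc C₁ ^ (R + 1) ≤ C₁ ^ ((r₀ + 5) * (ρ + 1) + p * ℓ) := Nat.pow_le_pow_right hC₁ e1
      _ = C₁ ^ ((r₀ + 5) * (ρ + 1)) * C₁ ^ (p * ℓ) := pow_add _ _ _
      _ ≤ C₁ ^ ((r₀ + 5) * (ρ + 1)) * (2 ^ s) ^ (p * ℓ) :=
          Nat.mul_le_mul_left _ (Nat.pow_le_pow_left hs _)
      _ = C₁ ^ ((r₀ + 5) * (ρ + 1)) * (2 ^ ℓ) ^ (s * p) := by
          rw [← pow_mul, ← pow_mul]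
          congr 2
          ring
      _ ≤ C₁ ^ ((r₀ + 5) * (ρ + 1)) * (2 * (m + 1)) ^ (s * p) :=
          Nat.mul_le_mul_left _ (Nat.pow_le_pow_left hℓ2 _)
      _ = _ := by rw [mul_pow]
  calc hfinX.toFinset.card ≤ 2 * X'.card := hcard
    _ ≤ 2 * (E.ncard * (C₁ ^ (R + 1) * (m + 1) ^ D)) :=
        Nat.mul_le_mul_left _ (h1.trans (Nat.mul_le_mul_left _ h2))
    _ ≤ 2 * (E.ncard * ((C₁ ^ ((r₀ + 5) * (ρ + 1)) * (2 ^ (s * p) * (m + 1) ^ (s * p))) *
          (m + 1) ^ D)) := by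
        refine Nat.mul_le_mul_left _ (Nat.mul_le_mul_left _ (Nat.mul_le_mul_right _ h3))
    _ = (2 * E.ncard * 2 ^ (s * p)) * (C₁ ^ (r₀ + 5)) ^ (ρ + 1) * (m + 1) ^ (s * p + D) := by
        rw [pow_add, ← pow_mul]; ring
    _ ≤ (2 * E.ncard * 2 ^ (s * p)) ^ (ρ + 1) * (C₁ ^ (r₀ + 5)) ^ (ρ + 1) *
          (m + 1) ^ (s * p + D) := by
        refine Nat.mul_le_mul_right _ (Nat.mul_le_mul_right _ (Nat.le_self_pow (by omega) _))
    _ = (2 * E.ncard * C₁ ^ (r₀ + 5) * 2 ^ (s * p)) ^ (ρ + 1) * (m + 1) ^ (s * p + D) := by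
        rw [← mul_pow]; congr 2; ring
    _ ≤ _ := Nat.mul_le_mul_right _ (Nat.pow_le_pow_left (Nat.le_mul_of_pos_right _ (by norm_num)) _)

end

end Vale.Agent.P188.H789
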