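import Vale.Agent.P188.H789.Abs2
import Vale.Agent.P188.H796.Gromov

/-! P188: the final algebra. An additive function on `H` with slabs of polynomial growth, connected
up to a sublinear error, exists only on virtually polycyclic groups. -/

universe u v w

open Pointwise

namespace Vale.Agent.P188.H789

open Vale.Agent.P188.H796

section

variable {H : Type u} [Group H]

theorem vps_closure {K : Subgroup H} (hcomm : ∀ x y : H, x * y * x⁻¹ * y⁻¹ ∈ K)
    {Y : Set H} (hY : Y.Finite) (hYK : Subgroup.closure Y = K) (hV : VPS K) :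
    ∀ L : Finset H, VPS (Subgroup.closure (Y ∪ L)) := by
  classical
  intro L
  induction L using Finset.induction_on with
  | empty => rw [Finset.coe_empty, Set.union_empty, hYK]; exact hV
  | insert t L _ ih =>
    have hKN : K ≤ Subgroup.closure (Y ∪ (L : Set H)) := by
      rw [← hYK]
      exact Subgroup.closure_mono Set.subset_union_left
    have hNM : Subgroup.closure (Y ∪ (L : Set H)) ≤
        Subgroup.closure (Y ∪ ((insert t L : Finset H) : Set H)) :=
      Subgroup.closure_mono (Set.union_subset_union_right _ (by simp))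
    have c1 : ∀ n ∈ Subgroup.closure (Y ∪ (L : Set H)),
        t * n * t⁻¹ ∈ Subgroup.closure (Y ∪ (L : Set H)) := by
      intro n hn
      have e : t * n * t⁻¹ = (t * n * t⁻¹ * n⁻¹) * n := by group
      rw [e]
      exact Subgroup.mul_mem _ (hKN (hcomm t n)) hn
    have c2 : ∀ n ∈ Subgroup.closure (Y ∪ (L : Set H)),
        t⁻¹ * n * t ∈ Subgroup.closure (Y ∪ (L : Set H)) := by
      intro n hn
      have e : t⁻¹ * n * t = (t⁻¹ * n * t⁻¹⁻¹ * n⁻¹) * n := by group
      rw [e]
      exact Subgroup.mul_mem _ (hKN (hcomm t⁻¹ n)) hn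
    refine ih.step (t := t) ⟨hNM, Subgroup.subset_closure (Or.inr (by simp)), c1, c2, ?_⟩ ?_
    · intro g hg
      induction hg using Subgroup.closure_induction with
      | mem x hx =>
        rcases hx with hx | hx
        · have h1 : x ∈ Subgroup.closure (Y ∪ (L : Set H)) :=
            Subgroup.subset_closure (Set.mem_union_left _ hx)
          exact ⟨0, by simpa using h1⟩
        · rw [Finset.coe_insert] at hx
          rcases hx with rfl | hx
          · exact ⟨1, by simp⟩
          · have h1 : x ∈ Subgroup.closure (Y ∪ (L : Set H)) :=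
              Subgroup.subset_closure (Set.mem_union_right _ hx)
            exact ⟨0, by simpa using h1⟩
      | one => exact ⟨0, by simp⟩
      | mul x y _ _ hx hy =>
        obtain ⟨a, ha⟩ := hx
        obtain ⟨b, hb⟩ := hy
        refine ⟨a + b, ?_⟩
        have e : (t ^ (a + b))⁻¹ * (x * y) =
            (t ^ (-b) * ((t ^ a)⁻¹ * x) * (t ^ (-b))⁻¹) * ((t ^ b)⁻¹ * y) := by
          rw [zpow_add, zpow_neg]
          group
        rw [e]
        exact Subgroup.mul_mem _ (conj_zpow c1 c2 _ _ ha) hb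
      | inv x _ hx =>
        obtain ⟨a, ha⟩ := hx
        refine ⟨-a, ?_⟩
        have e : (t ^ (-a))⁻¹ * x⁻¹ = t ^ a * ((t ^ a)⁻¹ * x)⁻¹ * (t ^ a)⁻¹ := by
          rw [zpow_neg]
          group
        rw [e]
        exact conj_zpow c1 c2 _ _ (Subgroup.inv_mem _ ha)
    · rw [Group.fg_iff_subgroup_fg]
      refine ⟨hY.toFinset ∪ L, ?_⟩
      rw [Finset.coe_union, Set.Finite.coe_toFinset]

/-- virtually polycyclic by finitely generated abelian is virtually polycyclic -/
theorem vps_top_of_ext {K : Subgroup H} (hcomm : ∀ x y : H, x * y * x⁻¹ * y⁻¹ ∈ K)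
    {Y : Set H} (hY : Y.Finite) (hYK : Subgroup.closure Y = K) (hV : VPS K) {S : Set H}
    (hSf : S.Finite) (hS : Subgroup.closure S = ⊤) : VPS (⊤ : Subgroup H) := by
  have h1 := vps_closure hcomm hY hYK hV hSf.toFinset
  have h2 : Subgroup.closure (Y ∪ (hSf.toFinset : Set H)) = ⊤ := by
    rw [eq_top_iff, ← hS, Set.Finite.coe_toFinset]
    exact Subgroup.closure_mono Set.subset_union_right
  rwa [h2] at h1

/-- a subgroup generated by a finite set with polynomial growth is virtually polycyclic -/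
theorem vps_of_growth {K : Subgroup H} {Y : Set H} (hY : Y.Finite)
    (hYK : Subgroup.closure Y = K) {C D : ℕ} (hgr : ∀ n, (Bl Y n).ncard ≤ C * (n + 1) ^ D) :
    VPS K := by
  classical
  have hfg : Group.FG K := by
    rw [Group.fg_iff_subgroup_fg]
    exact ⟨hY.toFinset, by rw [Set.Finite.coe_toFinset, hYK]⟩
  refine (gromov_vps D K ?_).of_top
  intro F hF
  obtain ⟨R, hR⟩ := exists_Bl_of_finite (A := Y) (hF.image (Subtype.val : K → H)) (by
    rintro _ ⟨x, -, rfl⟩
    rw [hYK]
    exact x.2)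
  refine ⟨C * (R + 1) ^ D, fun n => ?_⟩
  have h1 : ∀ n : ℕ, (Subtype.val : K → H) '' (F ^ n) ⊆ Bl Y (R * n) := by
    intro n
    induction n with
    | zero =>
      rintro _ ⟨x, hx, rfl⟩
      rw [pow_zero, Set.mem_one] at hx
      rw [hx]
      exact one_mem_Bl _ _
    | succ n ih =>
      rintro _ ⟨x, hx, rfl⟩
      rw [pow_succ] at hx
      obtain ⟨y, hy, z, hz, rfl⟩ := hx
      have := mul_mem_Bl (ih ⟨y, hy, rfl⟩) (hR ⟨z, hz, rfl⟩)
      rw [Nat.mul_succ]
      exact this
  have h2 : (F ^ n).ncard ≤ (Bl Y (R * n)).ncard := by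
    rw [← Set.ncard_image_of_injective (F ^ n) (Subtype.val_injective (p := fun x => x ∈ K))]
    exact Set.ncard_le_ncard (h1 n) (Bl_finite hY _)
  refine (h2.trans (hgr _)).trans ?_
  calc C * (R * n + 1) ^ D ≤ C * ((R + 1) * (n + 1)) ^ D := by
        refine Nat.mul_le_mul_left _ (Nat.pow_le_pow_left ?_ _)
        nlinarith
    _ = C * (R + 1) ^ D * (n + 1) ^ D := by rw [mul_pow]; ring

variable {k : ℕ} {χ : H → Fin k → ℝ}

/-- The final algebra. -/
theorem Addv.vps (h : Addv χ) {C D : ℕ} (hC : 1 ≤ C) {S : Set H} (hSf : S.Finite)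
    (hS : Subgroup.closure S = ⊤) (hcount : SlabGrowth χ S C D) (hconn : SubConn χ S) :
    VPS (⊤ : Subgroup H) := by
  obtain ⟨Y, hYf, hYK, C', D', hgr⟩ := h.endgame hC hSf hS hcount hconn
  exact vps_top_of_ext h.comm_mem hYf hYK (vps_of_growth hYf hYK hgr) hSf hS

end

/-- The final algebra, for a subgroup of finite index. -/
theorem isVirtuallyPolycyclic_of_addv {H : Type u} [Group H] {H₀ : Subgroup H}
    (hH₀ : H₀.FiniteIndex) {k : ℕ} {χ : H₀ → Fin k → ℝ} (h : Addv χ) {C D : ℕ} (hC : 1 ≤ C)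
    {S : Set H₀} (hSf : S.Finite) (hS : Subgroup.closure S = ⊤) (hcount : SlabGrowth χ S C D)
    (hconn : SubConn χ S) : IsVirtuallyPolycyclic H := by
  obtain ⟨Q, -, hQ, hi⟩ := VPS.of_finiteIndex hH₀ (h.vps hC hSf hS hcount hconn)
  rw [Subgroup.relIndex_top_right] at hi
  exact isVirtuallyPolycyclic_iff.2 ⟨Q, ⟨hi⟩, hQ⟩

end Vale.Agent.P188.H789
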