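import Vale.Agent.P188.H789.Geo1
import Vale.Agent.P188.H754.Inst3
import Vale.Agent.P188.H671.Grp
import Vale.Agent.P188.Z1.LabS

/-!
# Final wiring: from `LAB` to the group `H`

The model group `Γ` (of `Z0`), its real model `M` with boxes `B`, a coarse equivalence `F`, `F'`.
-/

set_option linter.all false

open Pointwise
open Vale.Agent.P188.Z1 (RModel Ht)
open Vale.Agent.P188.H530 (hgt)
open Vale.P188.H532 (Geo QIe ES Input)

namespace Vale.Agent.P188.H789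

theorem goodPair_of_Z0 {Γ : Type} [Group Γ] {k : ℕ} {η : Γ →* Multiplicative (Fin k → ℤ)}
    (h : H187.Z0 Γ k η) : GoodPair Γ k η := ⟨h.surj, h.polyZ, h.ker_polyZ, h.nil⟩

section

variable {S : Type} [Group S] [MeasurableSpace S] {Γ : Type} [Group Γ]
  {V : Type} [AddCommGroup V] [Module ℝ V] {k : ℕ} (M : RModel S Γ V k)

/-- **The family of maps of `Γ`** is a family in the sense of LAB. -/
theorem fam_Fam {H : Type} [Group H] [Group.FG H] {F : H → Γ} {F' : Γ → H} (hF : Coarse F)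
    (hF' : Coarse F') (h1 : CloseId (F' ∘ F)) (h2 : CloseId (F ∘ F')) :
    ∃ K : ℝ, M.Fam K (Psi F F') := by
  obtain ⟨K, hK⟩ := fam_QIm M hF hF' h1 h2
  obtain ⟨E, hE, hE'⟩ := h1
  obtain ⟨E₂, hE₂, hE₂'⟩ := h2
  obtain ⟨B, hB, hB'⟩ := hF E hE
  obtain ⟨c, hc0, hc⟩ := len_finite M hB
  obtain ⟨c₂, hc₂0, hc₂⟩ := len_finite M hE₂
  have hK' : ∀ {K'}, K ≤ K' → ∀ h, M.QIm K' (Psi F F' h) (Psi F F' h⁻¹) := by
    intro K' hKK h
    have q := hK h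
    refine ⟨fun g y => (q.lip g y).trans ?_, fun g y => (q.lip' g y).trans ?_,
      fun g => (q.inv g).trans hKK, fun g => (q.inv' g).trans hKK⟩
    · exact mul_le_mul_of_nonneg_right hKK (by positivity)
    · exact mul_le_mul_of_nonneg_right hKK (by positivity)
  refine ⟨max K (c + c₂), ⟨hK' (le_max_left _ _), fun h h' g => ?_, fun g => ?_⟩⟩
  · refine le_trans (hc _ ?_) ((le_add_of_nonneg_right hc₂0).trans (le_max_right _ _))
    show (F (h * h' * F' g))⁻¹ * F (h * F' (F (h' * F' g))) ∈ B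
    refine hB' _ _ ?_
    have : (h * h' * F' g)⁻¹ * (h * F' (F (h' * F' g))) = (h' * F' g)⁻¹ * F' (F (h' * F' g)) := by
      group
    rw [this]
    exact hE' (h' * F' g)
  · refine le_trans (hc₂ _ ?_) ((le_add_of_nonneg_left hc0).trans (le_max_right _ _))
    show g⁻¹ * F (1 * F' g) ∈ E₂
    rw [one_mul]
    exact hE₂' g

/-- **FLAT1 for a subgroup of finite index.** -/
theorem exists_flat1 {B : M.NatBox} (hL : M.LAB B) {H : Type} [Group H] [Group.FG H]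
    {F : H → Γ} {F' : Γ → H} (hF : Coarse F) (hF' : Coarse F') (h1 : CloseId (F' ∘ F))
    (h2 : CloseId (F ∘ F')) :
    ∃ (H₀ : Subgroup H) (_ : H₀.FiniteIndex), M.FLAT1 B (Psi F F' '' (H₀ : Set H)) := by
  obtain ⟨K, hK⟩ := fam_Fam M hF hF' h1 h2
  obtain ⟨N, hN⟩ := hL
  obtain ⟨H₀, hH₀, hH₀'⟩ := H671.exists_core (H := H) inferInstance N
  refine ⟨H₀, hH₀, ?_⟩
  have := hN K H (Psi F F') hK H₀ hH₀'
  have e : {F₁ | ∃ h ∈ H₀, F₁ = Psi F F' h} = Psi F F' '' (H₀ : Set H) := by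
    ext f
    constructor
    · rintro ⟨h, hh, rfl⟩; exact ⟨h, hh, rfl⟩
    · rintro ⟨h, hh, rfl⟩; exact ⟨h, hh, rfl⟩
  rwa [e] at this

/-- the family of a subgroup is closed under coarse inverses -/
theorem fam_inv {H : Type} [Group H] [Group.FG H] {F : H → Γ} {F' : Γ → H} (hF : Coarse F)
    (hF' : Coarse F') (h1 : CloseId (F' ∘ F)) (h2 : CloseId (F ∘ F')) :
    ∃ K : ℝ, ∀ H₀ : Subgroup H, ∀ f ∈ Psi F F' '' (H₀ : Set H), ∃ f' ∈ Psi F F' '' (H₀ : Set H),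
      M.QIm K f f' := by
  obtain ⟨K, hK⟩ := fam_QIm M hF hF' h1 h2
  refine ⟨K, fun H₀ f hf => ?_⟩
  obtain ⟨h, hh, rfl⟩ := hf
  exact ⟨_, ⟨h⁻¹, H₀.inv_mem hh, rfl⟩, hK h⟩

/-- **Route B, from ESF.** -/
theorem vp_of_esf (hX : M.Extra) {η : Γ →* Multiplicative (Fin k → ℤ)} (hZ : H187.Z0 Γ k η)
    (hη : M.η.comp M.inG = η) {H : Type} [Group H] [Group.FG H]
    {F : H → Γ} {F' : Γ → H} (hF : Coarse F) (hF' : Coarse F') (h1 : CloseId (F' ∘ F))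
    (h2 : CloseId (F ∘ F')) {H₀ : Subgroup H} (hH₀ : H₀.FiniteIndex)
    (hES : ESF M (Psi F F' '' (H₀ : Set H))) : IsVirtuallyPolycyclic H := by
  have hη' : ∀ g, M.η (M.inG g) = η g := fun g => by rw [← hη]; rfl
  obtain ⟨K, hK⟩ := fam_inv M hF hF' h1 h2
  have hN : NEUF M (Psi F F' '' (H₀ : Set H)) := H754.neuf_of_esf M hX (hK H₀) hES
  obtain ⟨T, hTf, hT⟩ := fg_of_finiteIndex H₀ hH₀
  exact vp_of_esh (goodPair_of_Z0 hZ) hF hF' h1 h2 hH₀ hTf hT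
    (esh_of_esf M hη' hF hF' h1 H₀ hES hTf)
    (neuH_of_neuf M hη' hF hF' h1 H₀ hN ((hTf.union hTf.inv).union (Set.finite_singleton 1)))

/-- **Route B, from LAB, the interface and its two theorems.** -/
theorem vp_B (hX : M.Extra) {η : Γ →* Multiplicative (Fin k → ℤ)} (hZ : H187.Z0 Γ k η)
    (hη : M.η.comp M.inG = η) (B : M.NatBox) (hL : M.LAB B)
    {E : Type} [Group E] [MeasurableSpace E] {ι L : Type} [Fintype ι] [DecidableEq ι] [Fintype L]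
    (G : Geo S E (Z1.Ht k) ι L) (hG : Fits M G)
    (hIn : ∀ (K : ℝ) (𝓕 : Set (Γ → Γ)), (∀ F ∈ 𝓕, ∃ F', M.QIm K F F') → M.FLAT1 B 𝓕 →
      Input G (lf M '' 𝓕))
    (hES : ∀ (Λ : ℝ) (𝓕 : Set (S → S)), (∀ Ψ ∈ 𝓕, QIe G Λ Ψ) → Input G 𝓕 → ES G 𝓕)
    {H : Type} [Group H] [Group.FG H]
    {F : H → Γ} {F' : Γ → H} (hF : Coarse F) (hF' : Coarse F') (h1 : CloseId (F' ∘ F))
    (h2 : CloseId (F ∘ F')) : IsVirtuallyPolycyclic H := by
  obtain ⟨H₀, hH₀, hfl⟩ := exists_flat1 M hL hF hF' h1 h2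
  obtain ⟨K, hK⟩ := fam_QIm M hF hF' h1 h2
  obtain ⟨Λ, hΛ⟩ := qie_of_qim M hG K
  have hQ : ∀ f ∈ Psi F F' '' (H₀ : Set H), ∃ f', M.QIm K f f' := by
    rintro _ ⟨h, hh, rfl⟩
    exact ⟨_, hK h⟩
  have h3 : ES G (lf M '' (Psi F F' '' (H₀ : Set H))) := by
    refine hES Λ _ ?_ (hIn K _ hQ hfl)
    rintro _ ⟨f, hf, rfl⟩
    obtain ⟨f', hf'⟩ := hQ f hf
    exact hΛ f f' hf'
  exact vp_of_esf M hX hZ hη hF hF' h1 h2 hH₀ (esf_of_es M hG h3)

end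

end Vale.Agent.P188.H789
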