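import Vale.Agent.P188.H789.Fin

/-!
# Growth of finitely generated subgroups of the kernel

`SlabGrowth` implies: every finitely generated subgroup of the kernel of `χ` has polynomial growth
of degree at most `D`.
-/

universe u v w

open Pointwise

namespace Vale.Agent.P188.H789

variable {H : Type u} [Group H] {k : ℕ}

theorem kernel_growth {χ : H → Fin k → ℝ} (h : Addv χ) {S : Set H}
    (hS : Subgroup.closure S = ⊤) {C D : ℕ} (hG : SlabGrowth χ S C D)
    {Y : Set H} (hY : Y.Finite) (hYk : ∀ y ∈ Y, y ∈ h.ker) :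
    ∃ C' : ℕ, ∀ n, (Bl Y n).ncard ≤ C' * (n + 1) ^ D := by
  classical
  set B : Set H := S ∪ S⁻¹ ∪ {1} with hB
  have h1B : (1 : H) ∈ B := Or.inr rfl
  -- paths for the elements of `Y` and their inverses
  have hpath : ∀ y : H, ∃ n r : ℕ, PathTo (SH χ (r : ℝ)) B n 1 y := by
    intro y
    exact exists_path_gen hS χ y
  choose n r hnr using hpath
  have hfin : (Y ∪ Y⁻¹).Finite := hY.union hY.inv
  obtain ⟨N, hN⟩ := (hfin.image n).bddAbove
  obtain ⟨M, hM⟩ := (hfin.image r).bddAbove
  have hp : ∀ y ∈ Y ∪ Y⁻¹, PathTo (SH χ (M : ℝ)) B N 1 y := fun y hy =>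
    ((hnr y).mono (SH_mono (by exact_mod_cast hM ⟨y, hy, rfl⟩)) subset_rfl).extend h1B
      (hN ⟨y, hy, rfl⟩)
  have key : ∀ l : List H, (∀ a ∈ l, a ∈ Y ∨ a⁻¹ ∈ Y) →
      PathTo (SH χ (M : ℝ)) B (l.length * N) 1 l.prod ∧ l.prod ∈ h.ker := by
    intro l
    induction l using List.reverseRecOn with
    | nil =>
      intro _
      refine ⟨?_, h.ker.one_mem⟩
      rw [List.length_nil, Nat.zero_mul, List.prod_nil]
      refine PathTo.refl ?_
      intro i
      rw [h.one, abs_zero]
      exact Nat.cast_nonneg _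
    | append_singleton l a ih =>
      intro hl
      obtain ⟨h1, h2⟩ := ih (fun b hb => hl b (List.mem_append_left _ hb))
      have ha := hl a (by simp)
      have hak : a ∈ h.ker := by
        rcases ha with ha | ha
        · exact hYk a ha
        · have := h.ker.inv_mem (hYk _ ha)
          rwa [inv_inv] at this
      refine ⟨?_, ?_⟩
      · rw [List.length_append, List.length_singleton, List.prod_append, List.prod_singleton,
          Nat.add_mul, Nat.one_mul]
        refine h1.trans ?_
        have h3 := (hp a (by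
          rcases ha with ha | ha
          · exact Or.inl ha
          · exact Or.inr (by simpa using ha))).left l.prod (P' := SH χ (M : ℝ)) (fun z hz i => by
            rw [h.mul, (h.mem_ker _).mp h2 i, zero_add]
            exact hz i)
        rwa [mul_one] at h3
      · rw [List.prod_append, List.prod_singleton]
        exact h.ker.mul_mem h2 hak
  refine ⟨C ^ (M + 1) * (N + 1) ^ D, fun m => ?_⟩
  have hsub : Bl Y m ⊆ {x | PathTo (SH χ (M : ℝ)) B (m * N) 1 x} := by
    rintro x ⟨l, h1, h2, rfl⟩
    exact (key l h2).1.extend h1B (Nat.mul_le_mul_right _ h1)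
  calc (Bl Y m).ncard ≤ {x | PathTo (SH χ (M : ℝ)) B (m * N) 1 x}.ncard :=
        Set.ncard_le_ncard hsub (hG M (m * N)).1
    _ ≤ C ^ (M + 1) * (m * N + 1) ^ D := (hG M (m * N)).2
    _ ≤ C ^ (M + 1) * ((N + 1) * (m + 1)) ^ D :=
        Nat.mul_le_mul_left _ (Nat.pow_le_pow_left (by nlinarith) _)
    _ = _ := by rw [mul_pow]; ring

end Vale.Agent.P188.H789
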