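import Vale.Agent.P188.H789.FinalB
import Vale.Agent.P188.H789.Grow

/-!
# Final assembly, route A

`OutA` (comparison along slab paths for most base points) and `EndA` (algebra) imply `Core`.
-/

universe u v w

open Pointwise
open scoped commutatorElement

namespace Vale.Agent.P188.H789

/-- **Output of the analytic part, route A.** -/
def OutA : Prop :=
  ∀ (Γ : Type) [Group Γ] (k : ℕ) (η : Γ →* Multiplicative (Fin k → ℤ)), 0 < k → H187.Z0 Γ k η →
    ∀ (H : Type) [Group H] [Group.FG H] (F : H → Γ) (F' : Γ → H), Coarse F → Coarse F' →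
      CloseId (F' ∘ F) → CloseId (F ∘ F') →
      ∃ (H₀ : Subgroup H) (_ : H₀.FiniteIndex) (S : Set H₀), S.Finite ∧
        Subgroup.closure S = ⊤ ∧ ∃ μ : (H₀ → ℝ) → ℝ, IsMean μ ∧
          (∀ (g : H₀) f, Bdd f → μ (fun x => f (x * g)) = μ f) ∧
          Cmp μ (hts η fun x : H₀ => F x) (S ∪ S⁻¹ ∪ {1})

/-- **The algebraic end of route A.** -/
def EndA : Prop :=
  ∀ (n : ℕ) (Γ H : Type) [Group Γ] [Group H] [Group.FG H], PolyZ n Γ → CoarseEquiv H Γ →
    ∀ K : Subgroup H, K.Normal → (∀ x y : H, ⁅x, y⁆ ∈ K) → ∀ D : ℕ, H796.GrowthLE K D →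
      IsVirtuallyPolycyclic H

theorem growthLE_ker {H : Type u} [Group H] {k : ℕ} {χ : H → Fin k → ℝ} (h : Addv χ) {S : Set H}
    (hS : Subgroup.closure S = ⊤) {C D : ℕ} (hG : SlabGrowth χ S C D) :
    H796.GrowthLE h.ker D := by
  intro F hF
  obtain ⟨C', hC'⟩ := kernel_growth h hS hG (hF.image (Subtype.val : h.ker → H)) (by
    rintro _ ⟨x, -, rfl⟩
    exact x.2)
  refine ⟨C', fun n => ?_⟩
  have h1 : ∀ n : ℕ, (Subtype.val : h.ker → H) '' (F ^ n) ⊆
      Bl ((Subtype.val : h.ker → H) '' F) n := by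
    intro n
    induction n with
    | zero =>
      rintro _ ⟨x, hx, rfl⟩
      rw [pow_zero, Set.mem_one] at hx
      rw [hx]
      exact one_mem_Bl _ _
    | succ n ih =>
      rintro _ ⟨x, hx, rfl⟩
      rw [pow_succ] at hx
      obtain ⟨y, hy, z, hz, rfl⟩ := hx
      exact mul_mem_Bl (ih ⟨y, hy, rfl⟩) (mem_Bl_one ⟨z, hz, rfl⟩)
  have h2 : (F ^ n).ncard ≤ (Bl ((Subtype.val : h.ker → H) '' F) n).ncard := by
    rw [← Set.ncard_image_of_injective (F ^ n) (Subtype.val_injective (p := fun x => x ∈ h.ker))]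
    exact Set.ncard_le_ncard (h1 n) (Bl_finite (hF.image _) _)
  exact h2.trans (hC' n)

theorem isVirtuallyPolycyclic_of_finiteIndex {H : Type u} [Group H] {H₀ : Subgroup H}
    (hH₀ : H₀.FiniteIndex) (h : IsVirtuallyPolycyclic H₀) : IsVirtuallyPolycyclic H := by
  obtain ⟨P, hP, hP'⟩ := isVirtuallyPolycyclic_iff.1 h
  refine isVirtuallyPolycyclic_iff.2 ⟨P.map H₀.subtype, ?_, hP'.map _⟩
  refine ⟨?_⟩
  rw [Subgroup.index_map_subtype]
  exact mul_ne_zero hP.index_ne_zero hH₀.index_ne_zero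

/-- the final step, route A -/
theorem vp_of_cmp (hEnd : EndA) {Γ : Type} [Group Γ] {k : ℕ}
    {η : Γ →* Multiplicative (Fin k → ℤ)}
    (hZ : H187.Z0 Γ k η) {H : Type} [Group H] {F : H → Γ} {F' : Γ → H}
    (hF : Coarse F) (hF' : Coarse F') (hFF : CloseId (F' ∘ F)) (hFF' : CloseId (F ∘ F'))
    {H₀ : Subgroup H} (hH₀ : H₀.FiniteIndex) {S : Set H₀} (hSf : S.Finite)
    (hS : Subgroup.closure S = ⊤) {μ : (H₀ → ℝ) → ℝ} (hμ : IsMean μ)
    (hinv : ∀ (g : H₀) f, Bdd f → μ (fun x => f (x * g)) = μ f)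
    (hcmp : Cmp μ (hts η fun x : H₀ => F x) (S ∪ S⁻¹ ∪ {1})) : IsVirtuallyPolycyclic H := by
  classical
  obtain ⟨F₀', c1, c2, c3, c4⟩ := coarse_restrict hF hF' hFF hFF' H₀ hH₀
  obtain ⟨m, hm⟩ := hZ.polyZ
  obtain ⟨A, hA, hcl, C, D, hgr⟩ := Z0_growth hZ
  have hBfin : (S ∪ S⁻¹ ∪ {1}).Finite := (hSf.union hSf.inv).union (Set.finite_singleton 1)
  obtain ⟨L, hL⟩ := hts_lip η c1 hBfin
  have hadd : Addv (chi μ (hts η fun x : H₀ => F x)) := chi_addv hμ hinv hS hL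
  obtain ⟨C', D', hC', hSG⟩ := slabGrowth_of_cmp hZ.surj hA hcl hgr c1 c3 hμ hinv
    (χ := chi μ (hts η fun x : H₀ => F x)) (fun _ _ => rfl) hSf hcmp
  have : Group.FG H₀ := Group.fg_iff.mpr ⟨S, hS, hSf⟩
  refine isVirtuallyPolycyclic_of_finiteIndex hH₀
    (hEnd m Γ H₀ hm ⟨_, _, c1, c2, c3, c4⟩ hadd.ker hadd.ker_normal (fun x y => ?_) D'
      (growthLE_ker hadd hS hSG))
  rw [commutatorElement_def]
  exact hadd.comm_mem x y

/-- **Final assembly, route A.** -/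
theorem core_of_outA (hA : OutA) (hEnd : EndA) : H187.Core := by
  intro Γ _ k η hZ H _ hfg hc
  obtain ⟨F, F', hF, hF', hFF, hFF'⟩ := hc
  rcases Nat.eq_zero_or_pos k with hk | hk
  · subst hk
    have hS0 : ∃ S : Set (⊤ : Subgroup H), S.Finite ∧ Subgroup.closure S = ⊤ := by
      have : Group.FG (⊤ : Subgroup H) :=
        Group.fg_of_surjective (f := (Subgroup.topEquiv (G := H)).symm.toMonoidHom)
          (Subgroup.topEquiv (G := H)).symm.surjective
      exact exists_fin_gen this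
    obtain ⟨S, hSf, hS⟩ := hS0
    exact vps_of_ES hZ hF hF' hFF hFF' (H₀ := ⊤) inferInstance hSf hS
      (fun ε _ => ⟨0, fun n x _ h i => i.elim0⟩)
      ⟨0, fun R m _ h y _ _ _ a => a.elim0⟩
  · obtain ⟨H₀, hH₀, S, hSf, hS, μ, hμ, hinv, hcmp⟩ := hA Γ k η hk hZ H F F' hF hF' hFF hFF'
    exact vp_of_cmp hEnd hZ hF hF' hFF hFF' hH₀ hSf hS hμ hinv hcmp

/-- **The rigidity theorem, from the outputs of route A.** -/
theorem rigidity_of_outA (hA : OutA) (hEnd : EndA) {H : Type u} {G : Type v} [Group H] [Group G]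
    (hG : IsVirtuallyPolycyclic G) (hQ : QuasiIsometric H G) : IsVirtuallyPolycyclic H :=
  H187.rigidity_of_core (core_of_outA hA hEnd) hG hQ

end Vale.Agent.P188.H789
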