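import Vale.Agent.P188.H789.Reach
import Vale.Agent.P188.H754.Malcev2
import Mathlib.GroupTheory.Nilpotent

/-!
# Polynomial growth of nilpotent poly-`ℤ` groups
-/

universe u v w

open Pointwise

namespace Vale.Agent.P188.H789

section

variable {N : Type u} [Group N]

/-- Conjugates by powers of one element have polynomial length in a nilpotent group. -/
theorem conj_poly_aux {K : Subgroup N} [hK : K.Normal] {A : Set N}
    (hA : Subgroup.closure A = K) {c : ℕ} (hc : (⊤ : Subgroup N).lowerCentralSeries c = ⊥)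
    (t : N) : ∀ j i : ℕ, c ≤ i + j → ∀ a ∈ K, a ∈ (⊤ : Subgroup N).lowerCentralSeries i →
      ∃ C D : ℕ, ∀ n : ℕ, t ^ n * a * (t ^ n)⁻¹ ∈ Bl A (C * (n + 1) ^ D) := by
  intro j
  induction j with
  | zero =>
    intro i hi a _ ha
    have h1 := Subgroup.lowerCentralSeries_antitone (S := (⊤ : Subgroup N)) (show c ≤ i by omega) ha
    rw [hc, Subgroup.mem_bot] at h1
    refine ⟨0, 0, fun n => ?_⟩
    rw [h1, mul_one, mul_inv_cancel]
    exact one_mem_Bl _ _
  | succ j ih =>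
    intro i hi a haK ha
    obtain ⟨n₀, hn₀⟩ := exists_mem_Bl (A := A) (x := a) (by rw [hA]; exact haK)
    have hb : a⁻¹ * (t * a * t⁻¹) ∈ K := K.mul_mem (K.inv_mem haK) (hK.conj_mem a haK t)
    have hb2 : a⁻¹ * (t * a * t⁻¹) ∈ (⊤ : Subgroup N).lowerCentralSeries (i + 1) := by
      rw [Subgroup.lowerCentralSeries_succ]
      have := Subgroup.commutator_mem_commutator (H₁ := (⊤ : Subgroup N).lowerCentralSeries i)
        (H₂ := ⊤) (Subgroup.inv_mem _ ha) (Subgroup.mem_top t)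
      rw [commutatorElement_def, inv_inv] at this
      simpa [mul_assoc] using this
    obtain ⟨C, D, hCD⟩ := ih (i + 1) (by omega) _ hb hb2
    refine ⟨n₀ + C, D + 1, fun n => ?_⟩
    have key : ∀ n : ℕ, t ^ n * a * (t ^ n)⁻¹ ∈ Bl A (n₀ + n * (C * (n + 1) ^ D)) := by
      intro n
      induction n with
      | zero => simpa using hn₀
      | succ n ih2 =>
        have e : t ^ (n + 1) * a * (t ^ (n + 1))⁻¹ =
            (t ^ n * a * (t ^ n)⁻¹) * (t ^ n * (a⁻¹ * (t * a * t⁻¹)) * (t ^ n)⁻¹) := by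
          rw [pow_succ]; group
        rw [e]
        refine Bl_mono ?_ (mul_mem_Bl ih2 (hCD n))
        have h1 : C * (n + 1) ^ D ≤ C * (n + 1 + 1) ^ D :=
          Nat.mul_le_mul_left _ (Nat.pow_le_pow_left (by omega) _)
        calc n₀ + n * (C * (n + 1) ^ D) + C * (n + 1) ^ D
            = n₀ + (n + 1) * (C * (n + 1) ^ D) := by ring
          _ ≤ n₀ + (n + 1) * (C * (n + 1 + 1) ^ D) :=
            Nat.add_le_add_left (Nat.mul_le_mul_left _ h1) _
    refine Bl_mono ?_ (key n)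
    have h1 : 1 ≤ (n + 1) ^ (D + 1) := Nat.one_le_pow _ _ (by omega)
    calc n₀ + n * (C * (n + 1) ^ D) ≤ n₀ * (n + 1) ^ (D + 1) + (n + 1) * (C * (n + 1) ^ D) := by
          refine Nat.add_le_add ?_ (Nat.mul_le_mul_right _ (Nat.le_succ n))
          exact Nat.le_mul_of_pos_right _ h1
      _ = (n₀ + C) * (n + 1) ^ (D + 1) := by ring

theorem conj_poly {K : Subgroup N} [K.Normal] {A : Set N} (hA : Subgroup.closure A = K)
    (hN : Group.IsNilpotent N) (t : N) {a : N} (ha : a ∈ K) :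
    ∃ C D : ℕ, ∀ z : ℤ, t ^ z * a * (t ^ z)⁻¹ ∈ Bl A (C * (z.natAbs + 1) ^ D) := by
  obtain ⟨c, hc⟩ := Subgroup.nilpotent_iff_lowerCentralSeries.mp hN
  have ha0 : a ∈ (⊤ : Subgroup N).lowerCentralSeries 0 := by
    rw [Subgroup.lowerCentralSeries_zero]; exact Subgroup.mem_top _
  obtain ⟨C₁, D₁, h1⟩ := conj_poly_aux hA hc t c 0 (by omega) a ha ha0
  obtain ⟨C₂, D₂, h2⟩ := conj_poly_aux hA hc t⁻¹ c 0 (by omega) a ha ha0
  refine ⟨max C₁ C₂, max D₁ D₂, fun z => ?_⟩
  have hmono : ∀ (C D C' D' n : ℕ), C ≤ C' → D ≤ D' → C * (n + 1) ^ D ≤ C' * (n + 1) ^ D' :=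
    fun C D C' D' n h h' => Nat.mul_le_mul h (Nat.pow_le_pow_right (by omega) h')
  obtain ⟨n, rfl | rfl⟩ := z.eq_nat_or_neg
  · rw [zpow_natCast, Int.natAbs_natCast]
    exact Bl_mono (hmono _ _ _ _ _ (le_max_left _ _) (le_max_left _ _)) (h1 n)
  · rw [zpow_neg, zpow_natCast, Int.natAbs_neg, Int.natAbs_natCast, ← inv_pow]
    exact Bl_mono (hmono _ _ _ _ _ (le_max_right _ _) (le_max_right _ _)) (h2 n)

end

theorem exists_common {ι : Type*} {Y : Set ι} (hY : Y.Finite) {P : ι → ℕ → ℕ → Prop}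
    (hmono : ∀ y C D C' D', C ≤ C' → D ≤ D' → P y C D → P y C' D')
    (h : ∀ y ∈ Y, ∃ C D, P y C D) : ∃ C D, ∀ y ∈ Y, P y C D := by
  classical
  have h' : ∀ y : ι, ∃ C D, y ∈ Y → P y C D := by
    intro y
    by_cases hy : y ∈ Y
    · obtain ⟨C, D, h1⟩ := h y hy
      exact ⟨C, D, fun _ => h1⟩
    · exact ⟨0, 0, fun h => absurd h hy⟩
  choose C D hCD using h'
  obtain ⟨M, hM⟩ := (hY.image C).bddAbove
  obtain ⟨M', hM'⟩ := (hY.image D).bddAbove
  exact ⟨M, M', fun y hy => hmono y _ _ _ _ (hM ⟨y, hy, rfl⟩) (hM' ⟨y, hy, rfl⟩) (hCD y hy)⟩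

theorem Bl_image {N M : Type*} [Group N] [Group M] (f : N →* M) (A : Set N) (n : ℕ) :
    Bl (f '' A) n ⊆ f '' Bl A n := by
  rintro x ⟨l, h1, h2, rfl⟩
  induction l generalizing n with
  | nil => exact ⟨1, one_mem_Bl _ _, by simp⟩
  | cons a l ih =>
    rw [List.length_cons] at h1
    obtain ⟨m, rfl⟩ : ∃ m, n = m + 1 := ⟨n - 1, by omega⟩
    obtain ⟨y, hy, hyl⟩ := ih m (by omega) (fun b hb => h2 b (List.mem_cons_of_mem _ hb))
    have ha := h2 a (by simp)
    have : ∃ b ∈ Bl A 1, f b = a := by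
      rcases ha with ⟨b, hb, rfl⟩ | ⟨b, hb, hba⟩
      · exact ⟨b, mem_Bl_one hb, rfl⟩
      · exact ⟨b⁻¹, inv_mem_Bl (mem_Bl_one hb), by rw [map_inv, hba, inv_inv]⟩
    obtain ⟨b, hb, rfl⟩ := this
    refine ⟨b * y, ?_, by rw [map_mul, hyl, List.prod_cons]⟩
    have := mul_mem_Bl hb hy
    rwa [Nat.add_comm] at this

/-- **Polynomial growth of nilpotent poly-`ℤ` groups.** -/
theorem nil_growth : ∀ (d : ℕ) (N : Type u) [Group N], PolyZ d N → Group.IsNilpotent N →
    ∀ A : Set N, A.Finite → ∃ C D : ℕ, ∀ n, (Bl A n).ncard ≤ C * (n + 1) ^ D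
  | 0, N, _, h, _, A, _ => by
    have h' : Subsingleton N := h
    refine ⟨1, 0, fun n => ?_⟩
    have := Set.ncard_le_one_of_subsingleton (Bl A n)
    simpa using this
  | d + 1, N, _, h, hnil, A, hA => by
    classical
    obtain ⟨φ, hφ, hk⟩ := h
    obtain ⟨t, ht⟩ := hφ (Multiplicative.ofAdd 1)
    have hfg : Group.FG φ.ker := H754.PolyZ.fg d hk
    obtain ⟨S₀, hS₀⟩ := Group.fg_iff_subgroup_fg _ |>.1 hfg
    have hnilK : Group.IsNilpotent φ.ker := inferInstance
    -- generating set of the kernel as a set of the kernel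
    obtain ⟨S₁, hS₁⟩ := Group.fg_iff.mp hfg
    set AK : Set N := Subtype.val '' S₁ with hAK
    have hclK : Subgroup.closure AK = φ.ker := by
      have h1 : Subgroup.closure AK = (Subgroup.closure S₁).map φ.ker.subtype := by
        rw [MonoidHom.map_closure]; rfl
      rw [h1, hS₁.1, ← MonoidHom.range_eq_map, Subgroup.range_subtype]
    obtain ⟨C₁, D₁, hgK⟩ := nil_growth d φ.ker hk hnilK S₁ hS₁.2
    have hgK' : ∀ n, (Bl AK n).ncard ≤ C₁ * (n + 1) ^ D₁ := by
      intro n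
      have h1 : Bl AK n ⊆ φ.ker.subtype '' Bl S₁ n := Bl_image φ.ker.subtype S₁ n
      exact ((Set.ncard_le_ncard h1 ((Bl_finite hS₁.2 n).image _)).trans
        (Set.ncard_image_le (Bl_finite hS₁.2 n))).trans (hgK n)
    -- heights
    set e : N → ℤ := fun x => Multiplicative.toAdd (φ x) with he
    have he_mul : ∀ x y, e (x * y) = e x + e y := fun x y => by rw [he]; simp
    have he_t : e t = 1 := by rw [he]; simp [ht]
    have hker : ∀ x : N, x * (t ^ (e x))⁻¹ ∈ φ.ker := by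
      intro x
      rw [MonoidHom.mem_ker, map_mul, map_inv, map_zpow, ht]
      apply Multiplicative.toAdd.injective
      simp [he]
    have hAf : (A ∪ A⁻¹).Finite := hA.union hA.inv
    obtain ⟨M, hM⟩ : ∃ M : ℕ, ∀ a ∈ A ∪ A⁻¹, (e a).natAbs ≤ M := by
      obtain ⟨M, hM⟩ := (hAf.image fun a => (e a).natAbs).bddAbove
      exact ⟨M, fun a ha => hM ⟨a, ha, rfl⟩⟩
    -- conjugates
    obtain ⟨C₂, D₂, hconj⟩ := exists_common (P := fun a C D => ∀ z : ℤ,
        t ^ z * (a * (t ^ (e a))⁻¹) * (t ^ z)⁻¹ ∈ Bl AK (C * (z.natAbs + 1) ^ D)) hAf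
      (fun a C D C' D' h h' hP z => Bl_mono (Nat.mul_le_mul h
        (Nat.pow_le_pow_right (by omega) h')) (hP z))
      (fun a _ => conj_poly hclK hnil t (hker a))
    -- the main estimate
    have key : ∀ l : List N, (∀ a ∈ l, a ∈ A ∨ a⁻¹ ∈ A) →
        (e l.prod).natAbs ≤ l.length * M ∧
        l.prod * (t ^ (e l.prod))⁻¹ ∈ Bl AK (l.length * (C₂ * (l.length * M + 1) ^ D₂)) := by
      intro l
      induction l using List.reverseRecOn with
      | nil =>
        intro _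
        have h0 : e (1 : N) = 0 := by rw [he]; simp
        refine ⟨by simp [h0], ?_⟩
        rw [List.prod_nil, h0]
        simpa using one_mem_Bl AK 0
      | append_singleton l a ih =>
        intro hl
        obtain ⟨h1, h2⟩ := ih (fun b hb => hl b (List.mem_append_left _ hb))
        have ha : a ∈ A ∪ A⁻¹ := by
          rcases hl a (by simp) with h | h
          · exact Or.inl h
          · exact Or.inr (by simpa using h)
        rw [List.prod_append, List.prod_singleton, List.length_append, List.length_singleton]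
        refine ⟨?_, ?_⟩
        · rw [he_mul]
          have := hM a ha
          have h3 := Int.natAbs_add_le (e l.prod) (e a)
          calc (e l.prod + e a).natAbs ≤ l.length * M + M := by omega
            _ = (l.length + 1) * M := by ring
        · have e1 : l.prod * a * (t ^ (e (l.prod * a)))⁻¹ =
              (l.prod * (t ^ (e l.prod))⁻¹) *
              (t ^ (e l.prod) * (a * (t ^ (e a))⁻¹) * (t ^ (e l.prod))⁻¹) := by
            rw [he_mul, zpow_add]
            group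
          rw [e1]
          refine Bl_mono ?_ (mul_mem_Bl h2 (hconj a ha (e l.prod)))
          have h3 : (l.length * M + 1) ^ D₂ ≤ ((l.length + 1) * M + 1) ^ D₂ :=
            Nat.pow_le_pow_left (by nlinarith) _
          have h4 : ((e l.prod).natAbs + 1) ^ D₂ ≤ ((l.length + 1) * M + 1) ^ D₂ :=
            Nat.pow_le_pow_left (by nlinarith) _
          calc l.length * (C₂ * (l.length * M + 1) ^ D₂) + C₂ * ((e l.prod).natAbs + 1) ^ D₂
              ≤ l.length * (C₂ * ((l.length + 1) * M + 1) ^ D₂) +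
                C₂ * ((l.length + 1) * M + 1) ^ D₂ :=
                Nat.add_le_add (Nat.mul_le_mul_left _ (Nat.mul_le_mul_left _ h3))
                  (Nat.mul_le_mul_left _ h4)
            _ = (l.length + 1) * (C₂ * ((l.length + 1) * M + 1) ^ D₂) := by ring
    refine ⟨(2 * M + 1) * (C₁ * (C₂ * (M + 1) ^ D₂ + 1) ^ D₁), (D₂ + 1) * D₁ + 1, fun n => ?_⟩
    -- inclusion in a product
    set Q : ℕ := n * (C₂ * (n * M + 1) ^ D₂) with hQ
    have hAKf : AK.Finite := hS₁.2.image _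
    have hsub : Bl A n ⊆ (fun p : N × ℤ => p.1 * t ^ p.2) ''
        (Bl AK Q ×ˢ (Set.Icc (-((n * M : ℕ) : ℤ)) ((n * M : ℕ) : ℤ))) := by
      rintro x ⟨l, h1, h2, rfl⟩
      obtain ⟨h3, h4⟩ := key l h2
      refine ⟨(l.prod * (t ^ (e l.prod))⁻¹, e l.prod), ⟨?_, ?_⟩, by simp⟩
      · refine Bl_mono ?_ h4
        rw [hQ]
        exact Nat.mul_le_mul h1 (Nat.mul_le_mul_left _ (Nat.pow_le_pow_left (by nlinarith) _))
      · have h5 : (e l.prod).natAbs ≤ n * M := h3.trans (Nat.mul_le_mul_right _ h1)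
        simp only [Set.mem_Icc]
        omega
    have hfinP : (Bl AK Q ×ˢ (Set.Icc (-((n * M : ℕ) : ℤ)) ((n * M : ℕ) : ℤ))).Finite :=
      (Bl_finite hAKf Q).prod (Set.finite_Icc _ _)
    have hcardI : (Set.Icc (-((n * M : ℕ) : ℤ)) ((n * M : ℕ) : ℤ)).ncard = 2 * (n * M) + 1 := by
      rw [Set.ncard_eq_toFinset_card', Set.toFinset_Icc, Int.card_Icc]
      omega
    have hQ1 : Q + 1 ≤ (C₂ * (M + 1) ^ D₂ + 1) * (n + 1) ^ (D₂ + 1) := by
      have h1 : (n * M + 1) ^ D₂ ≤ (M + 1) ^ D₂ * (n + 1) ^ D₂ := by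
        rw [← mul_pow]; exact Nat.pow_le_pow_left (by nlinarith) _
      have h2 : 1 ≤ (n + 1) ^ (D₂ + 1) := Nat.one_le_pow _ _ (by omega)
      calc Q + 1 ≤ (n + 1) * (C₂ * ((M + 1) ^ D₂ * (n + 1) ^ D₂)) + (n + 1) ^ (D₂ + 1) := by
            rw [hQ]
            exact Nat.add_le_add (Nat.mul_le_mul (Nat.le_succ n) (Nat.mul_le_mul_left _ h1)) h2
        _ = _ := by ring
    calc (Bl A n).ncard ≤ (Bl AK Q ×ˢ (Set.Icc (-((n * M : ℕ) : ℤ)) ((n * M : ℕ) : ℤ))).ncard :=
          (Set.ncard_le_ncard hsub (hfinP.image _)).trans (Set.ncard_image_le hfinP)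
      _ = (Bl AK Q).ncard * (2 * (n * M) + 1) := by rw [Set.ncard_prod, hcardI]
      _ ≤ (C₁ * (Q + 1) ^ D₁) * ((2 * M + 1) * (n + 1)) :=
          Nat.mul_le_mul (hgK' Q) (by nlinarith)
      _ ≤ (C₁ * ((C₂ * (M + 1) ^ D₂ + 1) * (n + 1) ^ (D₂ + 1)) ^ D₁) * ((2 * M + 1) * (n + 1)) :=
          Nat.mul_le_mul_right _ (Nat.mul_le_mul_left _ (Nat.pow_le_pow_left hQ1 _))
      _ = _ := by
          rw [mul_pow, ← pow_mul, pow_succ]
          ring

end Vale.Agent.P188.H789
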