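import Vale.Agent.P188.H789.Chi
import Vale.Agent.P188.H789.NilGrowth
import Vale.Agent.P188.H789.Fin
import Vale.Agent.P188.H428.BAdd
import Vale.Agent.P188.H187.Univ

/-!
# Final assembly, route B

`OutB` (everywhere sublinear + comparison of slab paths) implies `Core`.
-/

universe u v w

open Pointwise

namespace Vale.Agent.P188.H789

/-- Everywhere sublinear. -/
def ESH {H : Type u} [Group H] {k : ℕ} (ψ : H → Fin k → ℝ) (S : Set H) : Prop :=
  ∀ ε : ℝ, 0 < ε → ∃ C : ℝ, ∀ n : ℕ, ∀ x ∈ Bl S n, ∀ (h : H) (i : Fin k),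
    |ψ (h * x) i - ψ h i - (ψ x i - ψ 1 i)| ≤ ε * n + C

/-- **Output of the analytic part, route B.** -/
def OutB : Prop :=
  ∀ (Γ : Type) [Group Γ] (k : ℕ) (η : Γ →* Multiplicative (Fin k → ℤ)), 0 < k → H187.Z0 Γ k η →
    ∀ (H : Type) [Group H] [Group.FG H] (F : H → Γ) (F' : Γ → H), Coarse F → Coarse F' →
      CloseId (F' ∘ F) → CloseId (F ∘ F') →
      ∃ (H₀ : Subgroup H) (_ : H₀.FiniteIndex) (S : Set H₀), S.Finite ∧
        Subgroup.closure S = ⊤ ∧ ESH (fun x : H₀ => hts η F x) S ∧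
        NeuH (fun x : H₀ => hts η F x) (S ∪ S⁻¹ ∪ {1})

/-- growth of the kernel of a model group -/
theorem Z0_growth {Γ : Type} [Group Γ] {k : ℕ} {η : Γ →* Multiplicative (Fin k → ℤ)}
    (h : H187.Z0 Γ k η) : ∃ A : Set Γ, A.Finite ∧ Subgroup.closure A = η.ker ∧
      ∃ C D : ℕ, ∀ n, (Bl A n).ncard ≤ C * (n + 1) ^ D := by
  classical
  obtain ⟨m, hm⟩ := h.ker_polyZ
  obtain ⟨S₁, hS₁, hS₁f⟩ := Group.fg_iff.mp (H754.PolyZ.fg m hm)
  obtain ⟨C, D, hg⟩ := nil_growth m η.ker hm h.nil S₁ hS₁f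
  refine ⟨Subtype.val '' S₁, hS₁f.image _, ?_, C, D, fun n => ?_⟩
  · have h1 : Subgroup.closure (Subtype.val '' S₁) = (Subgroup.closure S₁).map η.ker.subtype := by
      rw [MonoidHom.map_closure]; rfl
    rw [h1, hS₁, ← MonoidHom.range_eq_map, Subgroup.range_subtype]
  · have h1 : Bl (Subtype.val '' S₁) n ⊆ η.ker.subtype '' Bl S₁ n := Bl_image η.ker.subtype S₁ n
    exact ((Set.ncard_le_ncard h1 ((Bl_finite hS₁f n).image _)).trans
      (Set.ncard_image_le (Bl_finite hS₁f n))).trans (hg n)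

theorem exists_fin_gen {G : Type u} [Group G] (h : Group.FG G) :
    ∃ B : Set G, B.Finite ∧ Subgroup.closure B = ⊤ := by
  obtain ⟨S, hS, hSf⟩ := Group.fg_iff.mp h
  exact ⟨S, hSf, hS⟩

/-- the final step for a group with the comparison property, route B -/
theorem vps_of_ES {Γ : Type} [Group Γ] {k : ℕ} {η : Γ →* Multiplicative (Fin k → ℤ)}
    (hZ : H187.Z0 Γ k η) {H : Type} [Group H] {F : H → Γ} {F' : Γ → H}
    (hF : Coarse F) (hF' : Coarse F') (hFF : CloseId (F' ∘ F)) (hFF' : CloseId (F ∘ F'))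
    {H₀ : Subgroup H} (hH₀ : H₀.FiniteIndex) {S : Set H₀} (hSf : S.Finite)
    (hS : Subgroup.closure S = ⊤) (hES : ESH (fun x : H₀ => hts η F x) S)
    (hneu : NeuH (fun x : H₀ => hts η F x) (S ∪ S⁻¹ ∪ {1})) : IsVirtuallyPolycyclic H := by
  classical
  obtain ⟨F₀', c1, c2, c3, c4⟩ := coarse_restrict hF hF' hFF hFF' H₀ hH₀
  obtain ⟨m, hm⟩ := hZ.polyZ
  obtain ⟨μ, hμ, hinv⟩ : HasMean H₀ :=
    hasMean_of_coarseEquiv ⟨_, _, c1, c2, c3, c4⟩ (hasMean_of_PolyZ m Γ hm)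
  obtain ⟨A, hA, hcl, C, D, hgr⟩ := Z0_growth hZ
  obtain ⟨B, hBf, hB⟩ := exists_fin_gen (H754.PolyZ.fg m hm)
  have hBfin : (S ∪ S⁻¹ ∪ {1}).Finite := (hSf.union hSf.inv).union (Set.finite_singleton 1)
  obtain ⟨L, hL⟩ := hts_lip η c1 hBfin
  have hcmp : Cmp μ (hts η fun x : H₀ => F x) (S ∪ S⁻¹ ∪ {1}) :=
    cmp_of_neu (L := L) hμ hL hneu
  have hadd : Addv (chi μ (hts η fun x : H₀ => F x)) := chi_addv hμ hinv hS hL
  obtain ⟨C', D', hC', hSG⟩ := slabGrowth_of_cmp hZ.surj hA hcl hgr c1 c3 hμ hinv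
    (χ := chi μ (hts η fun x : H₀ => F x)) (fun _ _ => rfl) hSf hcmp
  have hnear := chi_near (μ := μ) (ψ := hts η fun x : H₀ => F x) hμ hS hL hES
  have hconn : SubConn (chi μ (hts η fun x : H₀ => F x)) S :=
    _root_.Agent.P188.H428.subConn_of_near hZ.surj hA hcl hBf hB hSf hS c1 c2 c3 c4 hadd hnear
  exact isVirtuallyPolycyclic_of_addv hH₀ hadd hC' hSf hS hSG hconn

/-- **Final assembly, route B.** -/
theorem core_of_outB (hB : OutB) : H187.Core := by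
  intro Γ _ k η hZ H _ hfg hc
  obtain ⟨F, F', hF, hF', hFF, hFF'⟩ := hc
  rcases Nat.eq_zero_or_pos k with hk | hk
  · subst hk
    have hS0 : ∃ S : Set (⊤ : Subgroup H), S.Finite ∧ Subgroup.closure S = ⊤ := by
      have : Group.FG (⊤ : Subgroup H) :=
        Group.fg_of_surjective (f := (Subgroup.topEquiv (G := H)).symm.toMonoidHom)
          (Subgroup.topEquiv (G := H)).symm.surjective
      exact exists_fin_gen this
    obtain ⟨S, hSf, hS⟩ := hS0
    exact vps_of_ES hZ hF hF' hFF hFF' (H₀ := ⊤) inferInstance hSf hS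
      (fun ε _ => ⟨0, fun n x _ h i => i.elim0⟩)
      ⟨0, fun R m _ h y _ _ _ a => a.elim0⟩
  · obtain ⟨H₀, hH₀, S, hSf, hS, hES, hneu⟩ := hB Γ k η hk hZ H F F' hF hF' hFF hFF'
    exact vps_of_ES hZ hF hF' hFF hFF' hH₀ hSf hS hES hneu

/-- **The rigidity theorem, from the output of route B.** -/
theorem rigidity_of_outB (hB : OutB) {H : Type u} {G : Type v} [Group H] [Group G]
    (hG : IsVirtuallyPolycyclic G) (hQ : QuasiIsometric H G) : IsVirtuallyPolycyclic H :=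
  H187.rigidity_of_core (core_of_outB hB) hG hQ

end Vale.Agent.P188.H789
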