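import Vale.Agent.P188.Z1.Fat
import Vale.Agent.P188.Z1.InvT

/-!
# Change of location

For `Y : S` the map `γ ↦ F (fl (Y * inG γ))` is again a quasi-isometry of `Γ`, uniformly in `Y`, and
its height function is `z ↦ f F (Y * z)` up to a constant.
-/

set_option linter.all false

open MeasureTheory Set
open Vale.Agent.P188.Z1 (RModel)

namespace Vale.Agent.P188.H789

variable {S : Type} [Group S] [MeasurableSpace S] {Γ : Type} [Group Γ]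
  {V : Type} [AddCommGroup V] [Module ℝ V] {k : ℕ} (M : RModel S Γ V k)

/-- the translation by `Y`, as a map of `Γ` -/
def tr (Y : S) (γ : Γ) : Γ := M.fl (Y * M.inG γ)

theorem tr_lip (Y : S) (γ y : Γ) :
    (M.l (M.inG ((tr M Y γ)⁻¹ * tr M Y (γ * y))) : ℝ) ≤ M.l (M.inG y) + 2 * M.C0 := by
  have h1 := M.fl_close (Y * M.inG γ)
  have h2 := M.fl_close (Y * M.inG (γ * y))
  have e : M.inG ((tr M Y γ)⁻¹ * tr M Y (γ * y)) =
      ((M.inG (M.fl (Y * M.inG γ)))⁻¹ * (Y * M.inG γ)) *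
        (M.inG y * ((M.inG (M.fl (Y * M.inG (γ * y))))⁻¹ * (Y * M.inG (γ * y)))⁻¹) := by
    unfold tr
    rw [map_mul, map_inv, map_mul M.inG γ y]; group
  rw [e]
  have t1 : (M.l (((M.inG (M.fl (Y * M.inG γ)))⁻¹ * (Y * M.inG γ)) *
        (M.inG y * ((M.inG (M.fl (Y * M.inG (γ * y))))⁻¹ * (Y * M.inG (γ * y)))⁻¹)) : ℝ) ≤
      M.l ((M.inG (M.fl (Y * M.inG γ)))⁻¹ * (Y * M.inG γ)) +
        M.l (M.inG y * ((M.inG (M.fl (Y * M.inG (γ * y))))⁻¹ * (Y * M.inG (γ * y)))⁻¹) := by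
    exact_mod_cast M.len.mul _ _
  have t2 : (M.l (M.inG y * ((M.inG (M.fl (Y * M.inG (γ * y))))⁻¹ *
      (Y * M.inG (γ * y)))⁻¹) : ℝ) ≤ M.l (M.inG y) +
        M.l (((M.inG (M.fl (Y * M.inG (γ * y))))⁻¹ * (Y * M.inG (γ * y)))⁻¹) := by
    exact_mod_cast M.len.mul _ _
  rw [M.len.inv] at t2
  linarith

theorem tr_inv (Y : S) (γ : Γ) :
    (M.l (M.inG (γ⁻¹ * tr M Y⁻¹ (tr M Y γ))) : ℝ) ≤ 2 * M.C0 := by
  have h1 := M.fl_close (Y * M.inG γ)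
  set c : S := (M.inG (M.fl (Y * M.inG γ)))⁻¹ * (Y * M.inG γ) with hc
  have e1 : Y⁻¹ * M.inG (tr M Y γ) = M.inG γ * c⁻¹ := by
    unfold tr; rw [hc]; group
  have e2 : tr M Y⁻¹ (tr M Y γ) = γ * M.fl c⁻¹ := by
    conv_lhs => unfold tr
    have := M.fl_mul γ c⁻¹
    rw [← e1] at this
    exact this
  rw [e2, inv_mul_cancel_left]
  have h2 := M.fl_close c⁻¹
  have t1 : (M.l (c⁻¹ * ((M.inG (M.fl c⁻¹))⁻¹ * c⁻¹)⁻¹) : ℝ) ≤
      M.l c⁻¹ + M.l (((M.inG (M.fl c⁻¹))⁻¹ * c⁻¹)⁻¹) := by exact_mod_cast M.len.mul _ _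
  have e3 : c⁻¹ * ((M.inG (M.fl c⁻¹))⁻¹ * c⁻¹)⁻¹ = M.inG (M.fl c⁻¹) := by group
  rw [e3, M.len.inv, M.len.inv] at t1
  linarith

theorem lip_len {K : ℝ} {F F' : Γ → Γ} (h : M.QIm K F F') (a b : Γ) :
    (M.l (M.inG ((F a)⁻¹ * F b)) : ℝ) ≤ K * (M.l (M.inG (a⁻¹ * b)) + 1) := by
  have := h.lip a (a⁻¹ * b)
  rwa [mul_inv_cancel_left] at this

/-- **Change of location.** -/
theorem shift {K : ℝ} {F F' : Γ → Γ} (h : M.QIm K F F') (Y : S) :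
    M.QIm (K * (2 * M.C0 + 1) + 2 * M.C0 + (K + 2 * M.C0)) (fun γ => F (tr M Y γ))
      (fun γ => tr M Y⁻¹ (F' γ)) := by
  have hC := M.one_le_C0
  have hK := h.K_nonneg
  have hsymm : ∀ a b : Γ, (M.l (M.inG ((F' a)⁻¹ * F' b)) : ℝ) ≤
      K * (M.l (M.inG (a⁻¹ * b)) + 1) := by
    intro a b
    have := h.lip' a (a⁻¹ * b)
    rwa [mul_inv_cancel_left] at this
  have htl : ∀ (Z : S) (a b : Γ), (M.l (M.inG ((tr M Z a)⁻¹ * tr M Z b)) : ℝ) ≤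
      M.l (M.inG (a⁻¹ * b)) + 2 * M.C0 := by
    intro Z a b
    have := tr_lip M Z a (a⁻¹ * b)
    rwa [mul_inv_cancel_left] at this
  have tri : ∀ a b c : Γ, (M.l (M.inG (a⁻¹ * c)) : ℝ) ≤ M.l (M.inG (a⁻¹ * b)) +
      M.l (M.inG (b⁻¹ * c)) := by
    intro a b c
    have e : M.inG (a⁻¹ * c) = M.inG (a⁻¹ * b) * M.inG (b⁻¹ * c) := by
      simp only [map_mul, map_inv]; group
    rw [e]
    exact_mod_cast M.len.mul _ _
  refine ⟨fun g y => ?_, fun g y => ?_, fun g => ?_, fun g => ?_⟩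
  · have h1 := lip_len M h (tr M Y g) (tr M Y (g * y))
    have h2 := tr_lip M Y g y
    have h0 : (0 : ℝ) ≤ M.l (M.inG y) := Nat.cast_nonneg _
    calc (M.l (M.inG ((F (tr M Y g))⁻¹ * F (tr M Y (g * y)))) : ℝ)
        ≤ K * (M.l (M.inG ((tr M Y g)⁻¹ * tr M Y (g * y))) + 1) := h1
      _ ≤ K * (M.l (M.inG y) + 2 * M.C0 + 1) := by gcongr
      _ ≤ (K * (2 * M.C0 + 1) + 2 * M.C0 + (K + 2 * M.C0)) * (M.l (M.inG y) + 1) := by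
          nlinarith [mul_nonneg hK h0, mul_nonneg (mul_nonneg hK h0) (by linarith : (0:ℝ) ≤ M.C0),
            mul_nonneg (by linarith : (0:ℝ) ≤ M.C0) h0]
  · have h1 := hsymm g (g * y)
    rw [inv_mul_cancel_left] at h1
    have h2 := htl Y⁻¹ (F' g) (F' (g * y))
    have h0 : (0 : ℝ) ≤ M.l (M.inG y) := Nat.cast_nonneg _
    calc (M.l (M.inG ((tr M Y⁻¹ (F' g))⁻¹ * tr M Y⁻¹ (F' (g * y)))) : ℝ)
        ≤ M.l (M.inG ((F' g)⁻¹ * F' (g * y))) + 2 * M.C0 := h2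
      _ ≤ K * (M.l (M.inG y) + 1) + 2 * M.C0 := by linarith
      _ ≤ (K * (2 * M.C0 + 1) + 2 * M.C0 + (K + 2 * M.C0)) * (M.l (M.inG y) + 1) := by
          nlinarith [mul_nonneg hK h0, mul_nonneg (mul_nonneg hK h0) (by linarith : (0:ℝ) ≤ M.C0),
            mul_nonneg (by linarith : (0:ℝ) ≤ M.C0) h0, mul_nonneg hK (by linarith : (0:ℝ) ≤ M.C0)]
  · -- g ~ tr⁻¹ tr g ~ tr⁻¹ F' F tr g
    have h1 := tr_inv M Y g
    have h2 := h.inv (tr M Y g)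
    have h3 := htl Y⁻¹ (tr M Y g) (F' (F (tr M Y g)))
    have h4 := tri g (tr M Y⁻¹ (tr M Y g)) (tr M Y⁻¹ (F' (F (tr M Y g))))
    have h5 : (0 : ℝ) ≤ K * (2 * M.C0 + 1) := by positivity
    linarith
  · have h1 := tr_inv M Y⁻¹ (F' g)
    rw [inv_inv] at h1
    have h2 := h.inv' g
    have h3 := lip_len M h (F' g) (tr M Y (tr M Y⁻¹ (F' g)))
    have h4 := tri g (F (F' g)) (F (tr M Y (tr M Y⁻¹ (F' g))))
    have h5 : K * ((M.l (M.inG ((F' g)⁻¹ * tr M Y (tr M Y⁻¹ (F' g)))) : ℝ) + 1) ≤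
        K * (2 * M.C0 + 1) := by gcongr
    linarith

theorem shift_f {K : ℝ} {F F' : Γ → Γ} (h : M.QIm K F F') (Y z : S) :
    ‖M.f (fun γ => F (tr M Y γ)) z - M.f F (Y * z)‖ ≤ M.C0 * (K * (3 * M.C0 + 1)) := by
  have hC := M.one_le_C0
  have hK := h.K_nonneg
  have h1 := lip_len M h (M.fl (Y * z)) (tr M Y (M.fl z))
  have h2 := M.fl_close z
  have h3 := M.fl_close (Y * z)
  have h4 := M.fl_close (Y * M.inG (M.fl z))
  have e : M.inG ((M.fl (Y * z))⁻¹ * tr M Y (M.fl z)) =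
      ((M.inG (M.fl (Y * z)))⁻¹ * (Y * z)) * (((M.inG (M.fl z))⁻¹ * z)⁻¹ *
        ((M.inG (M.fl (Y * M.inG (M.fl z))))⁻¹ * (Y * M.inG (M.fl z)))⁻¹) := by
    unfold tr
    rw [map_mul, map_inv]; group
  have t1 : (M.l (M.inG ((M.fl (Y * z))⁻¹ * tr M Y (M.fl z))) : ℝ) ≤ 3 * M.C0 := by
    rw [e]
    have u1 : (M.l (((M.inG (M.fl (Y * z)))⁻¹ * (Y * z)) * (((M.inG (M.fl z))⁻¹ * z)⁻¹ *
        ((M.inG (M.fl (Y * M.inG (M.fl z))))⁻¹ * (Y * M.inG (M.fl z)))⁻¹)) : ℝ) ≤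
        M.l ((M.inG (M.fl (Y * z)))⁻¹ * (Y * z)) + M.l (((M.inG (M.fl z))⁻¹ * z)⁻¹ *
        ((M.inG (M.fl (Y * M.inG (M.fl z))))⁻¹ * (Y * M.inG (M.fl z)))⁻¹) := by
      exact_mod_cast M.len.mul _ _
    have u2 : (M.l (((M.inG (M.fl z))⁻¹ * z)⁻¹ *
        ((M.inG (M.fl (Y * M.inG (M.fl z))))⁻¹ * (Y * M.inG (M.fl z)))⁻¹) : ℝ) ≤
        M.l ((M.inG (M.fl z))⁻¹ * z)⁻¹ +
          M.l ((M.inG (M.fl (Y * M.inG (M.fl z))))⁻¹ * (Y * M.inG (M.fl z)))⁻¹ := by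
      exact_mod_cast M.len.mul _ _
    rw [M.len.inv, M.len.inv] at u2
    linarith
  have e2 : M.f (fun γ => F (tr M Y γ)) z - M.f F (Y * z) =
      M.θ (M.inG ((F (M.fl (Y * z)))⁻¹ * F (tr M Y (M.fl z)))) := by
    rw [map_mul, map_inv, M.θ_inv_mul]; rfl
  rw [e2]
  refine (M.θ_le _).trans (mul_le_mul_of_nonneg_left (h1.trans ?_) (by linarith))
  gcongr

end Vale.Agent.P188.H789
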