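import Vale.Agent.P188.Z1.Flat
import Vale.Agent.P188.H789.Shift

/-!
# Flatness with linear part `1`: all windows, all locations

`FlatFam` (output of the label argument, standard windows, short slices) and `FLATG` (general windows,
one good label) give `FlatAll`: general windows, all Cartan slices in the window, linear part `1`.
-/

set_option linter.all false

open MeasureTheory Set
open Vale.Agent.P188.Z1 (RModel Ht en)
open Vale.Agent.P188.Z1.RModel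

namespace Vale.Agent.P188.H789

variable {S : Type} [Group S] [MeasurableSpace S] {Γ : Type} [Group Γ]
  {V : Type} [AddCommGroup V] [Module ℝ V] {k : ℕ} (M : RModel S Γ V k)

/-- the slices `x` satisfying `P` of the box of sizes `R` at the location `Y` are flat, with linear
part `1` -/
def FlatAt (B : M.NatBox) (R : M.ι → ℝ) (F : Γ → Γ) (ε s : ℝ) (P : S → Prop) (Y : S) : Prop :=
  ∃ c : Z1.Ht k, ∀ x : S, P x →
    M.μ {v | v ∈ B.Bx R ∧ ε * s < ‖M.f F (Y * v * x) - c - M.θ x‖} ≤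
      ENNReal.ofReal ε * M.μ (B.Bx R)

/-- the slices in the window `h` -/
def Slice (h : (Z1.Ht k →L[ℝ] ℝ) → ℝ) (c₁ A κ s : ℝ) (x : S) : Prop :=
  (M.l x : ℝ) ≤ c₁ * s ∨
    ∃ n : ℕ, (n : ℝ) ≤ A * s ∧ x ∈ M.CB n ∧ ∀ b ∈ M.Φ, b (M.θ x) ≤ (1 - κ) * s * h b

/-- **Flat family**: standard windows, short slices, all locations, linear part `1`. -/
def FlatFam (B : M.NatBox) (𝓕 : Set (Γ → Γ)) : Prop :=
  ∃ c₁ : ℝ, 0 < c₁ ∧ ∀ ε : ℝ, 0 < ε → ∃ dm : ℝ, 0 < dm ∧ ∀ d₁ : ℝ, 0 < d₁ → d₁ ≤ dm →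
    ∃ s₀ : ℝ, ∀ s : ℝ, s₀ ≤ s → ∀ F ∈ 𝓕, ∀ Y : S,
      FlatAt M B (M.sz d₁ s) F ε s (fun x => (M.l x : ℝ) ≤ c₁ * s) Y

/-- **Flatness in all windows**. -/
def FlatAll (B : M.NatBox) (𝓕 : Set (Γ → Γ)) : Prop :=
  ∀ c₂ : ℝ, 0 < c₂ → ∃ c₁ : ℝ, 0 < c₁ ∧ ∀ ε κ A : ℝ, 0 < ε → 0 < κ → κ < 1 →
    ∃ dm : ℝ, 0 < dm ∧ ∀ d₁ : ℝ, 0 < d₁ → d₁ ≤ dm → ∃ s₀ : ℝ, ∀ s : ℝ, s₀ ≤ s →
    ∀ h : (Z1.Ht k →L[ℝ] ℝ) → ℝ, M.HGood c₂ h → ∀ F ∈ 𝓕, ∀ Y : S,
      FlatAt M B (M.szh h d₁ s) F ε s (Slice M h c₁ A κ s) Y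

variable {M}

/-- averaging: there is a base point such that most small moves stay good -/
theorem exists_base (P Q Z : Set S) (hP : MeasurableSet P) (hQ : MeasurableSet Q)
    (hZ : MeasurableSet Z) (hP0 : M.μ P ≠ 0) (hPf : M.μ P ≠ ⊤) (hQ0 : M.μ Q ≠ 0) (hQf : M.μ Q ≠ ⊤)
    (h : ∀ n ∈ Q, M.μ {v | v ∈ P ∧ v * n ∈ Z} ≤ ENNReal.ofReal (1 / 4) * M.μ P) :
    ∃ v ∈ P, M.μ {n | n ∈ Q ∧ v * n ∈ Z} ≤ ENNReal.ofReal (1 / 2) * M.μ Q := by
  haveI := M.mm
  by_contra hcon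
  push Not at hcon
  set W : Set (S × S) := {p | p.1 ∈ P ∧ p.2 ∈ Q ∧ p.1 * p.2 ∈ Z} with hW
  have hWm : MeasurableSet W := by
    have h1 : MeasurableSet {p : S × S | p.1 ∈ P} := measurable_fst hP
    have h2 : MeasurableSet {p : S × S | p.2 ∈ Q} := measurable_snd hQ
    have h3 : MeasurableSet {p : S × S | p.1 * p.2 ∈ Z} := measurable_mul hZ
    exact h1.inter (h2.inter h3)
  have e1 : (M.μ.prod M.μ) W = ∫⁻ v, M.μ (Prod.mk v ⁻¹' W) ∂M.μ := Measure.prod_apply hWm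
  have e2 : (M.μ.prod M.μ) W = ∫⁻ n, M.μ ((fun v => (v, n)) ⁻¹' W) ∂M.μ :=
    Measure.prod_apply_symm hWm
  have u2 : (M.μ.prod M.μ) W ≤ ENNReal.ofReal (1 / 4) * M.μ P * M.μ Q := by
    rw [e2]
    calc ∫⁻ n, M.μ ((fun v => (v, n)) ⁻¹' W) ∂M.μ
        ≤ ∫⁻ n, Q.indicator (fun _ => ENNReal.ofReal (1 / 4) * M.μ P) n ∂M.μ := by
          refine lintegral_mono fun n => ?_
          by_cases hn : n ∈ Q
          · rw [indicator_of_mem hn]
            refine le_trans (measure_mono ?_) (h n hn)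
            intro v hv
            exact ⟨hv.1, hv.2.2⟩
          · rw [indicator_of_notMem hn]
            have : (fun v => (v, n)) ⁻¹' W = ∅ := by
              ext v
              simp only [hW, mem_preimage, mem_setOf_eq, mem_empty_iff_false, iff_false]
              exact fun hv => hn hv.2.1
            rw [this, measure_empty]
      _ = ENNReal.ofReal (1 / 4) * M.μ P * M.μ Q := by
          rw [lintegral_indicator hQ, lintegral_const, Measure.restrict_apply_univ]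
  have u1 : ENNReal.ofReal (1 / 2) * M.μ Q * M.μ P ≤ (M.μ.prod M.μ) W := by
    rw [e1]
    calc ENNReal.ofReal (1 / 2) * M.μ Q * M.μ P
        = ∫⁻ v, P.indicator (fun _ => ENNReal.ofReal (1 / 2) * M.μ Q) v ∂M.μ := by
          rw [lintegral_indicator hP, lintegral_const, Measure.restrict_apply_univ]
      _ ≤ ∫⁻ v, M.μ (Prod.mk v ⁻¹' W) ∂M.μ := by
          refine lintegral_mono fun v => ?_
          by_cases hv : v ∈ P
          · rw [indicator_of_mem hv]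
            refine (hcon v hv).le.trans (measure_mono ?_)
            intro n hn
            exact ⟨hv, hn.1, hn.2⟩
          · rw [indicator_of_notMem hv]
            exact zero_le
  have h3 := u1.trans u2
  have h4 : M.μ Q * M.μ P ≠ 0 := mul_ne_zero hQ0 hP0
  have h5 : M.μ Q * M.μ P ≠ ⊤ := ENNReal.mul_ne_top hQf hPf
  have h6 : ENNReal.ofReal (1 / 2) * (M.μ Q * M.μ P) ≤ ENNReal.ofReal (1 / 4) * (M.μ Q * M.μ P) := by
    calc _ = ENNReal.ofReal (1 / 2) * M.μ Q * M.μ P := by ring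
      _ ≤ ENNReal.ofReal (1 / 4) * M.μ P * M.μ Q := h3
      _ = _ := by ring
  rw [ENNReal.mul_le_mul_iff_left h4 h5, ENNReal.ofReal_le_ofReal_iff (by norm_num)] at h6
  norm_num at h6

/-- a point of `Q` outside a set of measure at most `1/2` and finitely many small sets -/
theorem exists_good {n : ℕ} (Q Z : Set S) (b : Fin n → Set S) (hQ0 : M.μ Q ≠ 0) (hQf : M.μ Q ≠ ⊤)
    (hZ : M.μ (Q ∩ Z) ≤ ENNReal.ofReal (1 / 2) * M.μ Q) {ε : ℝ} (hε : 0 ≤ ε) (hn : n * ε < 1 / 2)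
    (hb : ∀ i, M.μ (Q ∩ b i) ≤ ENNReal.ofReal ε * M.μ Q) :
    ∃ x ∈ Q, x ∉ Z ∧ ∀ i, x ∉ b i := by
  by_contra hcon
  push Not at hcon
  have h1 : Q ⊆ (Q ∩ Z) ∪ ⋃ i, (Q ∩ b i) := by
    intro x hx
    by_cases hz : x ∈ Z
    · exact Or.inl ⟨hx, hz⟩
    · obtain ⟨i, hi⟩ := hcon x hx hz
      exact Or.inr (mem_iUnion.2 ⟨i, hx, hi⟩)
  have h2 : M.μ Q ≤ ENNReal.ofReal (1 / 2) * M.μ Q + ∑ i : Fin n, ENNReal.ofReal ε * M.μ Q :=
    (measure_mono h1).trans ((measure_union_le _ _).trans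
      (add_le_add hZ ((measure_iUnion_fintype_le _ _).trans (Finset.sum_le_sum fun i _ => hb i))))
  rw [Finset.sum_const, Finset.card_univ, Fintype.card_fin, nsmul_eq_mul] at h2
  have h3 : (1 : ENNReal) * M.μ Q ≤ ENNReal.ofReal (1 / 2 + n * ε) * M.μ Q := by
    rw [one_mul, ENNReal.ofReal_add (by norm_num) (by positivity),
      ENNReal.ofReal_mul (Nat.cast_nonneg _), ENNReal.ofReal_natCast, add_mul, mul_assoc]
    exact h2
  rw [ENNReal.mul_le_mul_iff_left hQ0 hQf, ← ENNReal.ofReal_one,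
    ENNReal.ofReal_le_ofReal_iff (by positivity)] at h3
  linarith

/-- powers of the section: exact heights -/
theorem exists_pts (j : Fin k) : ∃ C : ℝ, 1 ≤ C ∧ ∀ r : ℕ, ∃ x : S, (M.l x : ℝ) ≤ C * r ∧
    M.θ x = Pi.single j (r : ℝ) := by
  set t : S := M.τ (Pi.single j 1) with ht
  have hθt : M.θ t = Pi.single j (1 : ℝ) := by
    rw [ht, M.θ_τ]
    funext i
    by_cases hij : i = j
    · subst hij; simp
    · simp [Pi.single_eq_of_ne hij]
  refine ⟨M.l t + 1, by have : (0 : ℝ) ≤ M.l t := Nat.cast_nonneg _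
                        linarith, fun r => ⟨t ^ r, ?_, ?_⟩⟩
  · have h : M.l (t ^ r) ≤ r * M.l t := by
      induction r with
      | zero => simp [M.len.one]
      | succ r ih =>
        rw [pow_succ]
        refine (M.len.mul _ _).trans ?_
        rw [Nat.succ_mul]
        exact Nat.add_le_add_right ih _
    have h' : (M.l (t ^ r) : ℝ) ≤ r * M.l t := by exact_mod_cast h
    have h0 : (0 : ℝ) ≤ r := Nat.cast_nonneg _
    nlinarith
  · induction r with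
    | zero => simp [M.θ_one]
    | succ r ih =>
      rw [pow_succ, M.θ_mul, ih, hθt, ← Pi.single_add]
      push_cast; rfl

/-- a linear map close to the identity on the basis -/
theorem near_id (T : Z1.Ht k →L[ℝ] Z1.Ht k) {η : ℝ} (hη : 0 ≤ η)
    (h : ∀ j : Fin k, ‖T (Pi.single j 1) - Pi.single j 1‖ ≤ η) (w : Z1.Ht k) :
    ‖T w - w‖ ≤ k * η * ‖w‖ := by
  have e : w = ∑ j : Fin k, w j • (Pi.single j (1 : ℝ) : Z1.Ht k) := by
    have := (pi_eq_sum_univ' w)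
    conv_lhs => rw [this]
  have e2 : T w - w = ∑ j : Fin k, w j • (T (Pi.single j (1 : ℝ)) - Pi.single j 1) := by
    conv_lhs => rw [e]
    rw [map_sum, ← Finset.sum_sub_distrib]
    refine Finset.sum_congr rfl fun j _ => ?_
    rw [map_smul, smul_sub]
  rw [e2]
  refine (norm_sum_le _ _).trans ?_
  calc ∑ j : Fin k, ‖w j • (T (Pi.single j (1 : ℝ)) - Pi.single j 1)‖
      ≤ ∑ _j : Fin k, ‖w‖ * η := by
        refine Finset.sum_le_sum fun j _ => ?_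
        rw [norm_smul]
        exact mul_le_mul (norm_le_pi_norm w j) (h j) (norm_nonneg _) (norm_nonneg _)
    _ = k * η * ‖w‖ := by
        rw [Finset.sum_const, Finset.card_univ, Fintype.card_fin, nsmul_eq_mul]; ring

/-- elementary: `e ^ (a s)` beats `Λ` -/
theorem exp_small {a δ : ℝ} (ha : 0 < a) (hδ : 0 < δ) : ∃ s₀ : ℝ, ∀ s : ℝ, s₀ ≤ s →
    Real.exp (-(a * s)) ≤ δ := by
  refine ⟨-Real.log δ / a, fun s hs => ?_⟩
  rw [div_le_iff₀ ha] at hs
  calc Real.exp (-(a * s)) ≤ Real.exp (Real.log δ) := Real.exp_le_exp.2 (by linarith)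
    _ = δ := Real.exp_log hδ

/-- the standard window of scale `δ' s` is deep inside the window `h` of scale `s` -/
theorem sz_small {c₂ : ℝ} (hc₂ : 0 < c₂) : ∃ δ' : ℝ, 0 < δ' ∧ δ' ≤ 1 ∧ ∀ δ : ℝ, 0 < δ →
    ∀ d₁ : ℝ, 0 < d₁ → ∃ s₀ : ℝ, ∀ s : ℝ, s₀ ≤ s → ∀ h : (Z1.Ht k →L[ℝ] ℝ) → ℝ, M.HB c₂ h →
    ∀ i, M.sz d₁ (δ' * s) i ≤ δ * M.szh h d₁ s i := by
  classical
  obtain ⟨E, hE⟩ := (M.Φ.image en).exists_le
  set E' := max E 1 with hE'
  have hE1 : 1 ≤ E' := le_max_right _ _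
  have hEb : ∀ b ∈ M.Φ, en b ≤ E' := fun b hb =>
    (hE _ (Finset.mem_image_of_mem _ hb)).trans (le_max_left _ _)
  refine ⟨min (1 / 2) (c₂ / (2 * E')), by positivity, (min_le_left _ _).trans (by norm_num),
    fun δ hδ d₁ hd₁ => ?_⟩
  set δ' := min (1 / 2) (c₂ / (2 * E')) with hδ'
  have h1 : δ' ≤ 1 / 2 := min_le_left _ _
  have h2 : δ' * (2 * E') ≤ c₂ := by
    have := min_le_right (1 / 2) (c₂ / (2 * E'))
    rw [← hδ', le_div_iff₀ (by positivity)] at this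
    exact this
  have h0 : 0 < δ' := by positivity
  obtain ⟨s₁, hs₁⟩ := exp_small (a := d₁ / 2) (by positivity) hδ
  obtain ⟨s₂, hs₂⟩ := exp_small (a := c₂ / 2) (by positivity) hδ
  refine ⟨max (max s₁ s₂) 0, fun s hs h hh i => ?_⟩
  have hs1 : s₁ ≤ s := ((le_max_left _ _).trans (le_max_left _ _)).trans hs
  have hs2 : s₂ ≤ s := ((le_max_right _ _).trans (le_max_left _ _)).trans hs
  have hs0 : 0 ≤ s := (le_max_right _ _).trans hs
  unfold RModel.sz RModel.szh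
  by_cases hi : M.wt i = 0
  · rw [if_pos hi, if_pos hi]
    calc Real.exp (d₁ * (δ' * s)) ≤ Real.exp (-(d₁ / 2 * s) + d₁ * s) := by
          refine Real.exp_le_exp.2 ?_
          nlinarith [mul_nonneg hd₁.le hs0]
      _ = Real.exp (-(d₁ / 2 * s)) * Real.exp (d₁ * s) := Real.exp_add _ _
      _ ≤ δ * Real.exp (d₁ * s) := by gcongr; exact hs₁ s hs1
  · rw [if_neg hi, if_neg hi]
    have hb : M.wt i ∈ M.Φ := (M.wt_mem i).resolve_right hi
    have h3 := hEb _ hb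
    have h4 := (hh _ hb).1
    have h5 : δ' * en (M.wt i) ≤ c₂ / 2 := by nlinarith
    calc Real.exp (δ' * s * en (M.wt i)) ≤ Real.exp (-(c₂ / 2 * s) + s * h (M.wt i)) := by
          refine Real.exp_le_exp.2 ?_
          nlinarith
      _ = Real.exp (-(c₂ / 2 * s)) * Real.exp (s * h (M.wt i)) := Real.exp_add _ _
      _ ≤ δ * Real.exp (s * h (M.wt i)) := by gcongr; exact hs₂ s hs2

/-- the union of the bad sets of finitely many slices is small, also after a small move -/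
theorem moved_le (B : M.NatBox) {R : M.ι → ℝ} (Z : Set S) (hZ : MeasurableSet Z) {a ε : ℝ}
    (ha : 0 ≤ a) (hε : 0 ≤ ε) (n : S) (hn : M.μ {v | v ∈ B.Bx R ∧ v * n ∉ B.Bx R} ≤
      ENNReal.ofReal ε * M.μ (B.Bx R))
    (hZm : M.μ (B.Bx R ∩ Z) ≤ ENNReal.ofReal a * M.μ (B.Bx R)) :
    M.μ {v | v ∈ B.Bx R ∧ v * n ∈ (B.Bx R)ᶜ ∪ Z} ≤ ENNReal.ofReal (ε + a) * M.μ (B.Bx R) := by
  haveI := M.mm
  have h1 : {v | v ∈ B.Bx R ∧ v * n ∈ (B.Bx R)ᶜ ∪ Z} ⊆ {v | v ∈ B.Bx R ∧ v * n ∉ B.Bx R} ∪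
      (fun v => v * n) ⁻¹' (B.Bx R ∩ Z) := by
    intro v hv
    by_cases h : v * n ∈ B.Bx R
    · right
      refine ⟨h, ?_⟩
      rcases hv.2 with h' | h'
      · exact absurd h h'
      · exact h'
    · exact Or.inl ⟨hv.1, h⟩
  refine (measure_mono h1).trans ((measure_union_le _ _).trans ?_)
  rw [(M.mp n).measure_preimage ((B.meas R).inter hZ).nullMeasurableSet,
    ENNReal.ofReal_add hε ha, add_mul]
  exact add_le_add hn hZm

end Vale.Agent.P188.H789
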