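import Vale.Agent.P188.H789.SlabH

/-! P188, end game: the Milnor step for elements with small `χ`. -/

universe u v w

open Pointwise Filter

namespace Vale.Agent.P188.H789

theorem exists_exp_gt (K a D : ℕ) : ∃ N : ℕ, K * (a * N + 1) ^ D < 2 ^ N := by
  have h := tendsto_pow_const_div_const_pow_of_one_lt D (r := (2 : ℝ)) (by norm_num)
  have h2 : ∀ᶠ N : ℕ in atTop, (N : ℝ) ^ D / 2 ^ N < 1 / (K * (a + 1) ^ D + 1) :=
    h.eventually (gt_mem_nhds (by positivity))
  obtain ⟨N, hN, hN1⟩ := (h2.and (eventually_ge_atTop 1)).exists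
  refine ⟨N, ?_⟩
  have h3 : ((K * (a * N + 1) ^ D : ℕ) : ℝ) < ((2 ^ N : ℕ) : ℝ) := by
    push_cast
    have hN1' : (1 : ℝ) ≤ N := by exact_mod_cast hN1
    rw [div_lt_div_iff₀ (by positivity) (by positivity)] at hN
    have h4 : ((a : ℝ) * N + 1) ^ D ≤ ((a + 1) * N) ^ D :=
      pow_le_pow_left₀ (by positivity) (by nlinarith) D
    calc (K : ℝ) * ((a : ℝ) * N + 1) ^ D ≤ K * ((a + 1) * N) ^ D :=
          mul_le_mul_of_nonneg_left h4 (Nat.cast_nonneg _)
      _ = N ^ D * (K * (a + 1) ^ D) := by rw [mul_pow]; ring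
      _ ≤ N ^ D * (K * (a + 1) ^ D + 1) :=
          mul_le_mul_of_nonneg_left (by linarith) (by positivity)
      _ < 1 * 2 ^ N := hN
      _ = 2 ^ N := one_mul _
  exact_mod_cast h3

section Words

variable {H : Type u} [Group H]

/-- The ordered products of the elements `y i`, `i < n`, with `e i = true`. -/
def wprod (y : ℕ → H) (e : ℕ → Bool) : ℕ → H
  | 0 => 1
  | n + 1 => wprod y e n * (if e n then y n else 1)

theorem wprod_mem (y : ℕ → H) (e : ℕ → Bool) (n : ℕ) :
    wprod y e n ∈ Subgroup.closure {x | ∃ i < n, x = y i} := by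
  induction n with
  | zero => exact Subgroup.one_mem _
  | succ n ih =>
    refine Subgroup.mul_mem _ (Subgroup.closure_mono ?_ ih) ?_
    · rintro x ⟨i, hi, rfl⟩
      exact ⟨i, by omega, rfl⟩
    · split_ifs
      · exact Subgroup.subset_closure ⟨n, by omega, rfl⟩
      · exact Subgroup.one_mem _

theorem wprod_inj (y : ℕ → H)
    (hy : ∀ n, y n ∉ Subgroup.closure {x | ∃ i < n, x = y i}) (e e' : ℕ → Bool) (n : ℕ)
    (h : wprod y e n = wprod y e' n) : ∀ i < n, e i = e' i := by
  induction n with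
  | zero => intro i hi; omega
  | succ n ih =>
    rw [wprod, wprod] at h
    have hn : e n = e' n := by
      by_contra hne
      have hcase : (e n = true ∧ e' n = false) ∨ (e n = false ∧ e' n = true) := by
        cases h1 : e n <;> cases h2 : e' n <;> simp_all
      rcases hcase with ⟨h1, h2⟩ | ⟨h1, h2⟩
      · rw [h1, h2] at h
        simp only [if_true, Bool.false_eq_true, if_false, mul_one] at h
        refine hy n ?_
        have : y n = (wprod y e n)⁻¹ * wprod y e' n := by rw [← h]; group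
        rw [this]
        exact Subgroup.mul_mem _ (Subgroup.inv_mem _ (wprod_mem y e n)) (wprod_mem y e' n)
      · rw [h1, h2] at h
        simp only [if_true, Bool.false_eq_true, if_false, mul_one] at h
        refine hy n ?_
        have : y n = (wprod y e' n)⁻¹ * wprod y e n := by rw [h]; group
        rw [this]
        exact Subgroup.mul_mem _ (Subgroup.inv_mem _ (wprod_mem y e' n)) (wprod_mem y e n)
    rw [hn] at h
    have h1 := mul_right_cancel h
    intro i hi
    by_cases hin : i = n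
    · rw [hin, hn]
    · exact ih h1 i (by omega)

end Words

section

variable {H : Type u} {G : Type v} [Group H] [Group G] {k : ℕ}
  {η : G →* Multiplicative (Fin k → ℤ)} {F : H → G} {F' : G → H} {χ : H → Fin k → ℝ} {C₀ : ℕ}

/-- Every element is the end of a path with steps in a symmetric generating set. -/
theorem exists_path_gen {S : Set H} (hS : Subgroup.closure S = ⊤) (χ : H → Fin k → ℝ) (g : H) :
    ∃ n r : ℕ, PathTo (SH χ r) (S ∪ S⁻¹ ∪ {1}) n 1 g := by
  obtain ⟨n, l, -, hl, hp⟩ := exists_mem_Bl (A := S) (x := g) (by rw [hS]; trivial)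
  obtain ⟨r, hr⟩ := exists_SH_finite
    (S := (fun j => (1 : H) * (l.take j).prod) '' Set.Iic l.length) ((Set.finite_Iic _).image _) χ
  refine ⟨l.length, r, ?_⟩
  have := PathTo.of_list (P := SH χ r) (B := S ∪ S⁻¹ ∪ {1}) l 1 (fun a ha => Or.inl (hl a ha))
    (fun j hj => hr ⟨j, hj, rfl⟩)
  rwa [hp, one_mul] at this

theorem Data.pow (h : Data η F F' χ C₀) (t : H) (n : ℕ) (i : Fin k) :
    χ (t ^ n) i = n * χ t i := by
  induction n with
  | zero => rw [pow_zero, h.one]; simp
  | succ n ih => rw [pow_succ, h.mul, ih]; push_cast; ring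

/-- The Milnor step: if `χ t` is small, the conjugates of `y ∈ ker χ` by the powers of `t`
generate a finitely generated group. -/
theorem Data.milnor (h : Data η F F' χ C₀) (hη : Function.Surjective η)
    {A : Set G} (hA : A.Finite)
    (hcl : Subgroup.closure A = η.ker) {C D : ℕ} (hgr : ∀ n, (Bl A n).ncard ≤ C * (n + 1) ^ D)
    {S : Set H} (hSf : S.Finite) (hS : Subgroup.closure S = ⊤) :
    ∃ c : ℝ, 0 < c ∧ ∀ t ∈ SH χ c, ∀ y : H, (∀ i, χ y i = 0) →
      ∃ n : ℕ, t ^ n * y * (t ^ n)⁻¹ ∈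
        Subgroup.closure {x | ∃ i < n, x = t ^ i * y * (t ^ i)⁻¹} := by
  classical
  set B : Set H := S ∪ S⁻¹ ∪ {1} with hB
  have hBf : B.Finite := (hSf.union hSf.inv).union (Set.finite_singleton 1)
  have h1B : (1 : H) ∈ B := Or.inr rfl
  obtain ⟨C', hC', hcount⟩ := h.count hη hA hcl hgr hBf
  -- `C' ≤ 2 ^ p`
  obtain ⟨p, hp1, hp⟩ : ∃ p : ℕ, 1 ≤ p ∧ C' ≤ 2 ^ p :=
    ⟨C', hC', Nat.lt_two_pow_self.le⟩
  refine ⟨1 / (2 * p), by positivity, fun t ht y hy => ?_⟩
  by_contra hcon
  push Not at hcon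
  set z : ℕ → H := fun i => t ^ i * y * (t ^ i)⁻¹ with hz
  have hzn : ∀ n, z n ∉ Subgroup.closure {x | ∃ i < n, x = z i} := hcon
  -- the two steps
  obtain ⟨n₁, r₁, hp₁⟩ := exists_path_gen hS χ t
  obtain ⟨n₂, r₂, hp₂⟩ := exists_path_gen hS χ (y * t)
  set ℓ := max n₁ n₂ with hℓ
  set r := max r₁ r₂ with hr
  have hq₁ : PathTo (SH χ (r : ℝ)) B ℓ 1 t :=
    (hp₁.mono (SH_mono (by exact_mod_cast le_max_left _ _)) subset_rfl).extend h1B (le_max_left _ _)
  have hq₂ : PathTo (SH χ (r : ℝ)) B ℓ 1 (y * t) :=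
    (hp₂.mono (SH_mono (by exact_mod_cast le_max_right _ _)) subset_rfl).extend h1B
      (le_max_right _ _)
  -- the points
  have hχz : ∀ e n i, χ (wprod z e n) i = 0 := by
    intro e n i
    induction n with
    | zero => exact h.one i
    | succ n ih =>
      rw [wprod, h.mul, ih]
      split_ifs
      · rw [hz]
        simp only [h.mul, h.inv, hy]
        ring
      · rw [h.one]; ring
  have hpt : ∀ (N : ℕ) (e : ℕ → Bool) (n : ℕ), n ≤ 2 * p * N →
      PathTo (SH χ ((N + r : ℕ) : ℝ)) B (n * ℓ) 1 (wprod z e n * t ^ n) := by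
    intro N e n
    induction n with
    | zero =>
      intro _
      rw [wprod, pow_zero, mul_one, Nat.zero_mul]
      exact PathTo.refl (fun i => by rw [h.one, abs_zero]; positivity)
    | succ n ih =>
      intro hn
      have h1 := ih (by omega)
      have hbase : wprod z e n * t ^ n ∈ SH χ (N : ℝ) := by
        intro i
        rw [h.mul, hχz, zero_add, h.pow, abs_mul, Nat.abs_cast]
        have h3 : |χ t i| ≤ 1 / (2 * p) := ht i
        have h4 : (n : ℝ) ≤ 2 * p * N := by exact_mod_cast (by omega : n ≤ 2 * p * N)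
        have hp0 : (0 : ℝ) < 2 * p := by positivity
        calc (n : ℝ) * |χ t i| ≤ (2 * p * N) * (1 / (2 * p)) :=
              mul_le_mul h4 h3 (abs_nonneg _) (by positivity)
          _ = N := by field_simp
      have hstep : ∀ w, PathTo (SH χ (r : ℝ)) B ℓ 1 w →
          PathTo (SH χ ((N + r : ℕ) : ℝ)) B ℓ (wprod z e n * t ^ n) (wprod z e n * t ^ n * w) := by
        intro w hw
        have := hw.left (wprod z e n * t ^ n) (P' := SH χ ((N + r : ℕ) : ℝ)) (fun x hx => by
          push_cast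
          exact h.mul_mem hbase hx)
        rwa [mul_one] at this
      have e1 : (n + 1) * ℓ = n * ℓ + ℓ := by ring
      rw [e1, wprod]
      split_ifs with he
      · have h5 := h1.trans (hstep _ hq₂)
        have e2 : wprod z e n * t ^ n * (y * t) = wprod z e n * z n * t ^ (n + 1) := by
          rw [hz, pow_succ]
          group
        rwa [e2] at h5
      · have h5 := h1.trans (hstep _ hq₁)
        have e2 : wprod z e n * t ^ n * t = wprod z e n * 1 * t ^ (n + 1) := by
          rw [mul_one, pow_succ, mul_assoc]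
        rwa [e2] at h5
  -- the counting
  obtain ⟨N, hN⟩ := exists_exp_gt (2 ^ (p * (r + 1))) (2 * p * ℓ) D
  set n := 2 * p * N with hn
  have hcard : 2 ^ n ≤ {x | PathTo (SH χ ((N + r : ℕ) : ℝ)) B (n * ℓ) 1 x}.ncard := by
    let f : (Fin n → Bool) → H := fun e =>
      wprod z (fun i => if h : i < n then e ⟨i, h⟩ else false) n * t ^ n
    have hinj : Function.Injective f := by
      intro e e' hee
      have h1 := mul_right_cancel hee
      have h2 := wprod_inj z hzn _ _ n h1
      funext i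
      have := h2 i i.2
      simpa using this
    have hsub : Set.range f ⊆ {x | PathTo (SH χ ((N + r : ℕ) : ℝ)) B (n * ℓ) 1 x} := by
      rintro _ ⟨e, rfl⟩
      exact hpt N _ n le_rfl
    have h1 : (Set.range f).ncard = 2 ^ n := by
      rw [Set.ncard_eq_toFinset_card', Set.toFinset_range, Finset.card_image_of_injective _ hinj]
      simp
    rw [← h1]
    exact Set.ncard_le_ncard hsub (hcount (N + r) (n * ℓ)).1
  have h1 := hcard.trans (hcount (N + r) (n * ℓ)).2
  have h2 : C' ^ (N + r + 1) ≤ 2 ^ (p * N) * 2 ^ (p * (r + 1)) := by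
    calc C' ^ (N + r + 1) ≤ (2 ^ p) ^ (N + r + 1) := Nat.pow_le_pow_left hp _
      _ = 2 ^ (p * N) * 2 ^ (p * (r + 1)) := by rw [← pow_mul, ← pow_add]; congr 1; ring
  have h3 : 2 ^ n ≤ 2 ^ (p * N) * (2 ^ (p * (r + 1)) * (2 * p * ℓ * N + 1) ^ D) := by
    calc 2 ^ n ≤ C' ^ (N + r + 1) * (n * ℓ + 1) ^ D := h1
      _ ≤ (2 ^ (p * N) * 2 ^ (p * (r + 1))) * (n * ℓ + 1) ^ D := Nat.mul_le_mul_right _ h2
      _ = 2 ^ (p * N) * (2 ^ (p * (r + 1)) * (2 * p * ℓ * N + 1) ^ D) := by
          rw [hn, mul_assoc]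
          congr 3
          ring
  have h4 : 2 ^ n < 2 ^ (p * N) * 2 ^ N :=
    h3.trans_lt (Nat.mul_lt_mul_of_pos_left hN (Nat.pow_pos (by norm_num)))
  have h5 : 2 ^ (p * N) * 2 ^ N ≤ 2 ^ n := by
    rw [← pow_add]
    refine Nat.pow_le_pow_right (by norm_num) ?_
    rw [hn]
    nlinarith
  omega

end

end Vale.Agent.P188.H789
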