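import Vale.Agent.P188.H754.Inst2
import Vale.Agent.P188.Z1.Fat

/-!
# Route A: slab paths

A path of length at most `exp (c R)` with heights at most `2 R` ends at a point `s' * ex y` with `s'`
of length `O(R)` and `ex y` neutral of size at most `exp (δ R)`.
-/

set_option linter.all false

open MeasureTheory Set
open Vale.Agent.P188.Z1 (RModel)
open Vale.Agent.P188.H530 (hgt)

namespace Vale.Agent.P188.H789

variable {S : Type} [Group S] [MeasurableSpace S] {Γ : Type} [Group Γ]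
  {V : Type} [AddCommGroup V] [Module ℝ V] {k : ℕ} (M : RModel S Γ V k)

/-- decomposition of a path -/
theorem path_dec (n₀ : ℕ) (p : ℕ → S) (j : ℕ) (h0 : p 0 = 1)
    (hst : ∀ i < j, ∃ v ∈ M.e, ∃ d ∈ M.CB n₀, (p i)⁻¹ * p (i + 1) = M.ex v * d ∧
      (M.l (M.ex v) : ℝ) ≤ n₀) :
    ∃ (c e : ℕ → S), (∀ i ≤ j, c i ∈ M.CB (i * n₀)) ∧ (∀ i ≤ j, M.θ (c i) = M.θ (p i)) ∧
      (∀ i < j, e i ∈ M.E ∧ (M.l (e i) : ℝ) ≤ n₀) ∧
      ∀ i ≤ j, p i = ((List.range i).map fun t => c t * e t * (c t)⁻¹).prod * c i := by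
  classical
  have hst' : ∀ i, ∃ v ∈ M.e, ∃ d : S, i < j → (d ∈ M.CB n₀ ∧ (p i)⁻¹ * p (i + 1) = M.ex v * d ∧
      (M.l (M.ex v) : ℝ) ≤ n₀) := by
    intro i
    by_cases hi : i < j
    · obtain ⟨v, hv, d, hd, h1, h2⟩ := hst i hi
      exact ⟨v, hv, d, fun _ => ⟨hd, h1, h2⟩⟩
    · exact ⟨0, zero_mem _, 1, fun h => absurd h hi⟩
  choose v hv d hd using hst'
  set c : ℕ → S := fun i => ((List.range i).map d).prod with hc
  have hcs : ∀ i, c (i + 1) = c i * d i := by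
    intro i
    simp only [hc, List.range_succ, List.map_append, List.prod_append, List.map_singleton,
      List.prod_singleton]
  have hc0 : c 0 = 1 := by simp [hc]
  have hθe : ∀ i, M.θ (M.ex (v i)) = 0 := fun i => M.θ_ex _
  refine ⟨c, fun i => M.ex (v i), ?_, ?_, ?_, ?_⟩
  · intro i
    induction i with
    | zero => intro _; rw [hc0]; exact M.one_mem_CB _
    | succ i ih =>
      intro hi
      rw [hcs, Nat.succ_mul]
      exact M.CB_mul (ih (by omega)) (hd i (by omega)).1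
  · intro i
    induction i with
    | zero => intro _; rw [hc0, h0]
    | succ i ih =>
      intro hi
      have h1 := (hd i (by omega)).2.1
      have h2 : p (i + 1) = p i * (M.ex (v i) * d i) := by rw [← h1]; group
      rw [hcs, h2, M.θ_mul, M.θ_mul, M.θ_mul, ih (by omega), hθe, zero_add]
  · intro i hi
    exact ⟨(M.mem_E _).2 ⟨v i, hv i, rfl⟩, (hd i hi).2.2⟩
  · intro i
    induction i with
    | zero => intro _; simp [hc0, h0]
    | succ i ih =>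
      intro hi
      have h1 := (hd i (by omega)).2.1
      have h2 : p (i + 1) = p i * (M.ex (v i) * d i) := by rw [← h1]; group
      rw [h2, ih (by omega), hcs]
      simp only [List.range_succ, List.map_append, List.prod_append, List.map_singleton,
        List.prod_singleton]
      group

/-- an integral vector with bounded coordinates -/
theorem exists_int (c : S) {R : ℝ} (h : ‖M.θ c‖ ≤ R) :
    ∃ w : Fin k → ℤ, (∀ i, |(w i : ℝ)| ≤ R) ∧ M.η c = Multiplicative.ofAdd w := by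
  refine ⟨Multiplicative.toAdd (M.η c), fun i => ?_, rfl⟩
  have h1 := (norm_le_pi_norm (M.θ c) i).trans h
  rw [Real.norm_eq_abs] at h1
  exact h1

/-- the size of the neutral part -/
theorem poly_bd {C0 R c δ n₀ j m : ℝ} {deg : ℕ} (hC0 : 1 ≤ C0) (hR : 0 ≤ R) (hc0 : 0 < c)
    (hc2 : c * (2 * (deg + 1)) ≤ δ) (hn0 : 0 ≤ n₀) (hj0 : 0 ≤ j) (hj : j ≤ Real.exp (c * R))
    (h : (n₀ + 3 * C0 + 3) * (1 + R) ≤ Real.exp (c * R))
    (hm : m ≤ C0 * (1 + 2 * R) + 1 + j * n₀) (hm0 : 0 ≤ m) :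
    C0 * (1 + m) ^ deg ≤ Real.exp (δ * R) := by
  set X := Real.exp (c * R) with hX
  have hX1 : 1 ≤ X := Real.one_le_exp (by positivity)
  have g1 : 1 + m ≤ X ^ 2 := by
    have g5 : j * n₀ ≤ X * n₀ := mul_le_mul_of_nonneg_right hj hn0
    have g7 : (n₀ + 3 * C0 + 3) * (1 + R) * X ≤ X * X :=
      mul_le_mul_of_nonneg_right h (by positivity)
    have g8 : (3 * C0 + 3) * (1 + R) * 1 ≤ (3 * C0 + 3) * (1 + R) * X :=
      mul_le_mul_of_nonneg_left hX1 (by positivity)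
    have g9 : X * n₀ ≤ n₀ * (1 + R) * X := by
      have : 0 ≤ n₀ * X * R := by positivity
      nlinarith
    have g10 : C0 * (1 + 2 * R) + 2 ≤ (3 * C0 + 3) * (1 + R) := by nlinarith
    rw [sq]
    nlinarith
  have g10 : (1 + m) ^ deg ≤ X ^ (2 * deg) := by
    rw [pow_mul]
    exact pow_le_pow_left₀ (by linarith) g1 _
  have g11 : C0 ≤ X := by
    refine le_trans ?_ h
    nlinarith [mul_nonneg hn0 hR]
  calc C0 * (1 + m) ^ deg ≤ X * X ^ (2 * deg) :=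
        mul_le_mul g11 g10 (by positivity) (by positivity)
    _ = X ^ (2 * deg + 1) := by ring
    _ = Real.exp (((2 * deg + 1 : ℕ) : ℝ) * (c * R)) := by rw [hX, ← Real.exp_nat_mul]
    _ ≤ Real.exp (δ * R) := by
        refine Real.exp_le_exp.2 ?_
        have g12 := mul_le_mul_of_nonneg_right hc2 hR
        have g13 : 0 ≤ c * R := by positivity
        push_cast
        nlinarith

/-- **Slab paths.** -/
theorem slab_dec (hX : M.Extra) : ∃ C' : ℕ, ∀ (A : ℕ) (δ : ℝ), 0 < δ → ∃ c : ℝ, 0 < c ∧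
    ∃ R1 : ℕ, ∀ R : ℕ, R1 ≤ R → ∀ j : ℕ, (j : ℝ) ≤ Real.exp (c * R) → ∀ z : ℕ → S,
    (∀ i < j, M.l ((z i)⁻¹ * z (i + 1)) ≤ A) → (∀ i ≤ j, ‖M.θ (z i) - M.θ (z 0)‖ ≤ 2 * R) →
    ∃ s', ∃ y ∈ M.Vw 0, (z 0)⁻¹ * z j = s' * M.ex y ∧ M.l s' ≤ C' * R ∧
      M.nm y ≤ Real.exp (δ * R) := by
  have hC0 := M.one_le_C0
  obtain ⟨Cl, hCl1, hCl⟩ := M.l_CB
  obtain ⟨Ct, hCt1, hCt⟩ := M.l_τ
  obtain ⟨Cp, hCp0, hCp⟩ := H754.E_prod_R M hX
  obtain ⟨Cc, hCc0, hCc⟩ := H754.con_R M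
  refine ⟨⌈Cp * (Cc * 4 + 3) + 4 * Ct⌉₊, fun A δ hδ => ?_⟩
  -- constants
  set n₀ : ℕ := ⌈M.C0 * A⌉₊ + A + ⌈Cl * ⌈M.C0 * A⌉₊⌉₊ with hn₀
  set c : ℝ := min (1 / 2) (δ / (2 * (M.deg + 1))) with hc
  have hc0 : 0 < c := by positivity
  have hc1 : c ≤ 1 / 2 := min_le_left _ _
  have hc2 : c * (2 * (M.deg + 1)) ≤ δ := by
    have := min_le_right (1 / 2) (δ / (2 * ((M.deg : ℝ) + 1)))
    rw [← hc, le_div_iff₀ (by positivity)] at this
    exact this
  -- largeness of `R`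
  obtain ⟨r1, hr1⟩ := Filter.eventually_atTop.1 (Z1.ev_poly ((n₀ : ℝ) + 3 * M.C0 + 3) 1
    (ε := c) hc0)
  obtain ⟨R1, hR1⟩ := exists_nat_ge (max r1 ((n₀ : ℝ) + Real.log (n₀ + 1) + 2))
  refine ⟨c, hc0, R1, fun R hR j hj z hst hht => ?_⟩
  have hR' : (R1 : ℝ) ≤ R := by exact_mod_cast hR
  have hRr : r1 ≤ R := ((le_max_left _ _).trans hR1).trans hR'
  have hRn : (n₀ : ℝ) + Real.log (n₀ + 1) + 2 ≤ R := ((le_max_right _ _).trans hR1).trans hR'
  have hn0 : (0 : ℝ) ≤ n₀ := Nat.cast_nonneg _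
  have hlogn : 0 ≤ Real.log ((n₀ : ℝ) + 1) := Real.log_nonneg (by linarith)
  have hR2 : (2 : ℝ) ≤ R := by linarith
  have hj0 : (0 : ℝ) ≤ j := Nat.cast_nonneg _
  have hexp1 : 1 ≤ Real.exp (c * R) := Real.one_le_exp (by positivity)
  have hlogj : Real.log ((j : ℝ) + 1) ≤ R / 2 + 1 := by
    rw [Real.log_le_iff_le_exp (by linarith)]
    have h1 : Real.exp (c * R) ≤ Real.exp (R / 2) := Real.exp_le_exp.2 (by nlinarith)
    have h2 : (2 : ℝ) ≤ Real.exp 1 := by have := Real.add_one_le_exp (1 : ℝ); linarith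
    have h3 : 1 ≤ Real.exp (R / 2) := hexp1.trans h1
    rw [Real.exp_add]
    nlinarith
  have hlogj0 : 0 ≤ Real.log ((j : ℝ) + 1) := Real.log_nonneg (by linarith)
  -- the path
  obtain ⟨cc, e, h1, h2, h3, h4⟩ := path_dec M n₀ (fun i => (z 0)⁻¹ * z i) j (by simp) (by
    intro i hi
    have e1 : ((z 0)⁻¹ * z i)⁻¹ * ((z 0)⁻¹ * z (i + 1)) = (z i)⁻¹ * z (i + 1) := by group
    simp only [e1]
    obtain ⟨v, hv, d, hd, hs⟩ := M.dec ((z i)⁻¹ * z (i + 1))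
    have hl : (M.l ((z i)⁻¹ * z (i + 1)) : ℝ) ≤ A := by exact_mod_cast hst i hi
    have hd' : d ∈ M.CB ⌈M.C0 * A⌉₊ :=
      M.CB_mono (Nat.ceil_mono (mul_le_mul_of_nonneg_left hl (by linarith))) hd
    refine ⟨v, hv, d, M.CB_mono (by omega) hd', hs, ?_⟩
    have e2 : M.ex v = ((z i)⁻¹ * z (i + 1)) * d⁻¹ := by rw [hs]; group
    have h5 : (M.l (M.ex v) : ℝ) ≤ M.l ((z i)⁻¹ * z (i + 1)) + M.l d⁻¹ := by
      rw [e2]; exact_mod_cast M.len.mul _ _
    rw [M.len.inv] at h5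
    have h6 := hCl _ d hd'
    have h7 := Nat.le_ceil (Cl * (⌈M.C0 * A⌉₊ : ℝ))
    have h8 : (n₀ : ℝ) = ⌈M.C0 * A⌉₊ + A + ⌈Cl * ⌈M.C0 * A⌉₊⌉₊ := by rw [hn₀]; push_cast; ring
    have h9 : (0 : ℝ) ≤ ⌈M.C0 * A⌉₊ := Nat.cast_nonneg _
    linarith)
  have hθc : ∀ i ≤ j, ‖M.θ (cc i)‖ ≤ 2 * R := by
    intro i hi
    rw [h2 i hi, M.θ_inv_mul]
    exact hht i hi
  set L : ℝ := Cc * (n₀ + 2 * R + (Real.log (n₀ + 1) + Real.log (j + 1)) + 1) with hL
  have hL0 : 0 ≤ L := by positivity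
  set es : List S := (List.range j).map fun t => cc t * e t * (cc t)⁻¹ with hes
  have hesl : es.length = j := by rw [hes]; simp
  have h5 : (M.l es.prod : ℝ) ≤ Cp * (L + Real.log (es.length + 1) + 1) := by
    refine hCp L es hL0 fun x hx => ?_
    rw [hes, List.mem_map] at hx
    obtain ⟨t, ht, rfl⟩ := hx
    rw [List.mem_range] at ht
    obtain ⟨g1, g2⟩ := h3 t ht
    refine ⟨M.E_normal.conj_mem _ g1 _, ?_⟩
    refine (hCc _ _ (h1 t ht.le) _ g1).trans ?_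
    rw [hL]
    refine mul_le_mul_of_nonneg_left ?_ hCc0
    have g3 := hθc t ht.le
    have g4 : Real.log (((t * n₀ : ℕ) : ℝ) + 1) ≤ Real.log (n₀ + 1) + Real.log (j + 1) := by
      rw [← Real.log_mul (by linarith) (by linarith)]
      refine Real.log_le_log (by positivity) ?_
      push_cast
      have g5 : (t : ℝ) ≤ j := by exact_mod_cast ht.le
      nlinarith
    linarith
  rw [hesl] at h5
  have hLR : L ≤ Cc * 4 * R := by
    rw [hL, mul_assoc]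
    refine mul_le_mul_of_nonneg_left ?_ hCc0
    linarith
  have h6 : (M.l es.prod : ℝ) ≤ Cp * (Cc * 4 + 3) * R := by
    refine h5.trans ?_
    rw [mul_assoc]
    refine mul_le_mul_of_nonneg_left ?_ hCp0
    nlinarith
  -- the Cartan part
  obtain ⟨w, hw, hηw⟩ := exists_int M (cc j) (hθc j le_rfl)
  have h7 := hCt w (2 * R) (by positivity) hw
  have hcb := M.CB_mul (M.CB_inv (M.τ_mem_CB (by positivity : (0 : ℝ) ≤ 2 * R) hw)) (h1 j le_rfl)
  obtain ⟨y, hy, hy1, hy2⟩ := M.C_ker _ _ hcb (by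
    rw [map_mul, map_inv, M.η_τ, hηw, inv_mul_cancel])
  refine ⟨es.prod * M.τ w, y, hy, ?_, ?_, ?_⟩
  · have h40 : (z 0)⁻¹ * z j = es.prod * cc j := h4 j le_rfl
    rw [h40, hy1]
    group
  · have h8 : (M.l (es.prod * M.τ w) : ℝ) ≤ M.l es.prod + M.l (M.τ w) := by
      exact_mod_cast M.len.mul _ _
    have h9 : (M.l (es.prod * M.τ w) : ℝ) ≤ (Cp * (Cc * 4 + 3) + 4 * Ct) * R := by
      nlinarith
    have h10 : (M.l (es.prod * M.τ w) : ℝ) ≤
        ((⌈Cp * (Cc * 4 + 3) + 4 * Ct⌉₊ * R : ℕ) : ℝ) := by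
      push_cast
      exact h9.trans (mul_le_mul_of_nonneg_right (Nat.le_ceil _) (by linarith))
    exact_mod_cast h10
  · refine hy2.trans ?_
    have g2 := (Nat.ceil_lt_add_one (by positivity : (0 : ℝ) ≤ M.C0 * (1 + 2 * R))).le
    have g4 := hr1 R hRr
    rw [pow_one] at g4
    exact poly_bd hC0 (by linarith) hc0 hc2 hn0 hj0 hj g4 (by
      push_cast
      linarith) (by positivity)

end Vale.Agent.P188.H789
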