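import Vale.Agent.P188.H382.AsmA
import Vale.Agent.P188.H789.CmpA3
import Vale.Agent.P188.H789.SlabDec
import Vale.Agent.P188.H83.Net
import Vale.Agent.P188.Z1.NDev

/-!
# Route A for one real model, with neutral nets

`outA_model3`: `InputA`, the matching boxes and the facts on the real model give `Cmp`.
-/

set_option linter.all false

open MeasureTheory Set

namespace Vale.Agent.P188.H789

open Vale.Agent.P188 Agent.P188.H428 Vale.Agent.P188.H382
open Vale.Agent.P188.Z1 (RModel)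
open Vale.Agent.P188.H530 (hgt)

section

variable {S : Type} [Group S] [MeasurableSpace S] {Γ : Type} [Group Γ]
  {V : Type} [AddCommGroup V] [Module ℝ V] {k : ℕ} (M : RModel S Γ V k)

/-- neutral elements of size `exp (δ R)` -/
def NeM (δ : ℝ) (R : ℕ) : Set S := {ν | ∃ y ∈ M.Vw 0, M.nm y ≤ Real.exp (δ * R) ∧ ν = M.ex y}

/-- matching boxes -/
def HB4 (l : S → ℕ) : Prop := ∃ M' C₃ : ℕ, ∀ ε : ℝ, 0 < ε → ∃ Cε : ℝ, ∀ R : ℕ,
  ∃ P X1 X2 : Finset S, HBox l M' C₃ Cε ε R P X1 X2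

theorem NeM_inv (δ : ℝ) (R : ℕ) : ∀ ν ∈ NeM M δ R, ν⁻¹ ∈ NeM M δ R := by
  rintro ν ⟨y, hy, hn, rfl⟩
  exact ⟨-y, (M.Vw 0).neg_mem hy, by rwa [map_neg_eq_map], (M.ex_neg y).symm⟩

theorem NeM_mono (δ δ' : ℝ) (R : ℕ) (h : δ ≤ δ') : NeM M δ R ⊆ NeM M δ' R := by
  rintro ν ⟨y, hy, hn, rfl⟩
  exact ⟨y, hy, hn.trans (Real.exp_le_exp.2 (mul_le_mul_of_nonneg_right h (Nat.cast_nonneg R))),
    rfl⟩

variable {η : Γ →* Multiplicative (Fin k → ℤ)}
variable {H : Type} [Group H] {F : H → Γ} {F' : Γ → H}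

open Pointwise in
/-- **Route A for one model.** -/
theorem outA_model3 (hX : M.Extra) (B : M.NatBox) (hB : B.Fine) (hη : M.η.comp M.inG = η)
    (hS : HasMean S) (hG : HasMean Γ) {c : ℕ}
    (hnil : lcs M.E c = ⊥) {p Cg : ℕ} (hCg : 1 ≤ Cg) (hgen : Gen M.l M.E p Cg) (hHB : HB4 M.l)
    [Group.FG H] (hF : Coarse F) (hF' : Coarse F') (hFF : CloseId (F' ∘ F))
    (hFF' : CloseId (F ∘ F')) (H₀ : Subgroup H) (hH₀ : H₀.FiniteIndex)
    (hin : InputA M {Ψ | ∃ h ∈ H₀, Ψ = Psi F F' h}) :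
    ∃ T : Set H₀, T.Finite ∧ Subgroup.closure T = ⊤ ∧ ∃ μ : (H₀ → ℝ) → ℝ, IsMean μ ∧
      (∀ (g : H₀) f, Bdd f → μ (fun x => f (x * g)) = μ f) ∧
      Cmp μ (hts η fun x : H₀ => F x) (T ∪ T⁻¹ ∪ {1}) := by
  classical
  haveI := M.E_normal
  obtain ⟨F₀', c1, c2, c3, c4⟩ := coarse_restrict hF hF' hFF hFF' H₀ hH₀
  haveI : Group.FG H₀ := by
    haveI := hH₀
    exact Subgroup.fg_of_index_ne_zero H₀
  obtain ⟨T, hTf, hT⟩ := exists_fin_gen (G := H₀) inferInstance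
  obtain ⟨K, hK⟩ := fam_QIm M c1 c2 c3 c4
  obtain ⟨C1, Mc, HI⟩ := hin
  obtain ⟨r, hr0, hr⟩ := psi_close M hF hF' hFF c4
  have hK0 : 0 ≤ K := (hK 1).K_nonneg
  have hC0 := M.C0_pos
  have key := cmp_A3 M.l M.len M.E c hnil p Cg hCg hgen C1 Mc hS hG (rnd M)
    (fun g => M.l (M.inG g)) (2 * ⌈M.C0⌉₊ + 1) (fun q s => rnd_fl_le M q s) ⌈M.C0⌉₊
    (fun q => rnd_r_le M q) η (fun x : H₀ => F x) F₀' c1 c3 c4
    (M.C0 * (K + 1) * (2 * M.C0 + 1) * 2) (by positivity) ?_ (NeM M) (NeM_inv M) (NeM_mono M)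
    ?_ ?_ ?_ hHB ?_
  · obtain ⟨ν, h1, h2, h3⟩ := key
    exact ⟨T, hTf, hT, ν, h1, h2, h3 _ ((hTf.union hTf.inv).union (Set.finite_singleton 1))⟩
  · -- Lipschitz
    rintro ⟨h, x⟩ g
    have e1 : dispF η (fun x : H₀ => F x) F₀' ((prodAct H₀ Γ).act (h, x) g) -
        dispF η (fun x : H₀ => F x) F₀' (h, x) =
        M.θ (M.inG ((Psi (fun x : H₀ => F x) F₀' h x)⁻¹ *
          Psi (fun x : H₀ => F x) F₀' h (x * g))) - M.θ (M.inG g) := by
      funext a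
      have h1 : M.θ (M.inG g) a = M.θ (M.inG (x * g)) a - M.θ (M.inG x) a := by
        rw [map_mul, M.θ_mul, Pi.add_apply]; ring
      rw [Pi.sub_apply, Pi.sub_apply, h1, map_mul, map_inv, M.θ_inv_mul, Pi.sub_apply,
        θ_inG M hη, θ_inG M hη, θ_inG M hη, θ_inG M hη]
      unfold dispF Psi prodAct
      simp only
      ring
    rw [e1]
    have h2 := (hK h).lip x g
    have h3 : ‖M.θ (M.inG ((Psi (fun x : H₀ => F x) F₀' h x)⁻¹ *
        Psi (fun x : H₀ => F x) F₀' h (x * g)))‖ ≤ M.C0 * (K * (M.l (M.inG g) + 1)) :=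
      (M.θ_le _).trans (mul_le_mul_of_nonneg_left h2 hC0.le)
    have h4 := M.θ_le (M.inG g)
    rcases Nat.eq_zero_or_pos (M.l (M.inG g)) with h5 | h5
    · have h6 := M.l_zero _ h5
      have h7 : g = 1 := M.inG_inj (h6.trans (map_one _).symm)
      subst h7
      rw [mul_one, inv_mul_cancel, map_one, M.θ_one, sub_zero, norm_zero]
      positivity
    · have h6 : (1 : ℝ) ≤ M.l (M.inG g) := by exact_mod_cast h5
      refine (norm_sub_le _ _).trans ((add_le_add h3 h4).trans ?_)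
      have h7 : M.C0 * (K * (M.l (M.inG g) + 1)) ≤ M.C0 * (K * (M.l (M.inG g) * 2)) :=
        mul_le_mul_of_nonneg_left (mul_le_mul_of_nonneg_left (by linarith) hK0) hC0.le
      have h8 : M.C0 * (K + 1) * 1 * 2 * (M.l (M.inG g) : ℝ) ≤
          M.C0 * (K + 1) * (2 * M.C0 + 1) * 2 * (M.l (M.inG g) : ℝ) := by
        have : (0 : ℝ) ≤ M.C0 * (K + 1) := by positivity
        gcongr
        linarith
      have h9 : 0 ≤ M.C0 * (M.l (M.inG g) : ℝ) := by positivity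
      refine le_trans ?_ h8
      nlinarith
  · -- slab paths
    obtain ⟨C', hC'⟩ := slab_dec M hX
    refine ⟨C', fun A δ hδ => ?_⟩
    obtain ⟨c, hc, R1, H⟩ := hC' A δ hδ
    obtain ⟨R2, hR2⟩ := exists_nat_ge (2 * (M.C0 * M.C0))
    refine ⟨c, hc, R1 + R2, fun R hR j hj z hz hconf => ?_⟩
    have hRr : 2 * (M.C0 * M.C0) ≤ R := hR2.trans (by exact_mod_cast (by omega : R2 ≤ R))
    obtain ⟨s', y, hy, h1, h2, h3⟩ := H R (by omega) j hj z hz (by
      intro i hi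
      have h6 := hconf i hi
      have h7 : ‖M.f id (z i) - M.f id (z 0)‖ ≤ R := by
        rw [pi_norm_le_iff_of_nonneg (Nat.cast_nonneg R)]
        intro b
        rw [Real.norm_eq_abs, Pi.sub_apply, ← htG_eq M hη]
        exact h6 b
      have h8 := f_id_le M (z i)
      have h9 := f_id_le M (z 0)
      have e : M.θ (z i) - M.θ (z 0) = -(M.f id (z i) - M.θ (z i)) +
          ((M.f id (z 0) - M.θ (z 0)) + (M.f id (z i) - M.f id (z 0))) := by abel
      rw [e]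
      refine (norm_add_le _ _).trans ?_
      have h10 := norm_add_le (M.f id (z 0) - M.θ (z 0)) (M.f id (z i) - M.f id (z 0))
      rw [norm_neg]
      linarith)
    exact ⟨s', M.ex y, ⟨y, hy, h3, rfl⟩, h1, h2⟩
  · -- nets
    obtain ⟨C, C₁, hC₁, H⟩ := H83.neutral_net B
    refine ⟨C, C₁, hC₁, fun δ hδ R => ?_⟩
    obtain ⟨Nt, h1, h2, h3⟩ := H δ hδ R
    refine ⟨Nt, h1, h2, ?_⟩
    rintro ν ⟨y, hy, hn, rfl⟩
    exact h3 y hy hn
  · -- neutral displacements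
    intro ξ hξ
    obtain ⟨c₁, δ₀, hc₁, hδ₀, R1, H⟩ := Z1.neutral_dev M B hB K (ξ / 2) (by positivity)
    obtain ⟨R2, hR2⟩ := exists_nat_ge (4 * (M.C0 * M.C0) / ξ)
    refine ⟨c₁, δ₀, hc₁, hδ₀, R1 + R2, fun R hR => ?_⟩
    have hRr : 4 * (M.C0 * M.C0) / ξ ≤ R := hR2.trans (by exact_mod_cast (by omega : R2 ≤ R))
    rw [div_le_iff₀ hξ] at hRr
    obtain ⟨T, hT, H⟩ := H R (by omega)
    refine ⟨T, hT, ?_⟩
    rintro h Y ν ⟨y, hy, hn, rfl⟩
    refine le_trans ?_ (H _ _ (hK h) Y y hy hn)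
    have e0 : ∀ s, dispF η (fun x : H₀ => F x) F₀' (h, (rnd M).fl s) =
        dsp M (Psi (fun x : H₀ => F x) F₀' h) s := fun s =>
      congrFun (dispF_eq' M hη (fun x : H₀ => F x) F₀' h) s
    have hsub : (T.filter fun t => ξ * R < ‖dispF η (fun x : H₀ => F x) F₀'
        (h, (rnd M).fl (Y * t * M.ex y)) - dispF η (fun x : H₀ => F x) F₀'
          (h, (rnd M).fl (Y * t))‖) ⊆
        (T.filter fun t => ξ / 2 * R < ‖M.f (Psi (fun x : H₀ => F x) F₀' h) (Y * t * M.ex y) -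
          M.f (Psi (fun x : H₀ => F x) F₀' h) (Y * t)‖) := by
      intro t ht
      rw [Finset.mem_filter] at ht ⊢
      refine ⟨ht.1, ?_⟩
      have h1 := ht.2
      rw [e0, e0] at h1
      unfold dsp at h1
      have h8 := f_id_le M (Y * t * M.ex y)
      have h9 := f_id_le M (Y * t)
      rw [M.θ_mul (Y * t), M.θ_ex, add_zero] at h8
      set a := M.f (Psi (fun x : H₀ => F x) F₀' h) (Y * t * M.ex y) with ha
      set b := M.f (Psi (fun x : H₀ => F x) F₀' h) (Y * t) with hb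
      set a' := M.f id (Y * t * M.ex y) with ha'
      set b' := M.f id (Y * t) with hb'
      have e2 : a - a' - (b - b') = (a - b) - ((a' - M.θ (Y * t)) - (b' - M.θ (Y * t))) := by
        abel
      rw [e2] at h1
      have h2 := norm_sub_le (a - b) ((a' - M.θ (Y * t)) - (b' - M.θ (Y * t)))
      have h3 := norm_sub_le (a' - M.θ (Y * t)) (b' - M.θ (Y * t))
      nlinarith
    exact_mod_cast Finset.card_le_card hsub
  · intro η0 ε0 hη0 hε0
    obtain ⟨Rm, hRm⟩ := exists_nat_ge (4 * r / η0)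
    obtain ⟨R1, I, φ, B, Bs, b1, b2, b3, b4⟩ := HI (η0 / 2) ε0 (by positivity) hε0 Rm
    refine ⟨R1, I, φ, B, Bs, b2, b3, fun h g => ?_⟩
    rw [dispF_eq M hη]
    refine flatI_close M (b4 _ ⟨h, h.2, rfl⟩ (M.inG g)) (r := r)
      (fun z => hr h (M.inG g * z)) ?_
    have h1 : 4 * r / η0 ≤ R1 := hRm.trans (by exact_mod_cast b1)
    rw [div_le_iff₀ hη0] at h1
    linarith

end

end Vale.Agent.P188.H789
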