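import Vale.Agent.P188.H789.OutA1
import Vale.Agent.P188.H382.AsmB
import Vale.Agent.P188.Z1.Lab8
import Vale.Agent.P188.Z1.DBoxH2
import Vale.Agent.P188.QA7.End4

/-!
# Route A: final assembly
-/

set_option linter.all false

open MeasureTheory Set

universe u v

namespace Vale.Agent.P188.H789

open Vale.Agent.P188 Agent.P188.H428 Vale.Agent.P188.H382
open Vale.Agent.P188.H796 Vale.Agent.P188.H615
open Vale.Agent.P188.Z1 (RModel)

/-- the statement `FLATG` for all real models -/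
def FlatgAll : Prop := ∀ {Γ : Type} [Group Γ] {k : ℕ} {η : Γ →* Multiplicative (Fin k → ℤ)}
  {d n : ℕ} (D : MB η.ker d n) (hη : Function.Surjective η) (F : Set Γ) (t : D.S)
  (M : RModel D.S Γ D.R.V k) (B : M.NatBox), BoxData D hη F t M B → 0 < k → M.FLATG B

/-- the input of route A for all real models -/
def InAll : Prop := ∀ {Γ : Type} [Group Γ] {k : ℕ} {η : Γ →* Multiplicative (Fin k → ℤ)}
  {d n : ℕ} (D : MB η.ker d n) (hη : Function.Surjective η) (F : Set Γ) (t : D.S)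
  (M : RModel D.S Γ D.R.V k) (B : M.NatBox), BoxData D hη F t M B → 0 < k →
  ∀ (K : ℝ) (𝓕 : Set (Γ → Γ)), (∀ Ψ ∈ 𝓕, ∃ Ψ', M.QIm K Ψ Ψ') → M.FLAT1 B 𝓕 → InputA M 𝓕

theorem outA_final (hfl : FlatgAll) (hin : InAll) : OutA := by
  intro Γ _ k η hk hZ H _ _ F F' hF hF' hFF hFF'
  obtain ⟨d, n, D, F₁, t, M, B, hD, hM⟩ := exists_modelA hZ
  have hL : M.LAB B := Z1.Lab.lab B (Z1.DB.dboxH B hM.fine) (Z1.DB.dvolH B)
    (hfl D hZ.surj F₁ t M B hD hk)
  obtain ⟨K₁, hfam⟩ := fam_psi M hF hF' hFF hFF'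
  obtain ⟨N, hN⟩ := hL
  obtain ⟨H₀, hH₀, hcore⟩ := H671.exists_core (H := H) inferInstance N
  obtain ⟨K, hK⟩ := fam_QIm M hF hF' hFF hFF'
  obtain ⟨c, hnil⟩ := hM.nil
  obtain ⟨p, Cg, hCg, hgen⟩ := hM.gen
  have hIA : InputA M {Ψ | ∃ h ∈ H₀, Ψ = Psi F F' h} := by
    refine hin D hZ.surj F₁ t M B hD hk K _ ?_ (hN K₁ H (Psi F F') hfam H₀ hcore)
    rintro _ ⟨h, hh, rfl⟩
    exact ⟨_, hK h⟩
  obtain ⟨T, hT, hT', μ, h1, h2, h3⟩ := outA_model3 M hM.extra B hM.fine hM.eta hM.meanS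
    hM.meanΓ hnil hCg hgen hM.hbox hF hF' hFF hFF' H₀ hH₀ hIA
  exact ⟨H₀, hH₀, T, hT, hT', μ, h1, h2, h3⟩

/-- **The rigidity theorem**, from FLATG and the input of route A. -/
theorem rigidity_A (hfl : FlatgAll) (hin : InAll) {H : Type u} {G : Type v} [Group H] [Group G]
    (hG : IsVirtuallyPolycyclic G) (hQ : QuasiIsometric H G) : IsVirtuallyPolycyclic H :=
  QA7.rigidity_of_outA (outA_final hfl hin) hG hQ

end Vale.Agent.P188.H789
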