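import Vale.Agent.P188.H789.OutA2
import Vale.Agent.P188.H235.InputA
import Vale.Agent.P188.H269.EAdd

/-!
# Route A: the input of route A holds
-/

set_option linter.all false

open MeasureTheory Set

universe u v

namespace Vale.Agent.P188.H789

open Vale.Agent.P188

theorem inAll : InAll := by
  intro Γ _ k η d n D hη F t M B hD hk K 𝓕 hK hfl
  obtain ⟨m, ⟨c⟩⟩ := H269.exists_echart hD
  exact H235.inputA_of_flat1 hD.fine c hK hfl

/-- **The rigidity theorem**, from FLATG. -/
theorem rigidity_of_flatg (hfl : FlatgAll) {H : Type u} {G : Type v} [Group H] [Group G]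
    (hG : IsVirtuallyPolycyclic G) (hQ : QuasiIsometric H G) : IsVirtuallyPolycyclic H :=
  rigidity_A hfl inAll hG hQ

end Vale.Agent.P188.H789
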