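import Vale.Agent.P188.H789.Fin1
import Vale.Agent.P188.H789.OutA2
import Vale.Agent.P188.H131.GeoInst
import Vale.Agent.P188.Z1.InB
import Vale.Agent.P188.H532.EsInput
import Vale.Agent.P188.H650.Dict
import Vale.Agent.P188.Z1.RaysDirs

/-!
# Route B: final assembly
-/

set_option linter.all false

open MeasureTheory Set

universe u v

namespace Vale.Agent.P188.H789

open Vale.Agent.P188 Agent.P188.H428 Vale.Agent.P188.H382
open Vale.Agent.P188.H796 Vale.Agent.P188.H615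
open Vale.Agent.P188.Z1 (RModel)
open Vale.P188.H532 (Geo QIe ES Input)

/-- the field `H_ext` for all real models -/
def HextAll : Prop := ∀ {Γ : Type} [Group Γ] {k : ℕ} {η : Γ →* Multiplicative (Fin k → ℤ)}
  {d n : ℕ} (D : MB η.ker d n) (hη : Function.Surjective η) (F : Set Γ) (t : D.S)
  (M : RModel D.S Γ D.R.V k) (B : M.NatBox), BoxData D hη F t M B →
  ∀ {J : Type} [Fintype J] [DecidableEq J] (Rd : H615.RayD M J),
    ∃ δ₂ : ℝ, 0 < δ₂ ∧ ∀ δ : ℝ, 0 < δ → δ ≤ δ₂ → H131.Ev (H131.FHe Rd (H8.Hp Rd B) δ)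

theorem core_B (hfl : FlatgAll) (hHe : HextAll) : H187.Core := by
  classical
  intro Γ _ k η hZ H _ hfg hc
  obtain ⟨F, F', hF, hF', hFF, hFF'⟩ := hc
  rcases Nat.eq_zero_or_pos k with hk | hk
  · subst hk
    have hS0 : ∃ S : Set (⊤ : Subgroup H), S.Finite ∧ Subgroup.closure S = ⊤ := by
      have : Group.FG (⊤ : Subgroup H) :=
        Group.fg_of_surjective (f := (Subgroup.topEquiv (G := H)).symm.toMonoidHom)
          (Subgroup.topEquiv (G := H)).symm.surjective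
      exact exists_fin_gen this
    obtain ⟨S, hSf, hS⟩ := hS0
    exact vps_of_ES hZ hF hF' hFF hFF' (H₀ := ⊤) inferInstance hSf hS
      (fun ε _ => ⟨0, fun n x _ h i => i.elim0⟩)
      ⟨0, fun R m _ h y _ _ _ a => a.elim0⟩
  · obtain ⟨d, n, D, F₁, t, M, B, hD, hM⟩ := exists_modelA hZ
    have hL : M.LAB B := Z1.Lab.lab B (Z1.DB.dboxH B hM.fine) (Z1.DB.dvolH B)
      (hfl D hZ.surj F₁ t M B hD hk)
    obtain ⟨Φ₁, hΦ⟩ := RModel.exists_rays M
    obtain ⟨Rd, -⟩ := H615.exists_rayD M hΦ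
    obtain ⟨X, v, c, HG⟩ := H131.exists_geo_ext (Rd := Rd) (B := B) hD.bx hD.nat hD.extra
      hD.conc.dict.2.1 hD.conc.dict.2.2 (hHe D hZ.surj F₁ t M B hD Rd)
    obtain ⟨δ₁, hδ₁, HI⟩ := Z1.input_of_flat1 (L := M.ι) B hM.fine Rd
    obtain ⟨G, hGd, hGδ⟩ := HG δ₁ hδ₁
    refine vp_B M hM.extra hZ hM.eta B hL G hGd.fits ?_ ?_ hF hF' hFF hFF'
    · intro K 𝓕 hK h1
      have e : {Ψ | ∃ F ∈ 𝓕, Ψ = lf M F} = lf M '' 𝓕 := by
        ext f
        constructor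
        · rintro ⟨h, hh, rfl⟩; exact ⟨h, hh, rfl⟩
        · rintro ⟨h, hh, rfl⟩; exact ⟨h, hh, rfl⟩
      rw [← e]
      exact HI G (hGd.fitsI hGδ) K 𝓕 hK h1
    · intro Λ 𝓕 h1 h2
      exact Vale.P188.H532.es_of_input G Λ 𝓕 h1 h2

/-- **The rigidity theorem, route B**, from FLATG and `H_ext`. -/
theorem rigidity_B (hfl : FlatgAll) (hHe : HextAll) {H : Type u} {G : Type v} [Group H] [Group G]
    (hG : IsVirtuallyPolycyclic G) (hQ : QuasiIsometric H G) : IsVirtuallyPolycyclic H :=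
  H187.rigidity_of_core (core_B hfl hHe) hG hQ

end Vale.Agent.P188.H789
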