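import Vale.Agent.P188.SG.Len

/-! P188, end game: balls of a subgroup and paths inside a subset. -/

universe u v w

open Pointwise

namespace Vale.Agent.P188.H789

section Bl

variable {X : Type u} [Group X]

/-- Products of at most `n` elements of `A` and their inverses. -/
def Bl (A : Set X) (n : ℕ) : Set X :=
  {x | ∃ l : List X, l.length ≤ n ∧ (∀ a ∈ l, a ∈ A ∨ a⁻¹ ∈ A) ∧ l.prod = x}

theorem one_mem_Bl (A : Set X) (n : ℕ) : (1 : X) ∈ Bl A n := ⟨[], by simp, by simp, by simp⟩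

theorem Bl_mono {A : Set X} {m n : ℕ} (h : m ≤ n) : Bl A m ⊆ Bl A n := by
  rintro x ⟨l, h1, h2, h3⟩
  exact ⟨l, h1.trans h, h2, h3⟩

theorem mul_mem_Bl {A : Set X} {m n : ℕ} {x y : X} (hx : x ∈ Bl A m) (hy : y ∈ Bl A n) :
    x * y ∈ Bl A (m + n) := by
  obtain ⟨l, h1, h2, rfl⟩ := hx
  obtain ⟨l', h1', h2', rfl⟩ := hy
  refine ⟨l ++ l', by rw [List.length_append]; omega, ?_, List.prod_append⟩
  intro a ha
  rcases List.mem_append.mp ha with ha | ha
  exacts [h2 a ha, h2' a ha]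

theorem inv_mem_Bl {A : Set X} {n : ℕ} {x : X} (hx : x ∈ Bl A n) : x⁻¹ ∈ Bl A n := by
  obtain ⟨l, h1, h2, rfl⟩ := hx
  refine ⟨(l.map fun x => x⁻¹).reverse, by simpa using h1, ?_, by rw [List.prod_inv_reverse]⟩
  intro a ha
  rw [List.mem_reverse, List.mem_map] at ha
  obtain ⟨b, hb, rfl⟩ := ha
  rw [inv_inv]
  exact (h2 b hb).symm

theorem mem_Bl_one {A : Set X} {a : X} (ha : a ∈ A) : a ∈ Bl A 1 :=
  ⟨[a], by simp, by simp [ha], by simp⟩

theorem mem_Bl_one' {A : Set X} {a : X} (ha : a ∈ A ∨ a⁻¹ ∈ A) : a ∈ Bl A 1 :=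
  ⟨[a], by simp, by simpa using ha, by simp⟩

theorem conj_mem_Bl {A : Set X} {s : X} {c : ℕ} (hs : ∀ a ∈ A, s * a * s⁻¹ ∈ Bl A c) {n : ℕ}
    {x : X} (hx : x ∈ Bl A n) : s * x * s⁻¹ ∈ Bl A (c * n) := by
  obtain ⟨l, h1, h2, rfl⟩ := hx
  have key : ∀ l : List X, (∀ a ∈ l, a ∈ A ∨ a⁻¹ ∈ A) → s * l.prod * s⁻¹ ∈ Bl A (c * l.length) := by
    intro l
    induction l with
    | nil => intro _; simp [one_mem_Bl]
    | cons a l ih =>
      intro h
      have h1 := ih fun b hb => h b (List.mem_cons_of_mem _ hb)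
      have h2 : s * a * s⁻¹ ∈ Bl A c := by
        rcases h a List.mem_cons_self with h | h
        · exact hs a h
        · have := inv_mem_Bl (hs _ h)
          simpa [mul_assoc] using this
      have h3 := mul_mem_Bl h2 h1
      rw [List.prod_cons, List.length_cons]
      have e : s * (a * l.prod) * s⁻¹ = s * a * s⁻¹ * (s * l.prod * s⁻¹) := by group
      rw [e]
      refine Bl_mono ?_ h3
      ring_nf
      exact le_rfl
  exact Bl_mono (Nat.mul_le_mul_left _ h1) (key l h2)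

theorem Bl_subset_closure (A : Set X) (n : ℕ) : Bl A n ⊆ (Subgroup.closure A : Set X) := by
  rintro x ⟨l, -, h2, rfl⟩
  refine Subgroup.list_prod_mem _ fun a ha => ?_
  rcases h2 a ha with h | h
  · exact Subgroup.subset_closure h
  · simpa using Subgroup.inv_mem _ (Subgroup.subset_closure h)

theorem exists_mem_Bl {A : Set X} {x : X} (hx : x ∈ Subgroup.closure A) : ∃ n, x ∈ Bl A n := by
  have hmem : x ∈ (Subgroup.closure A).toSubmonoid := hx
  rw [Subgroup.closure_toSubmonoid] at hmem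
  obtain ⟨l, hl, hp⟩ := Submonoid.exists_list_of_mem_closure hmem
  exact ⟨l.length, l, le_rfl, fun a ha => hl a ha, hp⟩

theorem Bl_finite {A : Set X} (hA : A.Finite) (n : ℕ) : (Bl A n).Finite := by
  have hU : (A ∪ A⁻¹).Finite := hA.union hA.inv
  have : Finite ↥(A ∪ A⁻¹) := hU.to_subtype
  have h1 := List.finite_length_le (↥(A ∪ A⁻¹)) n
  refine (h1.image (fun l => (l.map Subtype.val).prod)).subset ?_
  rintro x ⟨l, hn, hl, rfl⟩
  have hl' : ∀ a ∈ l, a ∈ A ∪ A⁻¹ := fun a ha => hl a ha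
  refine ⟨l.pmap (fun a h => ⟨a, h⟩) hl', ?_, ?_⟩
  · show (l.pmap (fun a h => (⟨a, h⟩ : ↥(A ∪ A⁻¹))) hl').length ≤ n
    rw [List.length_pmap]
    exact hn
  · simp only
    rw [List.map_pmap]
    simp

theorem exists_Bl_of_finite {A : Set X} {F : Set X} (hF : F.Finite)
    (h : ∀ x ∈ F, x ∈ Subgroup.closure A) : ∃ n, F ⊆ Bl A n := by
  classical
  have h' : ∀ x : X, ∃ n, x ∈ F → x ∈ Bl A n := by
    intro x
    by_cases hx : x ∈ F
    · obtain ⟨n, hn⟩ := exists_mem_Bl (h x hx)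
      exact ⟨n, fun _ => hn⟩
    · exact ⟨0, fun h => absurd h hx⟩
  choose f hf using h'
  obtain ⟨M, hM⟩ := (hF.image f).bddAbove
  exact ⟨M, fun x hx => Bl_mono (hM ⟨x, hx, rfl⟩) (hf x hx)⟩

/-- conjugation by powers -/
theorem conj_pow_mem_Bl {A : Set X} {s : X} {c : ℕ} (hs : ∀ a ∈ A, s * a * s⁻¹ ∈ Bl A c) {n : ℕ}
    {x : X} (hx : x ∈ Bl A n) (j : ℕ) : s ^ j * x * (s ^ j)⁻¹ ∈ Bl A (c ^ j * n) := by
  induction j with
  | zero => simpa using hx
  | succ j ih =>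
    have := conj_mem_Bl hs ih
    have e : s ^ (j + 1) * x * (s ^ (j + 1))⁻¹ = s * (s ^ j * x * (s ^ j)⁻¹) * s⁻¹ := by
      rw [pow_succ']; group
    rw [e]
    refine Bl_mono (le_of_eq ?_) this
    ring

theorem conj_zpow_mem_Bl {A : Set X} {s : X} {c : ℕ} (hs : ∀ a ∈ A, s * a * s⁻¹ ∈ Bl A c)
    (hs' : ∀ a ∈ A, s⁻¹ * a * s ∈ Bl A c) {n : ℕ}
    {x : X} (hx : x ∈ Bl A n) (z : ℤ) : s ^ z * x * (s ^ z)⁻¹ ∈ Bl A (c ^ z.natAbs * n) := by
  obtain ⟨j, rfl | rfl⟩ := z.eq_nat_or_neg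
  · simpa using conj_pow_mem_Bl hs hx j
  · have := conj_pow_mem_Bl (s := s⁻¹) (by simpa using hs') hx j
    simpa using this

theorem comm_pow_mem_Bl {A : Set X} {s b : X} {c c₀ : ℕ} (hs : ∀ a ∈ A, s * a * s⁻¹ ∈ Bl A c)
    (hb : s * b * s⁻¹ * b⁻¹ ∈ Bl A c₀) (j : ℕ) :
    s ^ j * b * (s ^ j)⁻¹ * b⁻¹ ∈ Bl A (c₀ * (c + 1) ^ j) := by
  induction j with
  | zero => simpa using one_mem_Bl A c₀
  | succ j ih =>
    have h1 := mul_mem_Bl (conj_mem_Bl hs ih) hb
    have e : s ^ (j + 1) * b * (s ^ (j + 1))⁻¹ * b⁻¹ =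
        s * (s ^ j * b * (s ^ j)⁻¹ * b⁻¹) * s⁻¹ * (s * b * s⁻¹ * b⁻¹) := by
      rw [pow_succ']; group
    rw [e]
    refine Bl_mono ?_ h1
    have : 1 ≤ (c + 1) ^ j := Nat.one_le_pow _ _ (by omega)
    calc c * (c₀ * (c + 1) ^ j) + c₀ ≤ c * (c₀ * (c + 1) ^ j) + c₀ * (c + 1) ^ j := by nlinarith
      _ = c₀ * (c + 1) ^ (j + 1) := by ring

theorem comm_zpow_mem_Bl {A : Set X} {s b : X} {c c₀ : ℕ} (hs : ∀ a ∈ A, s * a * s⁻¹ ∈ Bl A c)
    (hs' : ∀ a ∈ A, s⁻¹ * a * s ∈ Bl A c)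
    (hb : s * b * s⁻¹ * b⁻¹ ∈ Bl A c₀) (hb' : s⁻¹ * b * s * b⁻¹ ∈ Bl A c₀) (z : ℤ) :
    s ^ z * b * (s ^ z)⁻¹ * b⁻¹ ∈ Bl A (c₀ * (c + 1) ^ z.natAbs) := by
  obtain ⟨j, rfl | rfl⟩ := z.eq_nat_or_neg
  · simpa using comm_pow_mem_Bl hs hb j
  · have := comm_pow_mem_Bl (s := s⁻¹) (b := b) (by simpa using hs') (by simpa using hb') j
    simpa using this

end Bl

section Path

variable {X : Type u} [Group X]

/-- There is a path of `m` steps from `x` to `y` inside `P` with steps in `B`. -/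
def PathTo (P B : Set X) (m : ℕ) (x y : X) : Prop :=
  ∃ p : ℕ → X, p 0 = x ∧ p m = y ∧ (∀ i ≤ m, p i ∈ P) ∧ ∀ i < m, (p i)⁻¹ * p (i + 1) ∈ B

theorem PathTo.refl {P B : Set X} {x : X} (hx : x ∈ P) : PathTo P B 0 x x :=
  ⟨fun _ => x, rfl, rfl, fun _ _ => hx, fun i hi => absurd hi (Nat.not_lt_zero i)⟩

theorem PathTo.mono {P P' B B' : Set X} {m : ℕ} {x y : X} (hP : P ⊆ P') (hB : B ⊆ B')
    (h : PathTo P B m x y) : PathTo P' B' m x y := by
  obtain ⟨p, h0, h1, h2, h3⟩ := h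
  exact ⟨p, h0, h1, fun i hi => hP (h2 i hi), fun i hi => hB (h3 i hi)⟩

theorem PathTo.trans {P B : Set X} {m n : ℕ} {x y z : X} (h : PathTo P B m x y)
    (h' : PathTo P B n y z) : PathTo P B (m + n) x z := by
  obtain ⟨p, h0, h1, h2, h3⟩ := h
  obtain ⟨q, k0, k1, k2, k3⟩ := h'
  refine ⟨fun i => if i ≤ m then p i else q (i - m), by simp [h0], ?_, ?_, ?_⟩
  · by_cases hn : n = 0
    · subst hn
      simp [h1, ← k1, k0]
    · simp only
      rw [if_neg (by omega), ← k1]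
      congr 1
      omega
  · intro i hi
    simp only
    split_ifs with h
    · exact h2 i h
    · exact k2 _ (by omega)
  · intro i hi
    simp only
    by_cases h : i + 1 ≤ m
    · rw [if_pos h, if_pos (by omega)]
      exact h3 i (by omega)
    · by_cases h' : i ≤ m
      · have him : i = m := by omega
        subst him
        rw [if_pos le_rfl, if_neg h]
        have e : i + 1 - i = 0 + 1 := by omega
        rw [e, h1, ← k0]
        exact k3 0 (by omega)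
      · rw [if_neg h, if_neg h']
        have e : i + 1 - m = (i - m) + 1 := by omega
        rw [e]
        exact k3 _ (by omega)

theorem PathTo.step {P B : Set X} {x y : X} (hx : x ∈ P) (hy : y ∈ P) (h : x⁻¹ * y ∈ B) :
    PathTo P B 1 x y := by
  refine ⟨fun i => if i = 0 then x else y, by simp, by simp, ?_, ?_⟩
  · intro i _
    simp only
    split_ifs
    exacts [hx, hy]
  · intro i hi
    have : i = 0 := by omega
    subst this
    simpa using h

theorem PathTo.extend {P B : Set X} (hB : (1 : X) ∈ B) {m : ℕ} {x y : X} (h : PathTo P B m x y)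
    {n : ℕ} (hn : m ≤ n) : PathTo P B n x y := by
  obtain ⟨p, h0, h1, h2, h3⟩ := h
  refine ⟨fun i => p (min i m), by simp [h0], by simp [hn, h1], fun i _ => h2 _ (min_le_right _ _),
    fun i hi => ?_⟩
  simp only
  by_cases h : i < m
  · rw [min_eq_left h.le, min_eq_left (by omega)]
    exact h3 i h
  · rw [min_eq_right (by omega), min_eq_right (by omega)]
    simpa using hB

theorem PathTo.left {P P' B : Set X} {m : ℕ} {x y : X} (h : PathTo P B m x y) (g : X)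
    (hg : ∀ z ∈ P, g * z ∈ P') : PathTo P' B m (g * x) (g * y) := by
  obtain ⟨p, h0, h1, h2, h3⟩ := h
  refine ⟨fun i => g * p i, by simp [h0], by simp [h1], fun i hi => hg _ (h2 i hi), fun i hi => ?_⟩
  simpa [mul_assoc] using h3 i hi

/-- A path in a group is pushed forward by a map. -/
theorem PathTo.map {Y : Type v} [Group Y] {P B : Set X} {P' B' : Set Y} {m : ℕ} {x y : X}
    (h : PathTo P B m x y) (f : X → Y) (hP : ∀ z ∈ P, f z ∈ P')
    (hB : ∀ z w, z⁻¹ * w ∈ B → (f z)⁻¹ * f w ∈ B') : PathTo P' B' m (f x) (f y) := by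
  obtain ⟨p, h0, h1, h2, h3⟩ := h
  exact ⟨fun i => f (p i), by simp [h0], by simp [h1], fun i hi => hP _ (h2 i hi),
    fun i hi => hB _ _ (h3 i hi)⟩

/-- A word gives a path. -/
theorem PathTo.of_list {P B : Set X} (l : List X) (x : X) (hB : ∀ a ∈ l, a ∈ B)
    (hP : ∀ j ≤ l.length, x * (l.take j).prod ∈ P) : PathTo P B l.length x (x * l.prod) := by
  refine ⟨fun i => x * (l.take i).prod, by simp, by simp, hP, fun i hi => ?_⟩
  simp only
  rw [List.prod_take_succ l i hi]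
  have : (x * (l.take i).prod)⁻¹ * (x * ((l.take i).prod * l[i])) = l[i] := by group
  rw [this]
  exact hB _ (List.getElem_mem hi)

end Path

end Vale.Agent.P188.H789
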