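import Vale.Agent.P188.H789.Reach

/-! P188, end game: the number of points reached by paths inside a slab of the model group. -/

universe u v w

open Pointwise

namespace Vale.Agent.P188.H789

variable {G : Type v} [Group G] {k : ℕ}

/-- The coordinates of `η g`, extended by zero. -/
def cz (η : G →* Multiplicative (Fin k → ℤ)) (g : G) (i : ℕ) : ℤ :=
  if h : i < k then Multiplicative.toAdd (η g) ⟨i, h⟩ else 0

theorem cz_mul (η : G →* Multiplicative (Fin k → ℤ)) (g h : G) (i : ℕ) :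
    cz η (g * h) i = cz η g i + cz η h i := by
  unfold cz
  split_ifs
  · rw [map_mul]; rfl
  · simp

theorem cz_one (η : G →* Multiplicative (Fin k → ℤ)) (i : ℕ) : cz η (1 : G) i = 0 := by
  have := cz_mul η 1 1 i
  rw [mul_one] at this
  omega

theorem cz_inv (η : G →* Multiplicative (Fin k → ℤ)) (g : G) (i : ℕ) :
    cz η g⁻¹ i = - cz η g i := by
  have := cz_mul η g g⁻¹ i
  rw [mul_inv_cancel, cz_one] at this
  omega

theorem cz_zpow (η : G →* Multiplicative (Fin k → ℤ)) (g : G) (z : ℤ) (i : ℕ) :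
    cz η (g ^ z) i = z * cz η g i := by
  induction z using Int.induction_on with
  | zero => simp [cz_one]
  | succ j ih => rw [zpow_add_one, cz_mul, ih]; ring
  | pred j ih => rw [zpow_sub_one, cz_mul, ih, cz_inv]; ring

theorem mem_ker_iff_cz (η : G →* Multiplicative (Fin k → ℤ)) (g : G) :
    g ∈ η.ker ↔ ∀ i, cz η g i = 0 := by
  rw [MonoidHom.mem_ker]
  constructor
  · intro h i
    unfold cz
    rw [h]
    simp
  · intro h
    have h2 : Multiplicative.toAdd (η g) = 0 := by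
      funext i
      have := h i
      unfold cz at this
      rw [dif_pos i.2] at this
      simpa using this
    exact h2

/-- The product `t 0 ^ q 0 * ⋯ * t (n-1) ^ q (n-1)`. -/
def tau (t : ℕ → G) (q : ℕ → ℤ) : ℕ → G
  | 0 => 1
  | n + 1 => tau t q n * t n ^ q n

/-- The sum of the absolute values of the first coordinates. -/
def sz (q : ℕ → ℤ) : ℕ → ℕ
  | 0 => 0
  | n + 1 => sz q n + (q n).natAbs

theorem tau_congr {t : ℕ → G} {q q' : ℕ → ℤ} {n : ℕ} (h : ∀ i < n, q i = q' i) :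
    tau t q n = tau t q' n := by
  induction n with
  | zero => rfl
  | succ n ih =>
    rw [tau, tau, ih fun i hi => h i (by omega), h n (by omega)]

theorem sz_le {q : ℕ → ℤ} {R : ℕ} {n : ℕ} (h : ∀ i, (q i).natAbs ≤ R) : sz q n ≤ n * R := by
  induction n with
  | zero => simp [sz]
  | succ n ih =>
    rw [sz]
    have := h n
    have e : (n + 1) * R = n * R + R := by ring
    omega

theorem cz_tau {η : G →* Multiplicative (Fin k → ℤ)} {t : ℕ → G}
    (ht : ∀ i j, j < k → cz η (t j) i = if i = j then 1 else 0) (q : ℕ → ℤ) :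
    ∀ n ≤ k, ∀ i, cz η (tau t q n) i = if i < n then q i else 0 := by
  intro n
  induction n with
  | zero => intro _ i; simp [tau, cz_one]
  | succ n ih =>
    intro hn i
    rw [tau, cz_mul, ih (by omega), cz_zpow, ht i n (by omega)]
    by_cases h : i = n
    · subst h
      simp
    · by_cases h' : i < n
      · rw [if_pos h', if_neg h, if_pos (by omega)]; ring
      · rw [if_neg h', if_neg h, if_neg (by omega)]; ring

section Bounds

variable {A : Set G} {t : ℕ → G} {c c₀ : ℕ}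

theorem tau_conj_mem (h1 : ∀ j, ∀ a ∈ A, t j * a * (t j)⁻¹ ∈ Bl A c)
    (h2 : ∀ j, ∀ a ∈ A, (t j)⁻¹ * a * t j ∈ Bl A c) (q : ℕ → ℤ) {m : ℕ} {x : G} (n : ℕ)
    (hx : x ∈ Bl A m) : tau t q n * x * (tau t q n)⁻¹ ∈ Bl A (c ^ sz q n * m) := by
  induction n generalizing x m with
  | zero => simpa [tau, sz] using hx
  | succ n ih =>
    have h3 := conj_zpow_mem_Bl (h1 n) (h2 n) hx (q n)
    have h4 := ih h3
    have e : tau t q (n + 1) * x * (tau t q (n + 1))⁻¹ =
        tau t q n * (t n ^ q n * x * (t n ^ q n)⁻¹) * (tau t q n)⁻¹ := by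
      rw [tau]; group
    rw [e]
    refine Bl_mono (le_of_eq ?_) h4
    rw [sz]
    ring

theorem tau_step_mem (h1 : ∀ j, ∀ a ∈ A, t j * a * (t j)⁻¹ ∈ Bl A c)
    (h2 : ∀ j, ∀ a ∈ A, (t j)⁻¹ * a * t j ∈ Bl A c)
    (h3 : ∀ i j (δ : ℤ), δ = 1 ∨ δ = -1 →
      t i * t j ^ δ * (t i)⁻¹ * (t j ^ δ)⁻¹ ∈ Bl A c₀)
    (h4 : ∀ i j (δ : ℤ), δ = 1 ∨ δ = -1 →
      (t i)⁻¹ * t j ^ δ * t i * (t j ^ δ)⁻¹ ∈ Bl A c₀) (q : ℕ → ℤ) {δ : ℤ}
    (hδ : δ = 1 ∨ δ = -1) (n j : ℕ) (hj : j < n) :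
    tau t q n * t j ^ δ * (tau t (fun i => q i + if i = j then δ else 0) n)⁻¹ ∈
      Bl A (n * (c₀ * (c + 1) ^ sz q n)) := by
  induction n with
  | zero => omega
  | succ n ih =>
    by_cases hjn : j = n
    · subst hjn
      have e : tau t (fun i => q i + if i = j then δ else 0) j = tau t q j := by
        refine tau_congr fun i hi => ?_
        rw [if_neg (by omega), add_zero]
      have e2 : tau t q (j + 1) * t j ^ δ *
          (tau t (fun i => q i + if i = j then δ else 0) (j + 1))⁻¹ = 1 := by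
        rw [tau, tau, e]
        simp only [if_true]
        rw [zpow_add]
        group
      rw [e2]
      exact one_mem_Bl _ _
    · have hj' : j < n := by omega
      have h5 := ih hj'
      have h6 := comm_zpow_mem_Bl (h1 n) (h2 n) (h3 n j δ hδ) (h4 n j δ hδ) (q n)
      have h7 := tau_conj_mem h1 h2 q n h6
      have h8 := mul_mem_Bl h7 h5
      have e : tau t q (n + 1) * t j ^ δ *
          (tau t (fun i => q i + if i = j then δ else 0) (n + 1))⁻¹ =
          tau t q n * (t n ^ q n * t j ^ δ * (t n ^ q n)⁻¹ * (t j ^ δ)⁻¹) * (tau t q n)⁻¹ *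
          (tau t q n * t j ^ δ * (tau t (fun i => q i + if i = j then δ else 0) n)⁻¹) := by
        rw [tau, tau, if_neg (fun h => hjn h.symm), add_zero]
        group
      rw [e]
      refine Bl_mono ?_ h8
      have h9 : c ^ sz q n ≤ (c + 1) ^ sz q n := Nat.pow_le_pow_left (by omega) _
      have h10 : 1 ≤ (c + 1) ^ (q n).natAbs := Nat.one_le_pow _ _ (by omega)
      rw [sz, pow_add]
      calc c ^ sz q n * (c₀ * (c + 1) ^ (q n).natAbs) + n * (c₀ * (c + 1) ^ sz q n)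
          ≤ (c + 1) ^ sz q n * (c₀ * (c + 1) ^ (q n).natAbs) +
            n * (c₀ * ((c + 1) ^ sz q n * (c + 1) ^ (q n).natAbs)) := by
            refine add_le_add (Nat.mul_le_mul_right _ h9) (Nat.mul_le_mul_left _
              (Nat.mul_le_mul_left _ ?_))
            exact Nat.le_mul_of_pos_right _ h10
        _ = (n + 1) * (c₀ * ((c + 1) ^ sz q n * (c + 1) ^ (q n).natAbs)) := by ring

end Bounds

/-- The slab of the model group. -/
def Slab (η : G →* Multiplicative (Fin k → ℤ)) (R : ℕ) : Set G :=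
  {g | ∀ i, (cz η g i).natAbs ≤ R}

theorem Slab_mono (η : G →* Multiplicative (Fin k → ℤ)) {R R' : ℕ} (h : R ≤ R') :
    Slab η R ⊆ Slab η R' := fun _ hg i => (hg i).trans h

/-- Elements `t j` with `η (t j) = e_j`. -/
theorem exists_t (η : G →* Multiplicative (Fin k → ℤ)) (hη : Function.Surjective η) :
    ∃ t : ℕ → G, (∀ i j, j < k → cz η (t j) i = if i = j then 1 else 0) ∧
      ∀ j, ¬ j < k → t j = 1 := by
  classical
  have h : ∀ j : ℕ, ∃ g : G, (j < k → ∀ i, cz η g i = if i = j then 1 else 0) ∧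
      (¬ j < k → g = 1) := by
    intro j
    by_cases hj : j < k
    · obtain ⟨g, hg⟩ := hη (Multiplicative.ofAdd (Pi.single ⟨j, hj⟩ 1))
      refine ⟨g, fun _ i => ?_, fun h => absurd hj h⟩
      unfold cz
      by_cases hi : i < k
      · rw [dif_pos hi, hg]
        simp only [toAdd_ofAdd]
        by_cases hij : i = j
        · subst hij
          simp
        · rw [if_neg hij, Pi.single_eq_of_ne]
          intro h
          exact hij (congrArg Fin.val h)
      · rw [dif_neg hi, if_neg (by omega)]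
    · exact ⟨1, fun h => absurd h hj, fun _ => rfl⟩
  choose t ht using h
  exact ⟨t, fun i j hj => (ht j).1 hj i, fun j hj => (ht j).2 hj⟩

theorem slab_kappa (η : G →* Multiplicative (Fin k → ℤ)) {A : Set G} (hA : A.Finite)
    (hcl : Subgroup.closure A = η.ker) {t : ℕ → G}
    (ht : ∀ i j, j < k → cz η (t j) i = if i = j then 1 else 0) (ht' : ∀ j, ¬ j < k → t j = 1) :
    ∃ μ : ℕ, 1 ≤ μ ∧ ∀ (R : ℕ) (g : G) (_ : g ∈ Slab η R) (b : G)
      (_ : b ∈ Bl A 1 ∨ ∃ j δ, j < k ∧ (δ = 1 ∨ δ = -1) ∧ b = t j ^ (δ : ℤ)),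
      tau t (cz η g) k * b * (tau t (cz η (g * b)) k)⁻¹ ∈ Bl A (μ ^ (R + 1)) := by
  classical
  have hfin : (Set.range t).Finite := by
    refine ((Finset.range k).finite_toSet.image t |>.union (Set.finite_singleton 1)).subset ?_
    rintro _ ⟨j, rfl⟩
    by_cases hj : j < k
    · exact Or.inl ⟨j, by simpa using hj, rfl⟩
    · exact Or.inr (by simp [ht' j hj])
  have hAker : ∀ a ∈ A, a ∈ η.ker := fun a ha => hcl ▸ Subgroup.subset_closure ha
  have hconj : ∃ c, ∀ j, ∀ a ∈ A, t j * a * (t j)⁻¹ ∈ Bl A c ∧ (t j)⁻¹ * a * t j ∈ Bl A c := by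
    obtain ⟨c, hc⟩ := exists_Bl_of_finite (A := A)
      (F := (fun p : G × G => p.1 * p.2 * p.1⁻¹) '' ((Set.range t ∪ (Set.range t)⁻¹) ×ˢ A))
      (((hfin.union hfin.inv).prod hA).image _) (by
        rintro _ ⟨⟨s, a⟩, ⟨_, ha⟩, rfl⟩
        rw [hcl]
        exact (MonoidHom.normal_ker η).conj_mem a (hAker a ha) s)
    refine ⟨c, fun j a ha => ⟨hc ⟨(t j, a), ⟨Or.inl ⟨j, rfl⟩, ha⟩, rfl⟩,
      hc ⟨((t j)⁻¹, a), ⟨Or.inr (by simp), ha⟩, by simp⟩⟩⟩
  have hcomm : ∃ c₀, ∀ i j (δ : ℤ), δ = 1 ∨ δ = -1 →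
      t i * t j ^ δ * (t i)⁻¹ * (t j ^ δ)⁻¹ ∈ Bl A c₀ ∧
      (t i)⁻¹ * t j ^ δ * t i * (t j ^ δ)⁻¹ ∈ Bl A c₀ := by
    obtain ⟨c, hc⟩ := exists_Bl_of_finite (A := A)
      (F := (fun p : G × G => p.1 * p.2 * p.1⁻¹ * p.2⁻¹) ''
        ((Set.range t ∪ (Set.range t)⁻¹) ×ˢ (Set.range t ∪ (Set.range t)⁻¹)))
      (((hfin.union hfin.inv).prod (hfin.union hfin.inv)).image _) (by
        rintro _ ⟨⟨s, a⟩, ⟨_, _⟩, rfl⟩
        rw [hcl, MonoidHom.mem_ker]
        simp only [map_mul, map_inv]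
        rw [mul_comm (η s) (η a)]
        simp)
    refine ⟨c, fun i j δ hδ => ?_⟩
    have hmem : t j ^ δ ∈ Set.range t ∪ (Set.range t)⁻¹ := by
      rcases hδ with rfl | rfl
      · exact Or.inl ⟨j, by simp⟩
      · exact Or.inr (by simp)
    exact ⟨hc ⟨(t i, t j ^ δ), ⟨Or.inl ⟨i, rfl⟩, hmem⟩, rfl⟩,
      hc ⟨((t i)⁻¹, t j ^ δ), ⟨Or.inr (by simp), hmem⟩, by simp⟩⟩
  obtain ⟨c', hc'⟩ := hconj
  obtain ⟨c₀, hc₀⟩ := hcomm
  -- enlarge `c'`
  have h1 : ∀ j, ∀ a ∈ A, t j * a * (t j)⁻¹ ∈ Bl A (c' + 1) :=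
    fun j a ha => Bl_mono (by omega) (hc' j a ha).1
  have h2 : ∀ j, ∀ a ∈ A, (t j)⁻¹ * a * t j ∈ Bl A (c' + 1) :=
    fun j a ha => Bl_mono (by omega) (hc' j a ha).2
  refine ⟨(c' + 1 + 1) ^ (k + 1) * ((k + 1) * (c₀ + 1)), ?_, fun R g hg b hb => ?_⟩
  · exact Nat.mul_pos (Nat.pow_pos (by omega)) (Nat.mul_pos (by omega) (by omega))
  have hsz : sz (cz η g) k ≤ k * R := sz_le hg
  have hbase : ∀ e : ℕ, e ≤ k * R → ∀ w : ℕ, w ≤ (k + 1) * (c₀ + 1) →
      w * (c' + 1 + 1) ^ e ≤ ((c' + 1 + 1) ^ (k + 1) * ((k + 1) * (c₀ + 1))) ^ (R + 1) := by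
    intro e he w hw
    rw [mul_pow, ← pow_mul]
    have a1 : (c' + 1 + 1) ^ e ≤ (c' + 1 + 1) ^ ((k + 1) * (R + 1)) := by
      refine Nat.pow_le_pow_right (by omega) (he.trans ?_)
      nlinarith
    have a2 : w ≤ ((k + 1) * (c₀ + 1)) ^ (R + 1) := by
      refine hw.trans ?_
      refine Nat.le_self_pow (by omega) _
    rw [mul_comm w]
    exact Nat.mul_le_mul a1 a2
  rcases hb with hb | ⟨j, δ, hj, hδ, rfl⟩
  · have hbker : b ∈ η.ker := by
      have := Bl_subset_closure A 1 hb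
      rw [hcl] at this
      exact this
    have e : cz η (g * b) = cz η g := by
      funext i
      rw [cz_mul, (mem_ker_iff_cz η b).mp hbker i, add_zero]
    rw [e]
    refine Bl_mono ?_ (tau_conj_mem h1 h2 (cz η g) k hb)
    rw [mul_one]
    have := hbase (sz (cz η g) k) hsz 1 (by nlinarith)
    rw [one_mul] at this
    exact (Nat.pow_le_pow_left (by omega) _).trans this
  · have e : cz η (g * t j ^ δ) = fun i => cz η g i + if i = j then δ else 0 := by
      funext i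
      rw [cz_mul, cz_zpow, ht i j hj]
      split_ifs <;> ring
    rw [e]
    refine Bl_mono ?_ (tau_step_mem h1 h2 (fun i j δ hδ => (hc₀ i j δ hδ).1)
      (fun i j δ hδ => (hc₀ i j δ hδ).2) (cz η g) hδ k j hj)
    rw [← mul_assoc]
    exact hbase _ hsz _ (by nlinarith)

/-- The set of the steps used in the model group. -/
def St (A : Set G) (t : ℕ → G) (k : ℕ) : Set G :=
  Bl A 1 ∪ {b | ∃ j δ, j < k ∧ (δ = 1 ∨ δ = -1) ∧ b = t j ^ (δ : ℤ)}

theorem slab_mem (η : G →* Multiplicative (Fin k → ℤ)) {A : Set G} (hA : A.Finite)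
    (hcl : Subgroup.closure A = η.ker) {t : ℕ → G}
    (ht : ∀ i j, j < k → cz η (t j) i = if i = j then 1 else 0) (ht' : ∀ j, ¬ j < k → t j = 1) :
    ∃ μ : ℕ, 1 ≤ μ ∧ ∀ (R m : ℕ) (x : G), PathTo (Slab η R) (St A t k) m 1 x →
      x * (tau t (cz η x) k)⁻¹ ∈ Bl A (m * μ ^ (R + 1)) := by
  obtain ⟨μ, hμ, h⟩ := slab_kappa η hA hcl ht ht'
  refine ⟨μ, hμ, fun R m x hx => ?_⟩
  obtain ⟨p, h0, h1, h2, h3⟩ := hx
  have key : ∀ i ≤ m, p i * (tau t (cz η (p i)) k)⁻¹ ∈ Bl A (i * μ ^ (R + 1)) := by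
    intro i
    induction i with
    | zero =>
      intro _
      have e : tau t (cz η (1 : G)) k = 1 := by
        have : ∀ n, tau t (cz η (1 : G)) n = 1 := by
          intro n
          induction n with
          | zero => rfl
          | succ n ih => rw [tau, ih, cz_one]; simp
        exact this k
      rw [h0, e]
      simpa using one_mem_Bl A _
    | succ i ih =>
      intro hi
      have h4 := ih (by omega)
      have h5 := h R (p i) (h2 i (by omega)) ((p i)⁻¹ * p (i + 1)) (h3 i (by omega))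
      rw [mul_inv_cancel_left] at h5
      have h6 := mul_mem_Bl h4 h5
      have e : p i * (tau t (cz η (p i)) k)⁻¹ *
          (tau t (cz η (p i)) k * ((p i)⁻¹ * p (i + 1)) * (tau t (cz η (p (i + 1))) k)⁻¹) =
          p (i + 1) * (tau t (cz η (p (i + 1))) k)⁻¹ := by group
      rw [e] at h6
      refine Bl_mono (le_of_eq ?_) h6
      ring
  have := key m le_rfl
  rwa [h1] at this

theorem slab_count₀ (η : G →* Multiplicative (Fin k → ℤ)) {A : Set G} (hA : A.Finite)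
    (hcl : Subgroup.closure A = η.ker) {C D : ℕ} (hgr : ∀ n, (Bl A n).ncard ≤ C * (n + 1) ^ D)
    {t : ℕ → G} (ht : ∀ i j, j < k → cz η (t j) i = if i = j then 1 else 0)
    (ht' : ∀ j, ¬ j < k → t j = 1) :
    ∃ C' : ℕ, 1 ≤ C' ∧ ∀ R m : ℕ, {x | PathTo (Slab η R) (St A t k) m 1 x}.Finite ∧
      {x | PathTo (Slab η R) (St A t k) m 1 x}.ncard ≤ C' ^ (R + 1) * (m + 1) ^ D := by
  classical
  obtain ⟨μ, hμ, h⟩ := slab_mem η hA hcl ht ht'
  refine ⟨(C + 1) * (2 * μ ^ D) * 3 ^ k, ?_, fun R m => ?_⟩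
  · exact Nat.mul_pos (Nat.mul_pos (by omega) (Nat.mul_pos (by omega) (Nat.pow_pos hμ)))
      (Nat.pow_pos (by omega))
  let box : Finset (Fin k → ℤ) := Fintype.piFinset fun _ => Finset.Icc (-(R : ℤ)) R
  let N := m * μ ^ (R + 1)
  let F : Set G := (fun p : G × (Fin k → ℤ) =>
    p.1 * tau t (fun i => if h : i < k then p.2 ⟨i, h⟩ else 0) k) '' (Bl A N ×ˢ (box : Set _))
  have hfinF : ((Bl A N) ×ˢ (box : Set (Fin k → ℤ))).Finite :=
    (Bl_finite hA N).prod box.finite_toSet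
  have hsub : {x | PathTo (Slab η R) (St A t k) m 1 x} ⊆ F := by
    intro x hx
    have h1 := h R m x hx
    have hxs : x ∈ Slab η R := by
      obtain ⟨p, h0, h1, h2, h3⟩ := hx
      rw [← h1]
      exact h2 m le_rfl
    refine ⟨(x * (tau t (cz η x) k)⁻¹, Multiplicative.toAdd (η x)), ⟨h1, ?_⟩, ?_⟩
    · simp only [box, Finset.mem_coe, Fintype.mem_piFinset, Finset.mem_Icc]
      intro i
      have := hxs i
      unfold cz at this
      rw [dif_pos i.2] at this
      simp only [Fin.eta] at this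
      omega
    · simp only
      have e : tau t (fun i => if h : i < k then Multiplicative.toAdd (η x) ⟨i, h⟩ else 0) k =
          tau t (cz η x) k := rfl
      rw [e]
      group
  refine ⟨(hfinF.image _).subset hsub, ?_⟩
  have hcard : (box : Set (Fin k → ℤ)).ncard = (2 * R + 1) ^ k := by
    rw [Set.ncard_coe_finset, Fintype.card_piFinset]
    simp only [Int.card_Icc, Finset.prod_const, Finset.card_univ, Fintype.card_fin]
    congr 1
    omega
  have h3R : 2 * R + 1 ≤ 3 ^ (R + 1) := by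
    clear hsub hcard hfinF
    induction R with
    | zero => norm_num
    | succ R ih => rw [pow_succ]; omega
  have hμR : 1 ≤ μ ^ (R + 1) := Nat.one_le_pow _ _ hμ
  calc {x | PathTo (Slab η R) (St A t k) m 1 x}.ncard ≤ F.ncard :=
        Set.ncard_le_ncard hsub (hfinF.image _)
    _ ≤ ((Bl A N) ×ˢ (box : Set (Fin k → ℤ))).ncard := Set.ncard_image_le hfinF
    _ = (Bl A N).ncard * (2 * R + 1) ^ k := by rw [Set.ncard_prod, hcard]
    _ ≤ (C * (N + 1) ^ D) * (2 * R + 1) ^ k := Nat.mul_le_mul_right _ (hgr N)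
    _ ≤ ((C + 1) * (μ ^ (R + 1) * (m + 1)) ^ D) * (3 ^ (R + 1)) ^ k := by
        refine Nat.mul_le_mul (Nat.mul_le_mul (by omega) (Nat.pow_le_pow_left ?_ _))
          (Nat.pow_le_pow_left h3R _)
        show m * μ ^ (R + 1) + 1 ≤ _
        nlinarith
    _ ≤ ((C + 1) * (2 * μ ^ D) * 3 ^ k) ^ (R + 1) * (m + 1) ^ D := by
        have e1 : (μ ^ (R + 1) * (m + 1)) ^ D = (μ ^ D) ^ (R + 1) * (m + 1) ^ D := by
          rw [mul_pow, ← pow_mul, ← pow_mul, mul_comm (R + 1) D]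
        have e2 : (3 ^ (R + 1)) ^ k = (3 ^ k) ^ (R + 1) := by
          rw [← pow_mul, ← pow_mul, mul_comm]
        rw [e1, e2]
        have e3 : C + 1 ≤ (C + 1) ^ (R + 1) := Nat.le_self_pow (by omega) _
        have e4 : (μ ^ D) ^ (R + 1) ≤ (2 * μ ^ D) ^ (R + 1) :=
          Nat.pow_le_pow_left (by omega) _
        calc (C + 1) * ((μ ^ D) ^ (R + 1) * (m + 1) ^ D) * (3 ^ k) ^ (R + 1)
            ≤ (C + 1) ^ (R + 1) * ((2 * μ ^ D) ^ (R + 1) * (m + 1) ^ D) * (3 ^ k) ^ (R + 1) :=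
              Nat.mul_le_mul_right _ (Nat.mul_le_mul e3 (Nat.mul_le_mul_right _ e4))
          _ = _ := by
            rw [mul_pow ((C + 1) * (2 * μ ^ D)) (3 ^ k), mul_pow (C + 1) (2 * μ ^ D)]; ring

end Vale.Agent.P188.H789
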