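import Vale.Agent.P188.H789.SlabG

/-! P188, end game: counting in the slab for general finite step sets. -/

universe u v w

open Pointwise

namespace Vale.Agent.P188.H789

variable {G : Type v} [Group G] {k : ℕ}

theorem exists_slab (η : G →* Multiplicative (Fin k → ℤ)) (g : G) : ∃ r, g ∈ Slab η r := by
  classical
  refine ⟨∑ i ∈ Finset.range k, (cz η g i).natAbs, fun i => ?_⟩
  by_cases hi : i < k
  · exact Finset.single_le_sum (f := fun i => (cz η g i).natAbs) (fun _ _ => Nat.zero_le _)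
      (Finset.mem_range.mpr hi)
  · unfold cz
    rw [dif_neg hi]
    simp

theorem exists_slab_finite (η : G →* Multiplicative (Fin k → ℤ)) {F : Set G} (hF : F.Finite) :
    ∃ r, F ⊆ Slab η r := by
  choose f hf using exists_slab η
  obtain ⟨M, hM⟩ := (hF.image f).bddAbove
  exact ⟨M, fun x hx => Slab_mono η (hM ⟨x, hx, rfl⟩) (hf x)⟩

theorem mul_mem_Slab {η : G →* Multiplicative (Fin k → ℤ)} {R r : ℕ} {g h : G}
    (hg : g ∈ Slab η R) (hh : h ∈ Slab η r) : g * h ∈ Slab η (R + r) := by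
  intro i
  rw [cz_mul]
  have := hg i
  have := hh i
  omega

theorem inv_mem_Slab {η : G →* Multiplicative (Fin k → ℤ)} {R : ℕ} {g : G}
    (hg : g ∈ Slab η R) : g⁻¹ ∈ Slab η R := by
  intro i
  rw [cz_inv, Int.natAbs_neg]
  exact hg i

theorem tau_inv_mem_ker (η : G →* Multiplicative (Fin k → ℤ)) {t : ℕ → G}
    (ht : ∀ i j, j < k → cz η (t j) i = if i = j then 1 else 0) (g : G) :
    g * (tau t (cz η g) k)⁻¹ ∈ η.ker := by
  rw [mem_ker_iff_cz]
  intro i
  rw [cz_mul, cz_inv, cz_tau ht _ k le_rfl]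
  by_cases hi : i < k
  · rw [if_pos hi]; ring
  · rw [if_neg hi]
    unfold cz
    rw [dif_neg hi]
    simp

theorem exists_list_St (η : G →* Multiplicative (Fin k → ℤ)) {A : Set G}
    (hcl : Subgroup.closure A = η.ker) {t : ℕ → G}
    (ht : ∀ i j, j < k → cz η (t j) i = if i = j then 1 else 0) (g : G) :
    ∃ l : List G, (∀ a ∈ l, a ∈ St A t k) ∧ l.prod = g := by
  have hmem : ∀ x ∈ Subgroup.closure (St A t k),
      ∃ l : List G, (∀ a ∈ l, a ∈ St A t k) ∧ l.prod = x := by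
    intro x hx
    have hinv : (St A t k)⁻¹ ⊆ St A t k := by
      intro b hb
      rcases hb with hb | ⟨j, δ, hj, hδ, hb⟩
      · left
        have := inv_mem_Bl hb
        rwa [inv_inv] at this
      · right
        refine ⟨j, -δ, hj, by omega, ?_⟩
        rw [zpow_neg, ← hb, inv_inv]
    have hmem : x ∈ (Subgroup.closure (St A t k)).toSubmonoid := hx
    rw [Subgroup.closure_toSubmonoid, Set.union_eq_left.mpr hinv] at hmem
    obtain ⟨l, hl, hp⟩ := Submonoid.exists_list_of_mem_closure hmem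
    exact ⟨l, hl, hp⟩
  refine hmem g ?_
  have h1 : g * (tau t (cz η g) k)⁻¹ ∈ Subgroup.closure (St A t k) := by
    have h2 := tau_inv_mem_ker η ht g
    rw [← hcl] at h2
    refine Subgroup.closure_mono ?_ h2
    intro a ha
    exact Or.inl (mem_Bl_one ha)
  have h3 : ∀ n ≤ k, tau t (cz η g) n ∈ Subgroup.closure (St A t k) := by
    intro n
    induction n with
    | zero => intro _; exact Subgroup.one_mem _
    | succ n ih =>
      intro hn
      refine Subgroup.mul_mem _ (ih (by omega)) (Subgroup.zpow_mem _ (Subgroup.subset_closure ?_) _)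
      exact Or.inr ⟨n, 1, by omega, Or.inl rfl, by simp⟩
  have := Subgroup.mul_mem _ h1 (h3 k le_rfl)
  rwa [inv_mul_cancel_right] at this

theorem exists_path_St (η : G →* Multiplicative (Fin k → ℤ)) {A : Set G}
    (hcl : Subgroup.closure A = η.ker) {t : ℕ → G}
    (ht : ∀ i j, j < k → cz η (t j) i = if i = j then 1 else 0) (g : G) :
    ∃ n r, PathTo (Slab η r) (St A t k) n 1 g := by
  obtain ⟨l, hl, hp⟩ := exists_list_St η hcl ht g
  obtain ⟨r, hr⟩ := exists_slab_finite η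
    (F := (fun j => (1 : G) * (l.take j).prod) '' Set.Iic l.length) ((Set.finite_Iic _).image _)
  refine ⟨l.length, r, ?_⟩
  have := PathTo.of_list (P := Slab η r) (B := St A t k) l 1 hl (fun j hj => hr ⟨j, hj, rfl⟩)
  rwa [hp, one_mul] at this

theorem one_mem_St (A : Set G) (t : ℕ → G) (k : ℕ) : (1 : G) ∈ St A t k :=
  Or.inl (one_mem_Bl _ _)

theorem exists_path_St_finite (η : G →* Multiplicative (Fin k → ℤ)) {A : Set G}
    (hcl : Subgroup.closure A = η.ker) {t : ℕ → G}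
    (ht : ∀ i j, j < k → cz η (t j) i = if i = j then 1 else 0) {B : Set G} (hB : B.Finite) :
    ∃ n r, ∀ b ∈ B, PathTo (Slab η r) (St A t k) n 1 b := by
  choose n r h using exists_path_St η hcl ht
  obtain ⟨N, hN⟩ := (hB.image n).bddAbove
  obtain ⟨M, hM⟩ := (hB.image r).bddAbove
  exact ⟨N, M, fun b hb => ((h b).mono (Slab_mono η (hM ⟨b, hb, rfl⟩)) subset_rfl).extend
    (one_mem_St _ _ _) (hN ⟨b, hb, rfl⟩)⟩

theorem path_refine (η : G →* Multiplicative (Fin k → ℤ)) {A : Set G}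
    (hcl : Subgroup.closure A = η.ker) {t : ℕ → G}
    (ht : ∀ i j, j < k → cz η (t j) i = if i = j then 1 else 0) {B : Set G} (hB : B.Finite) :
    ∃ ℓ r, ∀ R m x y, PathTo (Slab η R) B m x y →
      PathTo (Slab η (R + r)) (St A t k) (m * ℓ) x y := by
  obtain ⟨ℓ, r, h⟩ := exists_path_St_finite η hcl ht hB
  refine ⟨ℓ, r, fun R m x y hxy => ?_⟩
  obtain ⟨p, h0, h1, h2, h3⟩ := hxy
  have key : ∀ i ≤ m, PathTo (Slab η (R + r)) (St A t k) (i * ℓ) x (p i) := by
    intro i
    induction i with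
    | zero =>
      intro _
      rw [Nat.zero_mul, ← h0]
      exact PathTo.refl (Slab_mono η (by omega) (h2 0 (by omega)))
    | succ i ih =>
      intro hi
      have h4 := (h _ (h3 i (by omega))).left (p i) (P' := Slab η (R + r))
        (fun z hz => mul_mem_Slab (h2 i (by omega)) hz)
      rw [mul_one, mul_inv_cancel_left] at h4
      have h5 := (ih (by omega)).trans h4
      have e : (i + 1) * ℓ = i * ℓ + ℓ := by ring
      rwa [e]
  have := key m le_rfl
  rwa [h1] at this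

/-- The number of points reached by paths of `m` steps inside the slab of width `R`. -/
theorem slab_count (η : G →* Multiplicative (Fin k → ℤ)) (hη : Function.Surjective η)
    {A : Set G} (hA : A.Finite)
    (hcl : Subgroup.closure A = η.ker) {C D : ℕ} (hgr : ∀ n, (Bl A n).ncard ≤ C * (n + 1) ^ D)
    {B : Set G} (hB : B.Finite) :
    ∃ C' : ℕ, 1 ≤ C' ∧ ∀ R m : ℕ, {x | PathTo (Slab η R) B m 1 x}.Finite ∧
      {x | PathTo (Slab η R) B m 1 x}.ncard ≤ C' ^ (R + 1) * (m + 1) ^ D := by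
  obtain ⟨t, ht, ht'⟩ := exists_t η hη
  obtain ⟨ℓ, r, h⟩ := path_refine η hcl ht hB
  obtain ⟨C₁, hC₁, h1⟩ := slab_count₀ η hA hcl hgr ht ht'
  refine ⟨C₁ ^ (r + 1) * (ℓ + 1) ^ D, Nat.mul_pos (Nat.pow_pos hC₁) (Nat.pow_pos (by omega)),
    fun R m => ?_⟩
  have hsub : {x | PathTo (Slab η R) B m 1 x} ⊆
      {x | PathTo (Slab η (R + r)) (St A t k) (m * ℓ) 1 x} := fun x hx => h R m 1 x hx
  refine ⟨(h1 (R + r) (m * ℓ)).1.subset hsub, ?_⟩
  have hl1 : 1 ≤ (ℓ + 1) ^ D := Nat.one_le_pow _ _ (by omega)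
  calc {x | PathTo (Slab η R) B m 1 x}.ncard
      ≤ {x | PathTo (Slab η (R + r)) (St A t k) (m * ℓ) 1 x}.ncard :=
        Set.ncard_le_ncard hsub (h1 (R + r) (m * ℓ)).1
    _ ≤ C₁ ^ (R + r + 1) * (m * ℓ + 1) ^ D := (h1 (R + r) (m * ℓ)).2
    _ ≤ C₁ ^ ((r + 1) * (R + 1)) * (((ℓ + 1) ^ D) ^ (R + 1) * (m + 1) ^ D) := by
        refine Nat.mul_le_mul (Nat.pow_le_pow_right hC₁ (by nlinarith)) ?_
        calc (m * ℓ + 1) ^ D ≤ ((ℓ + 1) * (m + 1)) ^ D := Nat.pow_le_pow_left (by nlinarith) _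
          _ = (ℓ + 1) ^ D * (m + 1) ^ D := mul_pow _ _ _
          _ ≤ _ := Nat.mul_le_mul_right _ (Nat.le_self_pow (by omega) _)
    _ = (C₁ ^ (r + 1) * (ℓ + 1) ^ D) ^ (R + 1) * (m + 1) ^ D := by
        rw [mul_pow, pow_mul]; ring

end Vale.Agent.P188.H789
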