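import Vale.Agent.P188.H789.SlabG2

/-! P188, end game: the slab of the group `H`: counting, coarse connectivity, nets. -/

universe u v w

open Pointwise

namespace Vale.Agent.P188.H789

/-- The slab of width `R` of an additive function with values in `ℝ^k`. -/
def SH {H : Type u} {k : ℕ} (χ : H → Fin k → ℝ) (R : ℝ) : Set H := {x | ∀ i, |χ x i| ≤ R}

/-- The data of the end game: a coarse equivalence `F : H → G` and an additive function `χ` on `H`
at bounded distance from `η ∘ F`. -/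
structure Data {H : Type u} {G : Type v} [Group H] [Group G] {k : ℕ}
    (η : G →* Multiplicative (Fin k → ℤ)) (F : H → G) (F' : G → H) (χ : H → Fin k → ℝ)
    (C₀ : ℕ) : Prop where
  coarse : Coarse F
  coarse' : Coarse F'
  close : CloseId (F' ∘ F)
  close' : CloseId (F ∘ F')
  add : ∀ x y, χ (x * y) = χ x + χ y
  near : ∀ (x : H) (i : Fin k), |χ x i - ((Multiplicative.toAdd (η (F x)) i : ℤ) : ℝ)| ≤ C₀

section

variable {H : Type u} {G : Type v} [Group H] [Group G] {k : ℕ}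
  {η : G →* Multiplicative (Fin k → ℤ)} {F : H → G} {F' : G → H} {χ : H → Fin k → ℝ} {C₀ : ℕ}

theorem Data.one (h : Data η F F' χ C₀) (i : Fin k) : χ 1 i = 0 := by
  have := congrFun (h.add 1 1) i
  rw [mul_one, Pi.add_apply] at this
  linarith

theorem Data.mul (h : Data η F F' χ C₀) (x y : H) (i : Fin k) : χ (x * y) i = χ x i + χ y i :=
  congrFun (h.add x y) i

theorem Data.inv (h : Data η F F' χ C₀) (x : H) (i : Fin k) : χ x⁻¹ i = - χ x i := by
  have := h.mul x x⁻¹ i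
  rw [mul_inv_cancel, h.one] at this
  linarith

theorem SH_mono {H : Type u} {χ : H → Fin k → ℝ} {R R' : ℝ} (h : R ≤ R') : SH χ R ⊆ SH χ R' :=
  fun _ hx i => (hx i).trans h

theorem Data.mul_mem (h : Data η F F' χ C₀) {R R' : ℝ} {x y : H} (hx : x ∈ SH χ R)
    (hy : y ∈ SH χ R') : x * y ∈ SH χ (R + R') := by
  intro i
  rw [h.mul]
  exact (abs_add_le _ _).trans (add_le_add (hx i) (hy i))

theorem Data.inv_mem (h : Data η F F' χ C₀) {R : ℝ} {x : H} (hx : x ∈ SH χ R) :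
    x⁻¹ ∈ SH χ R := by
  intro i
  rw [h.inv, abs_neg]
  exact hx i

omit [Group H] in
theorem exists_SH_finite {S : Set H} (hS : S.Finite) (χ : H → Fin k → ℝ) :
    ∃ R : ℕ, S ⊆ SH χ R := by
  have h1 : ∀ x : H, ∃ R : ℕ, x ∈ SH χ R := by
    intro x
    obtain ⟨n, hn⟩ := exists_nat_ge (∑ i, |χ x i|)
    exact ⟨n, fun i => (Finset.single_le_sum (f := fun i => |χ x i|) (fun _ _ => abs_nonneg _)
      (Finset.mem_univ i)).trans hn⟩
  choose f hf using h1
  obtain ⟨M, hM⟩ := (hS.image f).bddAbove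
  refine ⟨M, fun x hx => SH_mono ?_ (hf x)⟩
  exact_mod_cast hM ⟨x, hx, rfl⟩

theorem Data.slab (h : Data η F F' χ C₀) {R : ℕ} {x : H} (hx : x ∈ SH χ (R : ℝ)) :
    F x ∈ Slab η (R + C₀) := by
  intro i
  by_cases hi : i < k
  · have h1 := hx ⟨i, hi⟩
    have h2 := h.near x ⟨i, hi⟩
    have h3 : |(cz η (F x) i : ℝ)| ≤ R + C₀ := by
      unfold cz
      rw [dif_pos hi]
      have e : ((Multiplicative.toAdd (η (F x)) ⟨i, hi⟩ : ℤ) : ℝ) =
        χ x ⟨i, hi⟩ - (χ x ⟨i, hi⟩ - ((Multiplicative.toAdd (η (F x)) ⟨i, hi⟩ : ℤ) : ℝ)) := by ring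
      rw [e]
      exact (abs_sub _ _).trans (add_le_add h1 h2)
    have h4 : (((cz η (F x) i).natAbs : ℕ) : ℝ) ≤ ((R + C₀ : ℕ) : ℝ) := by
      rw [Nat.cast_natAbs, Int.cast_abs]
      push_cast
      exact h3
    exact_mod_cast h4
  · unfold cz
    rw [dif_neg hi]
    simp

theorem Data.of_slab (h : Data η F F' χ C₀) {R : ℕ} {x : H} (hx : F x ∈ Slab η R) :
    x ∈ SH χ ((R + C₀ : ℕ) : ℝ) := by
  intro i
  have h2 := h.near x i
  have h3 := hx i
  unfold cz at h3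
  rw [dif_pos i.2] at h3
  simp only [Fin.eta] at h3
  have h4 : |((Multiplicative.toAdd (η (F x)) i : ℤ) : ℝ)| ≤ R := by
    rw [← Int.cast_abs, Int.abs_eq_natAbs]
    exact_mod_cast h3
  have e : χ x i = (χ x i - ((Multiplicative.toAdd (η (F x)) i : ℤ) : ℝ)) +
    ((Multiplicative.toAdd (η (F x)) i : ℤ) : ℝ) := by ring
  rw [e]
  push_cast
  refine (abs_add_le _ _).trans ?_
  linarith

/-- Counting in the slab of `H`. -/
theorem Data.count (h : Data η F F' χ C₀) (hη : Function.Surjective η)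
    {A : Set G} (hA : A.Finite)
    (hcl : Subgroup.closure A = η.ker) {C D : ℕ} (hgr : ∀ n, (Bl A n).ncard ≤ C * (n + 1) ^ D)
    {B : Set H} (hB : B.Finite) :
    ∃ C' : ℕ, 1 ≤ C' ∧ ∀ R m : ℕ, {x | PathTo (SH χ R) B m 1 x}.Finite ∧
      {x | PathTo (SH χ R) B m 1 x}.ncard ≤ C' ^ (R + 1) * (m + 1) ^ D := by
  obtain ⟨B', hB', hF⟩ := h.coarse B hB
  obtain ⟨C₁, hC₁, h1⟩ := slab_count η hη hA hcl hgr hB'
  obtain ⟨E, hE, hEc⟩ := h.close
  obtain ⟨r, hr⟩ := exists_slab η (F 1)⁻¹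
  refine ⟨C₁ ^ (C₀ + r + 1) * (E.ncard + 1), Nat.mul_pos (Nat.pow_pos hC₁) (by omega),
    fun R m => ?_⟩
  set T : Set G := {x | PathTo (Slab η (R + C₀ + r)) B' m 1 x} with hT
  have hTf := (h1 (R + C₀ + r) m).1
  let f : H → G × H := fun x => ((F 1)⁻¹ * F x, x⁻¹ * F' (F x))
  have hmaps : ∀ x ∈ {x | PathTo (SH χ R) B m 1 x}, f x ∈ T ×ˢ E := by
    intro x hx
    refine ⟨?_, hEc x⟩
    have h2 := PathTo.map (P' := Slab η (R + C₀)) (B' := B') hx F (fun z hz => h.slab hz)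
      (fun z w hzw => hF z w hzw)
    have h3 := h2.left (F 1)⁻¹ (P' := Slab η (R + C₀ + r)) (fun z hz => by
      have := mul_mem_Slab hr hz
      rwa [add_comm r] at this)
    rwa [inv_mul_cancel] at h3
  have hinj : Function.Injective f := by
    intro x y hxy
    simp only [f, Prod.mk.injEq] at hxy
    have e1 : F x = F y := mul_left_cancel hxy.1
    have e2 := hxy.2
    rw [e1] at e2
    exact inv_injective (mul_right_cancel e2)
  have hfin : {x | PathTo (SH χ R) B m 1 x}.Finite :=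
    Set.Finite.of_injOn hmaps hinj.injOn (hTf.prod hE)
  refine ⟨hfin, ?_⟩
  calc {x | PathTo (SH χ R) B m 1 x}.ncard ≤ (T ×ˢ E).ncard :=
        Set.ncard_le_ncard_of_injOn f hmaps hinj.injOn (hTf.prod hE)
    _ = T.ncard * E.ncard := Set.ncard_prod
    _ ≤ (C₁ ^ (R + C₀ + r + 1) * (m + 1) ^ D) * (E.ncard + 1) :=
        Nat.mul_le_mul (h1 _ m).2 (by omega)
    _ ≤ (C₁ ^ ((C₀ + r + 1) * (R + 1)) * (m + 1) ^ D) * (E.ncard + 1) ^ (R + 1) :=
        Nat.mul_le_mul (Nat.mul_le_mul_right _ (Nat.pow_le_pow_right hC₁ (by nlinarith)))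
          (Nat.le_self_pow (by omega) _)
    _ = (C₁ ^ (C₀ + r + 1) * (E.ncard + 1)) ^ (R + 1) * (m + 1) ^ D := by
        rw [mul_pow, pow_mul]; ring

/-- Coarse connectivity of the slab of `H`. -/
theorem Data.connected (h : Data η F F' χ C₀) (hη : Function.Surjective η)
    {A : Set G} (hA : A.Finite) (hcl : Subgroup.closure A = η.ker) (c : ℕ) :
    ∃ (L : Set H) (R : ℕ), L.Finite ∧ ∀ x ∈ SH χ (c : ℝ), ∃ n, PathTo (SH χ R) L n 1 x := by
  classical
  obtain ⟨t, ht, ht'⟩ := exists_t η hη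
  -- the finite set of the corrections
  let box : Finset (Fin k → ℤ) := Fintype.piFinset fun _ =>
    Finset.Icc (-((c + C₀ : ℕ) : ℤ)) ((c + C₀ : ℕ) : ℤ)
  let W : Set G := (fun q : Fin k → ℤ =>
    (tau t (fun i => if h : i < k then q ⟨i, h⟩ else 0) k)⁻¹) '' (box : Set (Fin k → ℤ))
  have hW : W.Finite := box.finite_toSet.image _
  have hcorr : ∀ g ∈ Slab η (c + C₀), (tau t (cz η g) k)⁻¹ ∈ W := by
    intro g hg
    refine ⟨Multiplicative.toAdd (η g), ?_, rfl⟩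
    simp only [box, Finset.mem_coe, Fintype.mem_piFinset, Finset.mem_Icc]
    intro i
    have := hg i
    unfold cz at this
    rw [dif_pos i.2] at this
    simp only [Fin.eta] at this
    omega
  obtain ⟨E, hE, hEc⟩ := h.close
  obtain ⟨E', hE', hEc'⟩ := h.close'
  obtain ⟨L₁, hL₁, hL₁'⟩ := h.coarse' (A ∪ A⁻¹) (hA.union hA.inv)
  obtain ⟨L₂, hL₂, hL₂'⟩ := h.coarse' W hW
  obtain ⟨r, hr⟩ := exists_slab_finite η hE'
  -- the steps
  let L : Set H := L₁ ∪ (E * L₂) ∪ (E * L₂)⁻¹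
  have hL : L.Finite := (hL₁.union (hE.mul hL₂)).union (hE.mul hL₂).inv
  refine ⟨L, r + C₀ + c, hL, fun x hx => ?_⟩
  have hx1 : F x ∈ Slab η (c + C₀) := h.slab hx
  have h1mem : (1 : H) ∈ SH χ (c : ℝ) := fun i => by rw [h.one]; simp
  have h11 : F 1 ∈ Slab η (c + C₀) := h.slab h1mem
  set k₁ : G := F 1 * (tau t (cz η (F 1)) k)⁻¹ with hk₁
  set kx : G := F x * (tau t (cz η (F x)) k)⁻¹ with hkx
  have hk₁k : k₁ ∈ η.ker := tau_inv_mem_ker η ht _
  have hkxk : kx ∈ η.ker := tau_inv_mem_ker η ht _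
  have hmid : k₁⁻¹ * kx ∈ Subgroup.closure A := by
    rw [hcl]
    exact η.ker.mul_mem (η.ker.inv_mem hk₁k) hkxk
  obtain ⟨n, l, -, hl2, hl3⟩ := exists_mem_Bl hmid
  have hker : ∀ g ∈ η.ker, F' g ∈ SH χ ((r + C₀ + c : ℕ) : ℝ) := by
    intro g hg
    refine SH_mono (R := ((r + C₀ : ℕ) : ℝ)) (by push_cast; linarith [Nat.cast_nonneg (α := ℝ) c])
      (h.of_slab ?_)
    have h2 : F (F' g) = g * (g⁻¹ * F (F' g)) := by group
    rw [h2]
    intro i
    rw [cz_mul, (mem_ker_iff_cz η g).mp hg i, zero_add]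
    exact hr (hEc' g) i
  have hpath : PathTo (η.ker : Set G) (A ∪ A⁻¹) l.length k₁ (k₁ * l.prod) := by
    refine PathTo.of_list l k₁ (fun a ha => hl2 a ha) (fun j _ => ?_)
    refine η.ker.mul_mem hk₁k ?_
    rw [← hcl]
    refine Subgroup.list_prod_mem _ fun a ha => ?_
    rcases hl2 a (List.mem_of_mem_take ha) with h | h
    · exact Subgroup.subset_closure h
    · simpa using Subgroup.inv_mem _ (Subgroup.subset_closure h)
  rw [hl3, mul_inv_cancel_left] at hpath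
  have hpath' : PathTo (SH χ ((r + C₀ + c : ℕ) : ℝ)) L l.length (F' k₁) (F' kx) :=
    hpath.map F' hker (fun z w hzw => Or.inl (Or.inl (hL₁' z w hzw)))
  have hends : ∀ y ∈ SH χ (c : ℝ), y⁻¹ * F' (F y * (tau t (cz η (F y)) k)⁻¹) ∈ E * L₂ := by
    intro y hy
    refine ⟨y⁻¹ * F' (F y), hEc y, (F' (F y))⁻¹ * F' (F y * (tau t (cz η (F y)) k)⁻¹),
      hL₂' _ _ ?_, by group⟩
    rw [inv_mul_cancel_left]
    exact hcorr _ (h.slab hy)
  have hin : ∀ y ∈ SH χ (c : ℝ), y ∈ SH χ ((r + C₀ + c : ℕ) : ℝ) := fun y hy =>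
    SH_mono (by push_cast; linarith [Nat.cast_nonneg (α := ℝ) r, Nat.cast_nonneg (α := ℝ) C₀]) hy
  have s1 : PathTo (SH χ ((r + C₀ + c : ℕ) : ℝ)) L 1 1 (F' k₁) := by
    refine PathTo.step (hin _ h1mem) (hker _ hk₁k) (Or.inl (Or.inr ?_))
    exact hends 1 h1mem
  have s2 : PathTo (SH χ ((r + C₀ + c : ℕ) : ℝ)) L 1 (F' kx) x := by
    refine PathTo.step (hker _ hkxk) (hin _ hx) (Or.inr ?_)
    rw [Set.mem_inv]
    have := hends x hx
    rw [mul_inv_rev, inv_inv]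
    exact this
  exact ⟨_, (s1.trans hpath').trans s2⟩

/-- A finite net of the slab of `H`. -/
theorem exists_net {H : Type u} (χ : H → Fin k → ℝ) (R : ℝ) {c : ℝ} (hc : 0 < c) :
    ∃ Φ : Set H, Φ.Finite ∧ Φ ⊆ SH χ R ∧ ∀ x ∈ SH χ R, ∃ s ∈ Φ, ∀ i, |χ x i - χ s i| ≤ c := by
  classical
  let g : H → Fin k → ℤ := fun x i => ⌊χ x i / c⌋
  have hfin : (g '' SH χ R).Finite := by
    refine (Set.Finite.subset (Fintype.piFinset fun _ : Fin k =>
      Finset.Icc (-⌈|R| / c⌉ - 1) (⌈|R| / c⌉)).finite_toSet ?_)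
    rintro _ ⟨x, hx, rfl⟩
    simp only [Finset.mem_coe, Fintype.mem_piFinset, Finset.mem_Icc, g]
    intro i
    have h1 : |χ x i| ≤ |R| := (hx i).trans (le_abs_self R)
    have h2 : χ x i / c ≤ |R| / c := div_le_div_of_nonneg_right ((le_abs_self _).trans h1) hc.le
    have h3 : -(|R| / c) ≤ χ x i / c := by
      rw [← neg_div]
      exact div_le_div_of_nonneg_right (by linarith [neg_abs_le (χ x i)]) hc.le
    constructor
    · rw [Int.le_floor]
      push_cast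
      linarith [Int.le_ceil (|R| / c)]
    · have h4 : (⌊χ x i / c⌋ : ℝ) ≤ ⌈|R| / c⌉ :=
        (Int.floor_le _).trans (h2.trans (Int.le_ceil _))
      exact_mod_cast h4
  have : Finite ↥(g '' SH χ R) := hfin.to_subtype
  have hch : ∀ v : ↥(g '' SH χ R), ∃ x : H, x ∈ SH χ R ∧ g x = v := fun v => v.2
  choose f hf1 hf2 using hch
  refine ⟨Set.range f, Set.finite_range f, ?_, fun x hx => ?_⟩
  · rintro _ ⟨v, rfl⟩
    exact hf1 v
  · refine ⟨f ⟨g x, x, hx, rfl⟩, ⟨_, rfl⟩, fun i => ?_⟩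
    have h1 := congrFun (hf2 ⟨g x, x, hx, rfl⟩) i
    simp only [g] at h1
    set s := f ⟨g x, x, hx, rfl⟩ with hs
    have h2 : |χ s i / c - χ x i / c| < 1 := Int.abs_sub_lt_one_of_floor_eq_floor h1
    rw [← sub_div, abs_div, abs_of_pos hc, div_lt_one hc] at h2
    rw [abs_sub_comm]
    exact h2.le

end

end Vale.Agent.P188.H789
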